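import Vale.Agent.P004R.Dpt0

/-! # P014Z, route R, row DPT: congruences modulo a prime above `q` (pure algebra) -/

set_option autoImplicit false
set_option linter.all false

open Polynomial

namespace Vale.Agent.P014Z.Rp.Dt

open Vale.Agent.P004R.Dt (Sm ex_e)

section core

variable {R : Type} [CommRing R] {p p' : Ideal R} {n : R}

theorem n_mem (hm : p * p' = Ideal.span {n}) (k : ℕ) : n ^ k ∈ p ^ k :=
  Ideal.pow_mem_pow (Ideal.mul_le_left (J := p') (by rw [hm]; exact Ideal.mem_span_singleton_self _)) k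

theorem l1 (hm : p * p' = Ideal.span {n}) (hc : p ⊔ p' = ⊤) (m k : ℕ) {y : R}
    (hy : y ∈ p ^ k) : ∃ w, y - n ^ k * w ∈ p ^ m := by
  obtain ⟨e, he, h⟩ := ex_e hc m k
  have := Ideal.mul_mem_mul hy he
  rw [← mul_pow, hm, Ideal.span_singleton_pow, Ideal.mem_span_singleton'] at this
  obtain ⟨w, hw⟩ := this
  refine ⟨w, ?_⟩
  rw [mul_comm, hw, ← mul_one_sub]
  exact Ideal.mul_mem_left _ _ h

theorem l2 [IsDomain R] (h2 : n ≠ 0) (hm : p * p' = Ideal.span {n}) (hc : p ⊔ p' = ⊤)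
    (k : ℕ) {w : R} (hw : n ^ k * w ∈ p ^ (k + 1)) : w ∈ p := by
  obtain ⟨e, he, h⟩ := ex_e hc 1 (k + 1)
  have := Ideal.mul_mem_mul hw he
  rw [← mul_pow, hm, Ideal.span_singleton_pow, Ideal.mem_span_singleton'] at this
  obtain ⟨a, ha⟩ := this
  have e1 : w * e = n ^ 1 * a := mul_left_cancel₀ (pow_ne_zero k h2) (by linear_combination -ha)
  have : w = w * (1 - e) + n ^ 1 * a := by linear_combination e1
  rw [this, ← pow_one p]
  exact add_mem (Ideal.mul_mem_left _ _ h) (Ideal.mul_mem_right _ _ (n_mem hm 1))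

theorem pw_sq {q : ℕ} (hq : (q : R) ∈ p) {T : R} (h : T - 1 ∈ p) : T ^ q - 1 ∈ p ^ 2 := by
  rw [← geom_sum_mul, pow_two]
  refine Ideal.mul_mem_mul ?_ h
  rw [← Ideal.Quotient.eq_zero_iff_mem] at hq ⊢
  simp only [map_sum, map_pow, Ideal.Quotient.eq.2 h, map_one, one_pow, Finset.sum_const,
    Finset.card_range, nsmul_one]
  rwa [map_natCast] at hq

theorem core [IsDomain R] {q : ℕ} (h2 : (q : R) ≠ 0) (hm : p * p' = Ideal.span {(q : R)})
    (hc : p ⊔ p' = ⊤) (f : R →+* R) (hf : ∀ k y, f y ∈ p ^ k ↔ y ∈ p ^ k) {S x u : R} {o : ℕ}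
    (ho : ∃ m, o = q * m + 1) (h1 : S ^ o - 1 ∈ p) (hS : f S - S ^ q * (1 + q * x) ∈ p ^ 2)
    (hu : u * S = f S) : ∃ w, u ^ o - 1 - q * (f w - w) ∈ p ^ 2 ∧ f w - x ∈ p := by
  have t5 : ∀ a : R, (q : R) ^ 2 * a ∈ p ^ 2 := fun a => Ideal.mul_mem_right a _ (n_mem hm 2)
  have t1 : (q : R) ∈ p := by simpa using n_mem hm 1
  set T := S ^ o with hT
  have hT1 : f T - T ^ q * (1 + q * x) ∈ p ^ 2 := by
    obtain ⟨m, rfl⟩ := ho
    rw [← Ideal.Quotient.eq] at hS ⊢
    have : Ideal.Quotient.mk (p ^ 2) ((1 + q * x) ^ q) = 1 := by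
      rw [← map_one (Ideal.Quotient.mk (p ^ 2)), Ideal.Quotient.eq]
      exact pw_sq t1 (by simpa using p.mul_mem_right x t1)
    rw [hT, map_pow f, map_pow, hS, map_mul, mul_pow, map_mul, pow_succ _ (q * m), pow_succ _ (q * m),
      pow_mul (Ideal.Quotient.mk _ (1 + q * x)), ← map_pow _ _ q, this]
    simp only [map_pow]; ring
  have k5 : f T - 1 - q * x ∈ p ^ 2 := by
    convert add_mem hT1 (Ideal.mul_mem_right (1 + q * x) _ (pw_sq t1 h1)) using 1
    ring
  obtain ⟨w, hw⟩ := l1 hm hc 2 1 (y := T - 1) (by rwa [pow_one])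
  have hw' := (hf 2 _).2 hw
  simp only [map_sub, map_mul, map_one, map_natCast, pow_one] at hw hw'
  refine ⟨w, ?_, l2 h2 hm hc 1 ?_⟩
  · have e : u ^ o * T = f T := by rw [hT, ← mul_pow, hu, map_pow]
    have : u ^ o - 1 - q * (f w - w) = (f T - 1 - q * f w) * (1 - q * w) -
        (T - 1 - q * w) * (u ^ o * (1 - q * w)) + q ^ 2 * (w * (u ^ o * w - f w)) := by
      linear_combination (1 - q * w) * e
    rw [this]
    exact add_mem (sub_mem (Ideal.mul_mem_right _ _ hw') (Ideal.mul_mem_right _ _ hw)) (t5 _)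
  · convert sub_mem k5 hw' using 1; ring

theorem l3 {R' : Type} [CommRing R'] [IsDomain R'] (f : R →+* R') (h2 : f n ≠ 0) (P : Ideal R')
    [hP : P.IsPrime] (hm : P.comap f * p' = Ideal.span {n}) (hc : P.comap f ⊔ p' = ⊤) (k : ℕ)
    {z : R} (hz : f z ∈ Sm P (f n ^ k)) : z ∈ P.comap f ^ (k + 1) := by
  obtain ⟨s, hs, t, ht, e⟩ := hz
  induction k generalizing t with
  | zero => simpa using (hP.mem_or_mem (show s * f z ∈ P by simpa [e] using ht)).resolve_left hs
  | succ k ih =>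
    have h1 := ih (f n * t) (P.mul_mem_left _ ht) (by linear_combination e)
    obtain ⟨e', he, h⟩ := ex_e hc (k + 1 + 1) (k + 1)
    have := Ideal.mul_mem_mul h1 he
    rw [← mul_pow, hm, Ideal.span_singleton_pow, Ideal.mem_span_singleton'] at this
    obtain ⟨a, ha⟩ := this
    have e1 := congrArg f ha
    simp only [map_mul, map_pow] at e1
    have e2 : s * f a = t * f e' :=
      mul_left_cancel₀ (pow_ne_zero (k + 1) h2) (by linear_combination s * e1 + f e' * e)
    have a1 : a ∈ P.comap f :=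
      (hP.mem_or_mem (show s * f a ∈ P from e2 ▸ P.mul_mem_right _ ht)).resolve_left hs
    rw [show z = n ^ (k + 1) * a + z * (1 - e') by linear_combination -ha]
    exact add_mem (pow_succ (P.comap f) (k + 1) ▸ Ideal.mul_mem_mul (n_mem hm _) a1)
      (Ideal.mul_mem_left _ _ h)

theorem prod (P : Ideal R) [hP : P.IsPrime] (h2 : n ∈ P) (q : ℕ) {ι : Type} (s : Finset ι)
    (a b x : ι → R) (h : ∀ i ∈ s, b i - a i ^ q * (1 + n * x i) ∈ Sm P (n ^ 1)) :
    ∏ i ∈ s, b i - (∏ i ∈ s, a i) ^ q * (1 + n * ∑ i ∈ s, x i) ∈ Sm P (n ^ 1) := by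
  classical
  induction s using Finset.induction_on with
  | empty => simp
  | insert i s hi ih =>
    have h1 := ih fun k hk => h k (Finset.mem_insert_of_mem hk)
    have h3 : n * n ∈ Sm P (n ^ 1) := ⟨1, hP.one_notMem, n, h2, by ring⟩
    rw [Finset.prod_insert hi, Finset.prod_insert hi, Finset.sum_insert hi]
    convert add_mem (add_mem (Ideal.mul_mem_left _ (b i) h1) (Ideal.mul_mem_left _
      ((∏ i ∈ s, a i) ^ q * (1 + n * ∑ i ∈ s, x i)) (h i (Finset.mem_insert_self _ _))))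
      (Ideal.mul_mem_left _ ((a i * ∏ i ∈ s, a i) ^ q * x i * ∑ i ∈ s, x i) h3) using 1
    ring

end core

variable {q : ℕ} [hq : Fact q.Prime]

theorem bin (n i : ℕ) (hi : i < q ^ n) : ∑ a ∈ Finset.range (q ^ n), (a.choose i : (ZMod q)[X]) * X ^ a =
    (-X) ^ i * (X - 1) ^ (q ^ n - 1 - i) := by
  have x0 : (X - 1 : (ZMod q)[X]) ≠ 0 := by simpa using X_sub_C_ne_zero (1 : ZMod q)
  induction i with
  | zero =>
    refine mul_right_cancel₀ x0 ?_
    simp only [Nat.choose_zero_right, Nat.cast_one, one_mul, geom_sum_mul, pow_zero, Nat.sub_zero]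
    rw [← pow_succ, Nat.sub_add_cancel hi, sub_pow_char_pow, one_pow]
  | succ i ih =>
    have key : ∀ N, (∑ a ∈ Finset.range N, (a.choose (i + 1) : (ZMod q)[X]) * X ^ a) * (X - 1) =
        (N.choose (i + 1) : (ZMod q)[X]) * X ^ N -
          X * ∑ a ∈ Finset.range N, (a.choose i : (ZMod q)[X]) * X ^ a := fun N => by
      induction N with
      | zero => simp
      | succ N h =>
        rw [Finset.sum_range_succ, Finset.sum_range_succ, add_mul, h, Nat.choose_succ_succ' N i]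
        push_cast; ring
    refine mul_right_cancel₀ x0 ?_
    rw [key, ih (by omega), (CharP.cast_eq_zero_iff _ q _).2
      (hq.out.dvd_choose_pow (by omega) hi.ne),
      show q ^ n - 1 - i = q ^ n - 1 - (i + 1) + 1 by omega]
    ring

section res

variable {V : Type} [AddCommGroup V] [Module (ZMod q) V] (S : Module.End (ZMod q) V)

theorem sub_pw (n : ℕ) : (S - 1) ^ q ^ n = S ^ q ^ n - 1 := by
  have := congrArg (aeval S) (sub_pow_char_pow (p := q) (n := n) (X : (ZMod q)[X]) 1)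
  simpa using this

theorem kill {N n a b l : ℕ} (hN : N = q ^ n) (hS : S ^ N = 1) (hab : a * b ≡ 1 [MOD N]) (hl : l ≤ N)
    {x : V} (h : ∀ i < l, ∑ k ∈ Finset.range N, k.choose i • (S ^ (a * k)) x = 0) :
    ((S - 1) ^ (N - l)) x = 0 := by
  subst hN
  rcases l with _ | l
  · simp [sub_pw, hS]
  have e := congrArg (fun p => aeval (S ^ a) p x) (bin (q := q) n l hl)
  simp only [map_sum, map_mul, map_natCast, map_pow, map_neg, aeval_X, map_sub, map_one,
    LinearMap.sum_apply, Module.End.mul_apply, Module.End.natCast_apply, ← pow_mul] at e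
  rw [h l l.lt_succ_self, Nat.sub_sub, add_comm 1] at e
  have u : IsUnit S := IsUnit.of_pow_eq_one hS (pow_ne_zero _ hq.out.ne_zero)
  have e1 : ((S ^ a - 1) ^ (q ^ n - (l + 1))) x = 0 :=
    ((Module.End.isUnit_iff _).1 ((u.pow a).neg.pow l)).1 (e.symm.trans (map_zero _).symm)
  have e2 : S - 1 = (∑ k ∈ Finset.range b, (S ^ a) ^ k) * (S ^ a - 1) := by
    rw [geom_sum_mul, ← pow_mul, pow_eq_pow_of_modEq hab hS, pow_one]
  rw [e2, Commute.mul_pow, Module.End.mul_apply, e1, map_zero]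
  exact Commute.sum_left _ _ _ fun k _ =>
    ((Commute.refl _).pow_left k).sub_right (Commute.one_right _)

theorem kill2 {M m a b l : ℕ} (hM : M = q ^ m) (hS : S ^ (q * M) = 1) (hab : a * b ≡ 1 [MOD q * M])
    (hl : l + 1 ≤ (q - 1) * M) {w : V}
    (h : ∀ i < l, ∑ k ∈ Finset.range (q * M), k.choose i • (S ^ (a * k)) (S w) = 0) :
    (S ^ M) (((S - 1) ^ ((q - 1) * M - l - 1)) (S w - w)) =
      ((S - 1) ^ ((q - 1) * M - l - 1)) (S w - w) := by
  have qM : q * M = (q - 1) * M + M := by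
    rw [← Nat.succ_mul, Nat.succ_eq_add_one, Nat.sub_add_cancel hq.out.pos]
  have e := kill S (n := m + 1) (by rw [hM, pow_succ']) hS hab (by omega) h
  have u : IsUnit S := IsUnit.of_pow_eq_one hS (by omega)
  rw [← Module.End.mul_apply, ← (((Commute.refl S).sub_right (Commute.one_right S)).pow_right _).eq,
    Module.End.mul_apply] at e
  have e1 := ((Module.End.isUnit_iff _).1 u).1 (e.trans (map_zero _).symm)
  have e2 : (S - 1) ^ M = S ^ M - 1 := hM ▸ sub_pw S m
  rw [show q * M - l = M + ((q - 1) * M - l - 1) + 1 by omega, pow_succ, pow_add, e2] at e1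
  simpa [sub_eq_zero] using e1

end res

section act

variable {G R : Type} [Group G] [CommRing R] [MulSemiringAction G R] {σ : G} {p : Ideal R}

theorem stab (pp : p.IsPrime) (fr : ∀ y, σ • y - y ^ q ∈ p) (k : ℕ) (y : R) :
    σ • y ∈ p ^ k ↔ y ∈ p ^ k := by
  let τ := MulSemiringAction.toRingEquiv G R σ
  have st : p.comap τ = p := Ideal.ext fun y =>
    ⟨fun h => pp.mem_of_pow_mem q (by simpa using sub_mem (show σ • y ∈ _ from h) (fr y)),
      fun h => show σ • y ∈ p by simpa using add_mem (fr y) (Ideal.pow_mem_of_mem _ h q hq.out.pos)⟩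
  have : p.map τ = p := by rw [← st, Ideal.map_comap_of_surjective _ τ.surjective, st]
  rw [← Ideal.apply_mem_of_equiv_iff (f := τ) (x := y), Ideal.map_pow, this]; rfl

theorem resid (pp : p.IsPrime) (h2 : (q : R) ∈ p) (fr : ∀ y, σ • y - y ^ q ∈ p) {M m a b l : ℕ}
    (hM : M = q ^ m) (ord : σ ^ (q * M) = 1) (hab : a * b ≡ 1 [MOD q * M])
    (hl : l + 1 ≤ (q - 1) * M) {ω x : R} (k2 : σ • ω - x ∈ p)
    (h : ∀ i < l, ∑ k ∈ Finset.range (q * M), k.choose i • σ ^ (a * k) • x ∈ p) :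
    Ideal.Quotient.mk p ((fun z : R => σ • z - z)^[(q - 1) * M - l - 1] (σ • ω - ω)) ^ q ^ M =
      Ideal.Quotient.mk p ((fun z : R => σ • z - z)^[(q - 1) * M - l - 1] (σ • ω - ω)) := by
  set π := Ideal.Quotient.mk p
  have : CharP (R ⧸ p) q := (CharP.charP_iff_prime_eq_zero hq.out).2
    (Ideal.Quotient.eq_zero_iff_mem.2 h2)
  let _ : Algebra (ZMod q) (R ⧸ p) := ZMod.algebra _ q
  let S : Module.End (ZMod q) (R ⧸ p) := (FiniteField.frobeniusAlgHom (ZMod q) _).toLinearMap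
  have S1 : ∀ y, S y = y ^ q := fun y => by simp [S]
  have S2 : ∀ y, π (σ • y) = S (π y) := fun y => by
    rw [S1, ← map_pow]; exact Ideal.Quotient.eq.2 (fr y)
  have S3 : ∀ (k : ℕ) y, π (σ ^ k • y) = (S ^ k) (π y) := fun k y => by
    induction k with
    | zero => simp
    | succ k ih => rw [pow_succ', pow_succ', mul_smul, S2, ih, Module.End.mul_apply]
  have S4 : ∀ (k : ℕ) y, (S ^ k) y = y ^ q ^ k := fun k y => by
    induction k with
    | zero => simp
    | succ k ih => rw [pow_succ', Module.End.mul_apply, ih, S1, ← pow_mul, pow_succ]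
  have S5 : ∀ (k : ℕ) y, π ((fun z : R => σ • z - z)^[k] y) = ((S - 1) ^ k) (π y) := fun k y => by
    induction k with
    | zero => simp
    | succ k ih =>
      rw [Function.iterate_succ_apply', map_sub, S2, ih, pow_succ', Module.End.mul_apply]; rfl
  have := kill2 S (w := π ω) hM (LinearMap.ext fun y => by
      obtain ⟨y, rfl⟩ := Ideal.Quotient.mk_surjective y
      rw [← S3, ord, one_smul]; rfl) hab hl fun i hi => by
      rw [← S2, show π (σ • ω) = π x from Ideal.Quotient.eq.2 k2]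
      simp only [← S3, ← map_nsmul, ← map_sum]
      exact Ideal.Quotient.eq_zero_iff_mem.2 (h i hi)
  rwa [← S2, ← map_sub, ← S5, S4] at this

end act

theorem mod_o {f : ℕ} (h : 0 < f) : ∃ n, (q ^ f - 2 + 1) * (q - 1) = q * n + 1 := by
  obtain ⟨k, hk⟩ := dvd_pow_self q h.ne'
  have h1 := Nat.le_self_pow h.ne' q
  have h2 := hq.out.two_le
  obtain ⟨r, rfl⟩ : ∃ r, q = r + 2 := ⟨q - 2, by omega⟩
  obtain ⟨k, rfl⟩ : ∃ k', k = k' + 1 := ⟨k - 1, by rcases k with _ | k <;> omega⟩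
  refine ⟨k * (r + 1) + r, ?_⟩
  rw [hk, show (r + 2) * (k + 1) - 2 + 1 = (r + 2) * k + r + 1 by
    rw [mul_add, mul_one]; omega, show r + 2 - 1 = r + 1 from rfl]
  ring

end Vale.Agent.P014Z.Rp.Dt
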