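import Vale.Agent.P014Z.Rp.St
import Vale.Agent.P014Z.Ml.Wd
import Vale.Agent.P014Y.F.Pt.Kd
import Vale.Agent.P004R.Lex

/-! # P014Z: facts on the frame at any odd prime (kit of the row FAC) -/

set_option autoImplicit false
set_option linter.all false

open NumberField Matrix
open scoped Pointwise PowerSeries NumberTheorySymbols

noncomputable section

namespace Vale.Agent.P014Z.Rp.Fc

open Vale.Agent.P022 (Qb GQ GK IsFrob)
open P004K P014U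
open Vale.Agent.P022D.W (dec)
open Vale.Agent.P022E.GW (Ov Fb)
open Vale.Agent.P022K.G2 (oz)
open P014Y.F (Crv Fld)
open Ml (Tq ch r2 Z0 Ge)

variable [Pp] (e : Crv)

/-- the residual representation -/
abbrev rr (g : GQ) : Matrix (Fin 2) (Fin 2) (ZMod pp) := (e.r g).map PadicInt.toZMod

/-- the model ring -/
abbrev mq (J : ℕ) : (ZMod pp)⟦X⟧ →+* P014Y.F.Rb J := Ideal.Quotient.mk _

theorem rb_mul (g h : GQ) : rr e (g * h) = rr e g * rr e h := by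
  rw [rr, map_mul, Matrix.map_mul]

theorem rb_one : rr e 1 = 1 := by
  rw [rr, map_one]; exact Matrix.map_one _ (map_zero _) (map_one _)

theorem cyc (g : GQ) (w : Qb) (h : w ^ pp = 1) : g w = w ^ (rr e g).det.val := by
  have k := cyclotomicCharacter.spec pp (n := 1) g.toRingEquiv w (by simpa using h)
  have d : (rr e g).det = PadicInt.toZMod (e.r g).det := (RingHom.map_det _ _).symm
  rw [d, Crv.r, X4M.TE.det_cyc]
  refine k.trans (congrArg (w ^ ·) ?_)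
  generalize ((cyclotomicCharacter Qb pp g.toRingEquiv : ℤ_[pp]ˣ) : ℤ_[pp]) = x
  have a : ∀ n : ℕ, (PadicInt.toZModPow 1 x = n ↔ PadicInt.toZMod x = n) := fun n => by
    rw [← sub_eq_zero, ← map_natCast (PadicInt.toZModPow (p := pp) 1), ← map_sub, ← RingHom.mem_ker,
      PadicInt.ker_toZModPow, pow_one, ← PadicInt.maximalIdeal_eq_span_p, ← PadicInt.ker_toZMod,
      RingHom.mem_ker, map_sub, map_natCast, sub_eq_zero]
  rw [(a _).1 (ZMod.natCast_zmod_val _).symm, ZMod.val_cast_of_lt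
    ((ZMod.val_lt _).trans_eq (pow_one _))]

theorem det (g : GQ) : (rr e g).det = oz pp g :=
  P022K.G2.pw_inj ((cyc e g _ P022K.G2.zt_pow).symm.trans (P022K.G2.oz_spec g))

theorem tr_fb {l : ℕ} {P : Ideal (𝓞 Qb)} {φ : GQ} (o : Ov l P) (k : l ∉ e.S) (f : Fb l P φ) :
    (rr e φ).trace = e.a l ∧ (rr e φ).det = l :=
  ⟨by rw [rr, ← AddMonoidHom.map_trace,
      show (e.r φ).trace = e.a l from (e.bad l o.1 k).2.2 φ ⟨P, o.2.1, o.2.2, f⟩, map_intCast],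
    by rw [show (rr e φ).det = PadicInt.toZMod (e.r φ).det from (RingHom.map_det _ _).symm,
      e.det_fb o (e.ne_pp k) f, map_natCast]⟩

/-- the congruence, from the vanishing of `det (ρ g - 1)` -/
theorem eis0 (h : ∀ g, (rr e g - 1).det = 0) {l : ℕ} (hl : l.Prime) (k : l ∉ e.S) :
    (pp : ℤ) ∣ e.a l - (1 + l) := by
  obtain ⟨P, o⟩ := P004R.Mu.ex_pl hl
  obtain ⟨φ, f⟩ := P022D.W.exists_phi hl o.2.1 o.2.2
  obtain ⟨t, d⟩ := tr_fb e o k f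
  have z := h φ
  refine (ZMod.intCast_zmod_eq_zero_iff_dvd _ pp).1 ?_
  push_cast
  rw [← t, ← d]
  simp only [det_fin_two, trace_fin_two, Matrix.sub_apply, one_apply_eq,
    one_apply_ne (zero_ne_one' (Fin 2)), one_apply_ne (zero_ne_one' (Fin 2)).symm] at z ⊢
  linear_combination -z

theorem eis {v : Fin 2 → ZMod pp} (v0 : v ≠ 0)
    (hv : (∀ g ∈ (⊤ : Subgroup GQ), rr e g *ᵥ v = v) ∨ ∀ g ∈ (⊤ : Subgroup GQ), v ᵥ* rr e g = v)
    {l : ℕ} (hl : l.Prime) (k : l ∉ e.S) : (pp : ℤ) ∣ e.a l - (1 + l) := by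
  refine eis0 e (fun φ => ?_) hl k
  rcases hv with hv | hv
  · exact exists_mulVec_eq_zero_iff.1 ⟨v, v0, by rw [sub_mulVec, hv φ trivial, one_mulVec, sub_self]⟩
  · exact exists_vecMul_eq_zero_iff.1 ⟨v, v0, by rw [vecMul_sub, hv φ trivial, vecMul_one, sub_self]⟩

variable {e} (b : Fld e)

theorem spl {p : ℕ} (h : p ∈ e.S) {Q : Ideal (𝓞 Qb)} (o : Ov p Q) : dec Q ≤ GK b.j := fun g hg => by
  obtain ⟨t, -, k⟩ := P004S.ex_conj (e.ov p h) o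
  simpa [mul_assoc] using b.Γ_conj (b.le p h (k g hg)) t

theorem kd : Kd b.j := by
  refine ⟨b.iq, b.upm, fun P o => spl b e.pm o, ?_, b.c, b.c_out, fun n ζ h => ?_⟩
  · obtain ⟨τ, t, k⟩ := b.ex_ker
    refine ⟨τ, t, fun n y hy => (X4S.cyc_ep e.rep τ n 1 y hy ?_).trans (pow_one y)⟩
    rw [X4S.ep, e.mt_rp, k, Matrix.map_one _ PadicInt.coe_zero PadicInt.coe_one, det_one,
      Nat.cast_one, sub_self, norm_zero]
    exact (pow_pos X4S.ip_pos n).le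
  · obtain ⟨φ, c⟩ := b.cc
    have m : ‖φ ζ‖ = 1 :=
      Complex.norm_eq_one_of_pow_eq_one (by rw [← map_pow, h, map_one]) (pow_ne_zero n pp_ne)
    exact eq_inv_of_mul_eq_one_left (φ.injective (by
      rw [map_mul, c, mul_comm, Complex.mul_conj', m, map_one]; simp))

theorem typ {q : ℕ} {P : Ideal (𝓞 Qb)} (o : Ov q P) (h2 : q ≠ 2) (d : dec P ≤ GK b.j) :
    ¬ q ∣ b.δ' ∧ Typ b.K q (q - 1) := by
  have := Fact.mk o.1
  have nd : ¬ (q : ℤ) ∣ -(b.δ' : ℤ) := fun k => by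
    obtain ⟨τ, t⟩ := P022E.GW.Tg.ex_gn' o
    exact one_ne_zero ((P004S.nu_tau o h2 (Int.squarefree_natAbs.1 (by simpa using b.adm.sq)) k
      t).symm.trans ((b.kd.gk τ).1 (d (P004S.inert_dec t.1))))
  refine ⟨fun k => nd (dvd_neg.2 (Int.natCast_dvd_natCast.2 k)), ?_⟩
  obtain ⟨-, φ, -, f, m⟩ := P004R.Mu.ex_st o
  have a := P004R.Mu.nu_fb o h2 f nd
  rw [if_pos ((b.kd.gk φ).1 (d m))] at a
  obtain ⟨t, ht⟩ := ZMod.isSquare_of_jacobiSym_eq_one a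
  obtain ⟨t, rfl⟩ := ZMod.intCast_surjective t
  have c : (q : ℤ) ∣ t ^ 2 + b.δ' := (ZMod.intCast_zmod_eq_zero_iff_dvd _ q).1 (by
    push_cast at ht ⊢
    linear_combination -ht)
  obtain ⟨ω, s, qd⟩ := Rc.qd b.j b.iq
  refine P004R.Xt.typ qd b.pos b.th o.1 c fun k => ?_
  rcases (Nat.prime_iff_prime_int.1 o.1).dvd_or_dvd k with k | k
  · exact h2 ((Nat.prime_dvd_prime_iff_eq o.1 Nat.prime_two).1 (by exact_mod_cast k))
  · exact nd (dvd_neg.2 ((dvd_add_right (dvd_pow k two_ne_zero)).1 c))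

theorem gd (c : ℕ) : P004F.Pr.Gd (GK b.j) (e.S.toFinset ∪ c.primeFactors) (rr e) := by
  have two := Finset.mem_union_left c.primeFactors (List.mem_toFinset.2 e.two)
  have p : ∀ l ∈ e.S.toFinset ∪ c.primeFactors, l.Prime := fun l hl => (Finset.mem_union.1 hl).elim
    (fun k => (e.ov l (List.mem_toFinset.1 k)).1) Nat.prime_of_mem_primeFactors
  have g := P004R.Lx.gd (R := ZMod 2) b.kd two p (χ := fun _ => 1) rfl
    (fun _ _ _ _ => (mul_one _).symm) ⟨⊤, isOpen_univ, fun _ _ => rfl⟩ fun _ _ _ => rfl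
  refine ⟨g.opn, g.idx, g.cx, two, p, rb_one e, fun g _ h _ => rb_mul e g h,
    ⟨_, e.rep.Kn_open 1, fun w _ m => e.tr_one.1 m⟩, ?_⟩
  rintro g - ⟨l, hl, P, o, i⟩
  exact e.tr_one.1 (e.rep.Kn_uns 1 l P o (fun k => hl (Finset.mem_union_left _ k)) g i)

theorem ge (c : ℕ) : Ge (GK b.j) (e.S.toFinset ∪ c.primeFactors) (rr e) :=
  .of (gd b c) (Finset.mem_union_left _ (List.mem_toFinset.2 e.pm))

theorem tq (J : ℕ) : Tq (mq J) J :=
  ⟨Ideal.Quotient.mk_surjective, fun _ => Ideal.Quotient.eq_zero_iff_mem.trans Ideal.mem_span_singleton⟩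

theorem eqv (J c n : ℕ) (x : GQ → ZMod n) : Nonempty (b.Z0 J c (fun g => (x g).val) ≃
    Z0 (GK b.j) (e.S.toFinset ∪ c.primeFactors) (r2 (mq J) (ch (mq J) x) (rr e)) (e.P pp)) := by
  have a : b.ab J (fun g => (x g).val) = r2 (mq J) (ch (mq J) x) (rr e) := funext fun g => by
    rw [Fld.ab, r2, ch, rr, map_add, map_one, Matrix.map_map]; rfl
  rw [← a]
  refine ⟨⟨fun z => ⟨(z.1, 0), z.2.1.coc, z.2.1.out, z.2.1.lc, z.2.1.unr,
    fun _ g hg => (z.2.2 g hg.2).trans (P004F.Pr.ac_zero _).symm⟩,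
    fun z => ⟨z.1.1, ⟨z.2.1, z.2.2.1, z.2.2.2.1, z.2.2.2.2.1⟩, fun g hg => ?_⟩, fun _ => rfl,
    fun z => Subtype.ext (Prod.ext rfl (Subsingleton.elim _ _))⟩⟩
  rw [z.2.2.2.2.2 () g ⟨b.le pp e.pm hg, hg⟩, Subsingleton.elim z.1.2 0, P004F.Pr.ac_zero]

open P014U.X4F.En (Gq)

theorem nq : Nq b.j e.S.toFinset (fun m => e.rep.Kn (m + 1)) (Gq e.rp) := by
  have h := e.rep
  refine ⟨fun m => ⟨h.Kn_open _, h.Kn_normal _, h.Kn_uns _⟩, fun m g u hu a => a.mul h hu,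
    fun m g x a => a.conj x, fun m m' g l a => a.mono (by omega), fun A hA W hW => ?_⟩
  obtain ⟨u, hu, bu, fx⟩ := b.ex_big
  obtain ⟨N, N0, -, hN⟩ := Subgroup.exists_pow_mem_of_index_ne_zero (P004S.idx_ne hW) u
  refine ⟨u ^ N, pow_mem hu N, hN, fun n y hy => ?_, ?_⟩
  · have k : u y = y := fx n y (hy.imp id fun ⟨a, ha, k⟩ => ⟨a, fun z => hA (z ▸ ha), k⟩)
    exact (MulAction.stabilizer GQ y).pow_mem k N
  obtain ⟨m, hm⟩ := bu.gq h N0.ne'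
  refine ⟨m, fun g hg => (hm g ?_).imp fun i k => ⟨k.1, pow_mul u N i ▸ k.2⟩⟩
  obtain ⟨x, hx⟩ : ∃ x : ℤ_[pp], (x : ℚ_[pp]) = X4S.ep e.rp g := ⟨⟨_, (h.norm_ep g).le⟩, rfl⟩
  have hζ : IsPrimitiveRoot (P022K.G2.zt pp) (pp ^ 1) := (pow_one pp).symm ▸ P022K.G2.zt_prim pp
  have a : ‖X4S.ep e.rp g - x.appr 1‖ ≤ (1 / pp : ℝ) ^ 1 := by
    have := (PadicInt.norm_le_pow_iff_mem_span_pow _ 1).2 (x.appr_spec 1)
    rw [← hx, X4S.ip_pow]
    exact le_of_eq_of_le (by rw [PadicInt.norm_def]; rfl) this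
  have e1 := X4S.cyc_ep h g 1 _ _ hζ.pow_eq_one a
  rw [hg _ P022K.G2.zt_pow] at e1
  rw [hζ.pow_inj (x.appr_lt 1) ((pow_one pp).symm ▸ one_lt) (e1.symm.trans (pow_one _).symm)] at a
  rwa [Nat.cast_one, pow_one] at a

theorem gp {m q : ℕ} (hq : q.Prime) (h : q ∉ e.S) (g : ∀ φ, IsFrob q φ → Gq e.rp m φ) :
    ¬ (pp : ℤ) ^ (2 * m + 1) ∣ ((q : ℤ) + 1) ^ 2 - e.a q ^ 2 := fun d => by
  obtain ⟨P, o⟩ := P004R.Mu.ex_pl hq
  obtain ⟨φ, f⟩ := P022D.W.exists_phi hq o.2.1 o.2.2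
  obtain ⟨g1, g2⟩ := g φ ⟨P, o.2.1, o.2.2, f⟩
  rw [(e.tr_fb o h f).1, (e.tr_fb o h f).2] at g1 g2
  have a := (Padic.norm_int_le_pow_iff_dvd (p := pp) (((q : ℤ) + 1) ^ 2 - e.a q ^ 2) (2 * m + 1)).2 d
  have c := mul_le_mul g1 g2 (pow_pos X4S.ip_pos m).le (norm_nonneg _)
  rw [← norm_mul, show (1 - (e.a q : ℚ_[pp]) + q) * (1 + e.a q + q) =
    ((((q : ℤ) + 1) ^ 2 - e.a q ^ 2 : ℤ) : ℚ_[pp]) by push_cast; ring] at c
  have := c.trans a
  rw [← pow_add, ← X4S.ip_pow, pow_le_pow_iff_right_of_lt_one₀ X4S.ip_pos X4S.ip_lt] at this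
  omega

end Vale.Agent.P014Z.Rp.Fc
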