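import Vale.Agent.P014Y.Rd.Adj

/-!
# P014Z: adjustment by inertia at the first primes, any odd prime (word free; helper64)
-/

set_option autoImplicit false
set_option linter.all false

open NumberField IsDedekindDomain
open scoped Pointwise

noncomputable section

namespace Vale.Agent.P014Z.Rp.Ad

open Vale.Agent.P022 (Qb GQ GK below)
open P004K
open Vale.Agent.P027M.S (Inert)
open Vale.Agent.P022D.W (dec inP_le_dec)
open Vale.Agent.P022E.GW (Ov)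
open Vale.Agent.P022K.G2
open P014U
open P014Y.Rd (qa Kv)
open P014Y.Rd.Ad (fix_cj qa_fix qa_inv j_ne nat_below not_le le_of_mem ov_sm in_cj)

variable [Pp]

theorem dv1 {q : ℕ} (h : q % pp = 1) : q = pp * (q / pp) + 1 := by
  conv_lhs => rw [← Nat.div_add_mod q pp, h]

/-- the power residue character -/
theorem ex_cub {q : ℕ} [Fact q.Prime] (h : q % pp = 1) : ∃ c : (ZMod q)ˣ → ZMod pp,
    (∀ u v, c (u * v) = c u + c v) ∧ ∀ u, c u = 0 ↔ ∃ a, u = a ^ pp := by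
  let e := zmodCyclicMulEquiv (G := (ZMod q)ˣ) inferInstance
  have d : pp ∣ Nat.card (ZMod q)ˣ := by
    rw [Nat.card_eq_fintype_card, ZMod.card_units]
    exact ⟨q / pp, by have := dv1 h; omega⟩
  haveI : NeZero (Nat.card (ZMod q)ˣ) := ⟨Nat.card_pos.ne'⟩
  refine ⟨fun u => ZMod.castHom d (ZMod pp) (e.symm u).toAdd, fun u v => by
    simp only [map_mul, toAdd_mul, map_add], fun u => ⟨fun z => ?_, ?_⟩⟩
  · beta_reduce at z
    rw [← ZMod.natCast_zmod_val (e.symm u).toAdd, map_natCast, ZMod.natCast_eq_zero_iff] at z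
    obtain ⟨k, hk⟩ := z
    refine ⟨e (Multiplicative.ofAdd (k : ZMod _)), e.symm.injective ?_⟩
    rw [map_pow, e.symm_apply_apply, ← ofAdd_nsmul, ← ofAdd_toAdd (e.symm u),
      ← ZMod.natCast_zmod_val (e.symm u).toAdd, hk, nsmul_eq_mul, Nat.cast_mul]
  · rintro ⟨a, rfl⟩
    beta_reduce
    rw [map_pow, toAdd_pow, map_nsmul, nsmul_eq_mul, ZMod.natCast_self, zero_mul]

theorem cb_iff {q : ℕ} [Fact q.Prime] {g : GQ} :
    (∃ a : ℕ, ∀ ζ : Qb, ζ ^ q = 1 → g ζ = ζ ^ a ^ pp) ↔ ∃ a, om0 q g = a ^ pp := by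
  refine ⟨fun ⟨a, h⟩ => ?_, fun ⟨a, h⟩ => ⟨(a : ZMod q).val, fun ζ hζ => ?_⟩⟩
  · have e : oz q g = (a : ZMod q) ^ pp := pw_inj (by
      rw [← oz_spec, h _ zt_pow, ← Nat.cast_pow, pw_nat])
    exact ⟨Units.mk0 a fun z => oz_ne g (by rw [e, z, zero_pow pp_ne]), Units.ext e⟩
  · obtain ⟨b, rfl⟩ := pw_ex hζ
    have e : oz q g = (((a : ZMod q).val ^ pp : ℕ) : ZMod q) := by
      rw [Nat.cast_pow, ZMod.natCast_zmod_val, oz, h, Units.val_pow_eq_pow_val]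
    rw [oz_pw, e, pw_mul, pw_nat, ← pow_mul, ← pow_mul, mul_comm]

theorem not_cub {q : ℕ} [Fact q.Prime] (h : q % pp = 1) {P : Ideal (𝓞 Qb)} (o : Ov q P) {τ : GQ}
    (i : Inert P τ) (k : ka pp q τ = 1) : ¬ ∃ a, om0 q τ = a ^ pp := fun ⟨a, e⟩ => by
  refine P014U.Gn.pow (l := q) ⟨i, k⟩ o (m := q / pp) (dv1 h) (zt_prim q) (oz_spec τ) ?_
  rw [ZMod.natCast_zmod_val, oz, e, Units.val_pow_eq_pow_val, ← pow_mul,
    show pp * (q / pp) = q - 1 by have := dv1 h; omega]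
  exact ZMod.pow_card_sub_one_eq_one a.ne_zero

/-- the matrix of signs is invertible -/
theorem had (S : AddSubgroup ((ZMod pp × ZMod pp × ZMod pp) × ZMod pp)) {c n : ZMod pp} (hc : c ≠ 0)
    (hn : n ≠ 0) (h0 : ((1, 1, c), n) ∈ S) (h1 : ((-1, 1, c), -n) ∈ S) (h2 : ((-1, -1, c), n) ∈ S)
    (h3 : ((1, -1, c), -n) ∈ S) (v : (ZMod pp × ZMod pp × ZMod pp) × ZMod pp) : v ∈ S := by
  obtain ⟨⟨u, v, w⟩, y⟩ := v
  have t : (4 : ZMod pp) ≠ 0 := fun e => two_ne (pow_eq_zero_iff two_ne_zero |>.1 (by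
    rw [← e]; norm_num))
  let T := AddSubgroup.toZModSubmodule pp S
  have := T.add_mem (T.add_mem (T.smul_mem ((u + v + w / c + y / n) / 4) h0)
    (T.smul_mem ((-u + v + w / c - y / n) / 4) h1)) (T.add_mem
    (T.smul_mem ((-u - v + w / c + y / n) / 4) h2) (T.smul_mem ((u - v + w / c - y / n) / 4) h3))
  refine (congrArg (· ∈ S) ?_).mp this
  simp only [Prod.smul_mk, Prod.mk_add_mk, smul_eq_mul, Prod.mk.injEq]
  refine ⟨⟨?_, ?_, ?_⟩, ?_⟩ <;> field_simp <;> ring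

variable {K : Type} [Field K] [NumberField K] {j : K →+* Qb} {γ g : GQ} {β : 𝓞 K}
  {l c : ℕ} {P Q : Ideal (𝓞 Qb)} {J : Ideal (𝓞 K)}

theorem ka_out (o : Ov l P) (hl : l ≠ pp) (i : Inert P g) (δ : GQ) (e : g (δ (j β)) = δ (j β))
    (m : β ∉ below j (δ⁻¹ • P)) : ka pp (δ (j β)) g = 0 :=
  ka_int o hl (x := δ • RingOfIntegers.mapRingHom j β)
    (fun k => m (Ideal.mem_inv_pointwise_smul_iff.2 k)) i e

/-- the other primes -/
theorem ka_oth (h : Iq K) (hγ : γ ∉ GK j) {q : ℕ} (o : Ov l P) (o' : Ov q Q) (hl : l ≠ pp)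
    (ne : l ≠ q) (d : l ∣ c) (hJ : Cop c J) (e : below j Q * J = Ideal.span {β}) (b : β ≠ 0)
    (i : Inert P g) (m : g ∈ GK j) : ka pp (qa j γ β) g = 0 := by
  have key : ∀ δ : GQ, β ∉ below j (δ • P) := fun δ k => by
    have k1 : RingOfIntegers.mapRingHom j (q : 𝓞 K) ∈ δ • P :=
      le_of_mem (ov_sm o δ) d hJ e k (nat_below o' dvd_rfl)
    rw [map_natCast] at k1
    exact ne ((Nat.prime_dvd_prime_iff_eq o.1 o'.1).1 (by
      exact_mod_cast P004S.ov_dvd (ov_sm o δ) (a := q) (by exact_mod_cast k1)))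
  rw [qa, ka_div (j_ne b) ((map_ne_zero γ).2 (j_ne b)) (inert_gz o hl i) (m _) (fix_cj h hγ m _),
    ka_out o hl i γ (fix_cj h hγ m _) (key _), sub_zero]
  exact ka_out o hl i 1 (m _) (key _)

/-- the prime itself -/
theorem ka_own (h : Iq K) (hγ : γ ∉ GK j) (o : Ov l Q) (hl : l ≠ pp) (d : l ∣ c) (hJ : Cop c J)
    (e : below j Q * J = Ideal.span {β}) (b : β ≠ 0) (le : dec Q ≤ GK j) (i : Inert Q g) :
    ka pp (qa j γ β) g = ka pp l g := by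
  have m := le (inP_le_dec i)
  have k : β ∉ below j (γ⁻¹ • Q) := fun k => by
    obtain ⟨t, ht⟩ := P022.H916.exists_smul j o.2.1 (ov_sm o γ⁻¹).2.1
      ((blw j o).isMaximal.eq_of_le (blw j (ov_sm o γ⁻¹)).isPrime.ne_top
        (le_of_mem (ov_sm o γ⁻¹) d hJ e k))
    refine hγ (((GK j).mul_mem_cancel_right t.2).1 (le fun x => ?_))
    rw [mul_smul, ← Ideal.mem_inv_pointwise_smul_iff, ht, Ideal.smul_mem_pointwise_smul_iff]
  have v1 := P022.H269.ordv_eq_one (blw j o) (x := β)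
    ((Ideal.span_singleton_le_iff_mem _).1 (e ▸ Ideal.mul_le_left)) fun k => not_le o d hJ (by
      have := (Ideal.span_singleton_le_iff_mem _).2 k
      rw [← e, ← Ideal.dvd_iff_le, sq] at this
      exact Ideal.dvd_iff_le.1 ((mul_dvd_mul_iff_left (blw j o).ne_bot).1 this))
  rw [qa, ka_div (j_ne b) ((map_ne_zero γ).2 (j_ne b)) (inert_gz o hl i) (m _) (fix_cj h hγ m _),
    ka_out o hl i γ (fix_cj h hγ m _) k, sub_zero, P014U.G2.On.ka_ord o hl (v := blw j o) rfl le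
      ((map_ne_zero j).1 (j_ne b)) i, v1, Int.cast_one, one_mul]

section

variable {x : GQ → ZMod pp} {s : GQ}

theorem x_cj (hx : ∀ g ∈ GK j, ∀ h ∈ GK j, x (g * h) = x g + x h) (m : g ∈ GK j) (ms : s ∈ GK j) : x (g * s * g⁻¹) = x s := by
  have := hx _ (mul_mem (mul_mem m ms) (inv_mem m)) _ m
  rw [inv_mul_cancel_right, hx _ m _ ms] at this
  linear_combination -this

theorem x_cj' (hx : ∀ g ∈ GK j, ∀ h ∈ GK j, x (g * h) = x g + x h) (hk : ∀ g ∈ Hc j c, x g = 0)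
    (ms : s ∈ GK j) (a : g * s * g⁻¹ * s ∈ Hc j c) : x (g * s * g⁻¹) = -x s := by
  have d := hk _ a
  rw [hx _ (((GK j).mul_mem_cancel_right ms).1 a.1) _ ms] at d
  exact eq_neg_of_add_eq_zero_left d

theorem a_cj (h : Iq K) (hγ : γ ∉ GK j) (b : qa j γ β ≠ 0) (m : g ∉ GK j) (ms : s ∈ GK j)
    (z : s ∈ Gz pp) : ka pp (qa j γ β) (g * s * g⁻¹) = -(oz pp g * ka pp (qa j γ β) s) := by
  have m1 : g * s * g⁻¹ ∈ GK j := by
    have := P022.H20.conj_mem h.two (c := g⁻¹) (fun k => m ((GK j).inv_mem_iff.1 k)) ms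
    rwa [inv_inv, ← mul_assoc] at this
  rw [← ka_conj b g z (qa_fix h hγ ms), qa_inv h hγ m,
    ka_inv b (Gz_normal.conj_mem s z g) (qa_fix h hγ m1), neg_neg]

end

/-- **adjustment by inertia at the first primes**: all values -/
theorem adj0 (r1 : RC1) (iq : Iq K) (pos : ∃ γ ∉ GK j, γ (zt pp) = zt pp)
    (neg : ∃ γ ∉ GK j, γ (zt pp) = (zt pp)⁻¹) (hγ : γ ∉ GK j) {ι : Type} [Fintype ι] (o : ι)
    {q : ι → ℕ} {Q : ι → Ideal (𝓞 Qb)} {β : ι → 𝓞 K} {J : ι → Ideal (𝓞 K)} {x : GQ → ZMod pp}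
    {ζ : Qb} (inj : Function.Injective q) (hζ : IsPrimitiveRoot ζ pp)
    (hq : ∀ i, Ov (q i) (Q i) ∧ q i % pp = 1 ∧ below j (Q i) * J i = Ideal.span {β i} ∧
      Cop (∏ i, q i) (J i) ∧ ∀ Q', Ov (q i) Q' → dec Q' ≤ GK j ∧ ∃ t, Inert Q' t ∧ x t = 1)
    (xa : ∀ g ∈ GK j, ∀ h ∈ GK j, x (g * h) = x g + x h) (xk : ∀ g ∈ Hc j (∏ i, q i), x g = 0)
    {g₀ : GQ} (m₀ : g₀ ∈ GK j) (z₀ : g₀ ζ = ζ) (z bb : ι → ZMod pp) (y₀ : ZMod pp) (I : ι → Prop) :
    ∃ t ∈ Subgroup.closure {s | ∃ i Q', Ov (q i) Q' ∧ Inert Q' s}, x (g₀ * t) = y₀ ∧ ∀ i,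
      Kv ζ (qa j γ (β i)) (g₀ * t) (z i) ∧ ka pp (q i) (g₀ * t) = bb i ∧
        ((∃ a : ℕ, ∀ ζ : Qb, ζ ^ q i = 1 → (g₀ * t) ζ = ζ ^ a ^ pp) ↔ I i) := by
  classical
  have pr : ∀ i, Fact (q i).Prime := fun i => ⟨(hq i).1.1⟩
  obtain ⟨-, op, nr, -, dih, -⟩ := r1 K j iq (∏ i, q i) (Finset.prod_pos fun i _ => (hq i).1.1.pos)
  choose c ca ck using fun i => ex_cub (q := q i) (hq i).2.1
  have q3 : ∀ i, q i ≠ pp := fun i e => by
    have := (hq i).2.1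
    rw [e, Nat.mod_self] at this
    exact zero_ne_one this
  have q0 : ∀ i, (q i : Qb) ≠ 0 := fun i => Nat.cast_ne_zero.2 (hq i).1.1.ne_zero
  have dv : ∀ i, q i ∣ ∏ i, q i := fun i => Finset.dvd_prod_of_mem _ (Finset.mem_univ i)
  have b0 : ∀ i, β i ≠ 0 := fun i e => by
    have := (hq i).2.2.1
    rw [e, Ideal.span_singleton_zero, Ideal.mul_eq_bot] at this
    exact this.elim (below_ne j (hq i).1) (hq i).2.2.2.1.1
  have a0 : ∀ i, qa j γ (β i) ≠ 0 := fun i =>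
    div_ne_zero (j_ne (b0 i)) ((map_ne_zero γ).2 (j_ne (b0 i)))
  have gk : ∀ {i Q' s}, Ov (q i) Q' → Inert Q' s → s ∈ GK j ⊓ Gz pp := fun {i Q' s} a b =>
    ⟨((hq i).2.2.2.2 Q' a).1 (inP_le_dec b), inert_gz a (q3 i) b⟩
  set T := Subgroup.closure {s | ∃ i Q', Ov (q i) Q' ∧ Inert Q' s}
  have le : T ≤ GK j ⊓ Gz pp := (Subgroup.closure_le _).2 fun s ⟨i, Q', a, b⟩ => gk a b
  let f : GQ → (ι → ZMod pp × ZMod pp × ZMod pp) × ZMod pp := fun g =>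
    (fun i => (ka pp (qa j γ (β i)) g, ka pp (q i) g, c i (om0 (q i) g)), x g)
  have fa : ∀ g ∈ GK j ⊓ Gz pp, ∀ h ∈ GK j ⊓ Gz pp, f (g * h) = f g + f h := fun g a h b =>
    Prod.ext (funext fun i => Prod.ext (ka_add (a0 i) a.2 (qa_fix iq hγ a.1) (qa_fix iq hγ b.1))
      (Prod.ext (ka_add (q0 i) a.2 (map_natCast g _) (map_natCast h _))
        ((congrArg (c i) (map_mul _ g h)).trans (ca i _ _)))) (xa g a.1 h b.1)
  have f1 : f 1 = 0 := by
    have := fa 1 (one_mem _) 1 (one_mem _)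
    rwa [mul_one, left_eq_add] at this
  let S : AddSubgroup ((ι → ZMod pp × ZMod pp × ZMod pp) × ZMod pp) :=
    { carrier := {v | ∃ t ∈ T, f t = v}
      add_mem' := by
        rintro _ _ ⟨s, a, rfl⟩ ⟨t, b, rfl⟩
        exact ⟨s * t, mul_mem a b, fa s (le a) t (le b)⟩
      zero_mem' := ⟨1, one_mem _, f1⟩
      neg_mem' := by
        rintro _ ⟨s, a, rfl⟩
        refine ⟨s⁻¹, inv_mem a, eq_neg_of_add_eq_zero_left ?_⟩
        rw [← fa _ (le (inv_mem a)) s (le a), inv_mul_cancel, f1] }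
  let L := fun i : ι => (AddMonoidHom.single (fun _ : ι => ZMod pp × ZMod pp × ZMod pp) i).prodMap
    (AddMonoidHom.id (ZMod pp))
  have key : ∀ {i Q' s}, Ov (q i) Q' → Inert Q' s → ∀ {u v w y}, ka pp (qa j γ (β i)) s = u →
      ka pp (q i) s = v → c i (om0 (q i) s) = w → x s = y → ((u, v, w), y) ∈ S.comap (L i) := by
    rintro i Q' s a b _ _ _ _ rfl rfl rfl rfl
    refine ⟨s, Subgroup.subset_closure ⟨i, Q', a, b⟩, Prod.ext (funext fun k => ?_) rfl⟩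
    show _ = Pi.single (M := fun _ => ZMod pp × ZMod pp × ZMod pp) i _ k
    rcases eq_or_ne k i with rfl | ne
    · rw [Pi.single_eq_same]; rfl
    have ne' : q i ≠ q k := fun e => ne (inj e).symm
    rw [Pi.single_eq_of_ne ne]
    refine Prod.ext (ka_oth iq hγ a (hq k).1 (q3 i) ne' (dv i) (hq k).2.2.2.1 (hq k).2.2.1 (b0 k) b
      (gk a b).1) (Prod.ext (ka_int a (q3 i) (x := q k) (p_notMem a ne') b (map_natCast s _))
        ((ck k _).2 ⟨1, ?_⟩))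
    rw [one_pow]
    exact inert_gz (p := q k) a ne' b
  obtain ⟨g1, n1, p1⟩ := pos
  obtain ⟨g3, n3, p3⟩ := neg
  have o1 : oz pp g1 = 1 := mem_Gz.1 (mem_Gz'.2 p1)
  have o3 : oz pp g3 = -1 := pw_inj (by
    rw [← oz_spec, p3]
    refine inv_eq_of_mul_eq_one_right ?_
    have := pw_add (p := pp) 1 (-1)
    rwa [add_neg_cancel, ZMod.val_zero, pow_zero, ZMod.val_one, pow_one, eq_comm] at this)
  have m2 := P022.H20.mul_mem' iq.two n1 n3
  have o2 : oz pp (g1 * g3) = -1 := by rw [oz_mul, o1, o3, one_mul]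
  have all : ∀ i v, v ∈ S.comap (L i) := fun i => by
    obtain ⟨a, h3, e, hJ, hd⟩ := hq i
    obtain ⟨dc, t, ti, tx⟩ := hd _ a
    obtain ⟨-, ⟨τ, i1, k1⟩, tm⟩ := tam pp _ _ a (q3 i)
    obtain ⟨n, hn⟩ := tm (ZMod pp) (ZMod pp) x (fun g h a' b' => xa g (gk a a').1 h (gk a b').1)
      ⟨_, lv_of nr op, fun w m _ => xk w m⟩
    have x0 : x τ ≠ 0 := fun k => by
      rw [hn τ i1, k1, map_one, one_smul] at k
      rw [hn t ti, k, smul_zero] at tx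
      exact zero_ne_one tx
    have mτ := gk a i1
    have A := (ka_own iq hγ a (q3 i) (dv i) hJ e (b0 i) dc i1).trans k1
    have B : ∀ g : GQ, ka pp (q i) (g * τ * g⁻¹) = oz pp g := fun g => by
      have := ka_conj (q0 i) g mτ.2 (map_natCast τ _)
      rwa [map_natCast, k1, mul_one] at this
    have C : ∀ g : GQ, c i (om0 (q i) (g * τ * g⁻¹)) = c i (om0 (q i) τ) := fun g => by
      rw [map_mul, map_mul, map_inv, mul_inv_cancel_comm]
    refine had _ (fun k => not_cub h3 a i1 k1 ((ck i _).1 k)) x0 (key a i1 A k1 rfl rfl)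
      (key (ov_sm a g1) (in_cj i1 g1) ?_ ((B _).trans o1) (C _) (x_cj' xa xk mτ.1 (dih _ n1 _ mτ.1)))
      (key (ov_sm a _) (in_cj i1 (g1 * g3)) ?_ ((B _).trans o2) (C _) (x_cj xa m2 mτ.1))
      (key (ov_sm a g3) (in_cj i1 g3) ?_ ((B _).trans o3) (C _) (x_cj' xa xk mτ.1 (dih _ n3 _ mτ.1)))
    · rw [a_cj iq hγ (a0 i) n1 mτ.1 mτ.2, o1, A, mul_one]
    · have := ka_conj (a0 i) (g1 * g3) mτ.2 (qa_fix iq hγ mτ.1)
      rwa [qa_fix iq hγ m2, o2, A, mul_one] at this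
    · rw [a_cj iq hγ (a0 i) n3 mτ.1 mτ.2, o3, A, mul_one, neg_neg]
  have top : ∀ v, v ∈ S := fun v => by
    have := S.sum_mem (t := Finset.univ) fun i _ => all i (v.1 i, if i = o then v.2 else 0)
    refine (congrArg (· ∈ S) (Prod.ext ?_ ?_)).mp this
    · rw [Prod.fst_sum]
      exact Finset.univ_sum_single v.1
    · rw [Prod.snd_sum]
      exact (Finset.sum_ite_eq' _ o fun _ => v.2).trans (if_pos (Finset.mem_univ o))
  obtain ⟨u, hu⟩ := pw_ex hζ.pow_eq_one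
  have mg : g₀ ∈ GK j ⊓ Gz pp := by
    obtain ⟨k, -, e⟩ := hζ.eq_pow_of_pow_eq_one (zt_pow (p := pp))
    exact ⟨m₀, mem_Gz'.2 (by rw [← e, map_pow, z₀])⟩
  obtain ⟨t, ht, e⟩ := top (-f g₀ + (fun i => (u * z i, bb i, if I i then 0 else 1), y₀))
  have e1 := fa g₀ mg t (le ht)
  rw [e, add_neg_cancel_left] at e1
  have m := mul_mem mg (le ht)
  refine ⟨t, ht, congrArg Prod.snd e1, fun i => ?_⟩
  obtain ⟨e2, e3, e4⟩ : _ = u * z i ∧ _ = bb i ∧ _ = (if I i then 0 else 1 : ZMod pp) := by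
    simpa only [f, Prod.mk.injEq] using congrFun (congrArg Prod.fst e1) i
  refine ⟨fun y hy => ?_, e3, ?_⟩
  · rw [ka_law hy m.2 (qa_fix iq hγ m.1), e2, pw_mul, ← hu]
  · rw [Ad.cb_iff, ← ck, e4]; simp

end Vale.Agent.P014Z.Rp.Ad
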