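import Vale.Agent.P014Z.Rp.St
import Vale.Agent.P014Z.Rp.Adj0

/-!
# P014Z: adjustment by inertia at the first primes (row `ADJ`; helper64)
-/

set_option autoImplicit false
set_option linter.all false

namespace Vale.Agent.P014Z.Rp

open P004K P014U
open Vale.Agent.P022K.G2 (zt_pow)

variable [Pp]

/-- **adjustment by inertia at the first primes** -/
theorem adj (r1 : RC1) : ADJ := by
  classical
  intro K _ _ j hK γ hγ ι _ o q Q β J x ζ inj hζ hq hx g₀ m₀ z₀ z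
  obtain ⟨t, ht, e, h⟩ := Ad.adj0 r1 hK.iq
    (hK.pos.imp fun _ h => ⟨h.1, h.2 1 _ (by rw [pow_one]; exact zt_pow)⟩)
    (hK.neg.imp fun _ h => ⟨h.1, h.2 1 _ (by rw [pow_one]; exact zt_pow)⟩) hγ o inj hζ hq hx.add
    hx.ker m₀ z₀ z (fun i => if i = o then 1 else 0) 1 (· ≠ o)
  exact ⟨t, ht, e, fun i => ⟨(h i).1, by rw [(h i).2.1]; simp, (h i).2.2⟩⟩

end Vale.Agent.P014Z.Rp
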