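import Vale.Agent.P014Y.Rd.Cub

/-!
# P014Z: local `n`-th powers, reciprocity for ring class characters with values in `ZMod n`
-/

set_option autoImplicit false
set_option linter.all false

open NumberField IsDedekindDomain

noncomputable section

namespace Vale.Agent.P014Z.Rp.Cu

open Vale.Agent.P022 (Qb GQ GK below)
open Vale.Agent.P004K (Iq Cop Ar Hc RC2)
open Vale.Agent.P022D.W (dec)
open Vale.Agent.P022E.GW (Ov Fb)
open Vale.Agent.P014Y.Rd.Cu (emb rep)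

/-- from the prime powers to all ideals -/
theorem crt {R : Type} [CommRing R] [IsDedekindDomain R] (n : ℕ) (a : R) (C : Ideal R) :
    C ≠ ⊥ → (∀ p : Ideal R, p.IsPrime → C ≤ p → ∀ M : ℕ, ∃ u, a - u ^ n ∈ p ^ M) →
    ∃ u, a - u ^ n ∈ C := by
  induction C using UniqueFactorizationMonoid.induction_on_coprime with
  | h0 => exact fun h => absurd rfl h
  | h1 h => exact fun _ _ => ⟨0, by rw [Ideal.isUnit_iff.1 h]; trivial⟩
  | hpr i h =>
    intro _ k
    rcases i with _ | i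
    · exact ⟨0, by rw [pow_zero, Ideal.one_eq_top]; trivial⟩
    · exact k _ (Ideal.isPrime_of_prime h) (Ideal.pow_le_self i.succ_ne_zero) _
  | @hcp x y h h1 h2 =>
    intro n0 k
    have c : IsCoprime x y := Ideal.isCoprime_iff_sup_eq.2 (Ideal.isUnit_iff.1
      (h (Ideal.dvd_iff_le.2 le_sup_left) (Ideal.dvd_iff_le.2 le_sup_right)))
    obtain ⟨u, hu⟩ := h1 (left_ne_zero_of_mul n0) fun p q m => k p q (Ideal.mul_le_left.trans m)
    obtain ⟨v, hv⟩ := h2 (right_ne_zero_of_mul n0) fun p q m => k p q (Ideal.mul_le_right.trans m)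
    obtain ⟨s, hs, t, ht, e⟩ := Ideal.isCoprime_iff_exists.1 c
    have g : ∀ (I : Ideal R) (u v : R), a - u ^ n ∈ I → u - v ∈ I → a - v ^ n ∈ I :=
      fun I u v h h' => by
        rw [← sub_add_sub_cancel a (u ^ n)]
        exact I.add_mem h (I.mem_of_dvd (sub_dvd_pow_sub_pow u v n) h')
    rw [Ideal.mul_eq_inf_of_isCoprime c]
    refine ⟨u * t + v * s, g x u _ hu ?_, g y v _ hv ?_⟩
    · rw [show u - (u * t + v * s) = (u - v) * s by linear_combination (-u) * e]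
      exact x.mul_mem_left _ hs
    · rw [show v - (u * t + v * s) = (v - u) * t by linear_combination (-v) * e]
      exact y.mul_mem_left _ ht

variable {K : Type} [Field K] [NumberField K] (j : K →+* Qb) {n : ℕ}

/-- a local power is a power modulo the powers of the prime -/
theorem loc (n0 : n ≠ 0) {l : ℕ} {P : Ideal (𝓞 Qb)} (o : Ov l P) {a : 𝓞 K} {y : Qb}
    (e : y ^ n = j a) (f : ∀ g ∈ dec P, g y = y) (M : ℕ) :
    ∃ u : ℕ, a - (u : 𝓞 K) ^ n ∈ below j P ^ M := by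
  have := Fact.mk o.1
  obtain ⟨ι, i1, i2, i3⟩ := emb o
  obtain ⟨z, hz⟩ := i3 y f
  have k1 : ∀ x : 𝓞 K, x ∈ below j P ↔ ‖ι (j x)‖ < 1 := fun x =>
    i1 (RingOfIntegers.mapRingHom j x)
  have k2 : ∀ x : 𝓞 K, ‖ι (j x)‖ ≤ 1 := fun x => i2 (RingOfIntegers.mapRingHom j x)
  have z1 : ‖z‖ ≤ 1 := by
    rw [← PadicAlgCl.norm_extends l, hz, ← pow_le_one_iff_of_nonneg (norm_nonneg _) n0,
      ← norm_pow, ← map_pow, e]
    exact k2 a
  let z' : ℤ_[l] := ⟨z, z1⟩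
  obtain ⟨w, hw⟩ := (Ideal.mem_span_singleton.1 (PadicInt.appr_spec M z')).trans
    (sub_dvd_pow_sub_pow _ _ n)
  have hw' : z ^ n - (z'.appr M : ℚ_[l]) ^ n = (l : ℚ_[l]) ^ M * w := by
    exact_mod_cast congrArg ((↑) : ℤ_[l] → ℚ_[l]) hw
  have l0 : (l : K) ^ M ≠ 0 := pow_ne_zero _ (Nat.cast_ne_zero.2 o.1.ne_zero)
  have l1 : (l : PadicAlgCl l) ^ M ≠ 0 := pow_ne_zero _ (Nat.cast_ne_zero.2 o.1.ne_zero)
  have q1 : ‖ι (j (((a : K) - (z'.appr M : K) ^ n) / l ^ M))‖ ≤ 1 := by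
    have : ι (j (((a : K) - (z'.appr M : K) ^ n) / l ^ M)) = algebraMap ℚ_[l] _ w := by
      have := congrArg (algebraMap ℚ_[l] (PadicAlgCl l)) hw'
      simp only [map_sub, map_pow, map_mul, map_natCast, hz] at this
      simp only [map_sub, map_pow, map_div₀, map_natCast, ← e]
      rw [this, mul_div_cancel_left₀ _ l1]
    rw [this, PadicAlgCl.norm_extends]
    exact w.norm_le_one
  have p := P022.H20.below_prime j o.2.1
  have lm := P022.H20.l_mem_below j o.2.2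
  obtain ⟨m, d, h⟩ := (⟨below j P, p, fun z => o.1.ne_zero (by
    simpa [z] using lm)⟩ : HeightOneSpectrum (𝓞 K)).exists_primeCompl_mul_eq_or_mul_eq
      (((a : K) - (z'.appr M : K) ^ n) / l ^ M)
  have fin : ∀ s t : 𝓞 K, s ∉ below j P →
      ((a : K) - (z'.appr M : K) ^ n) / l ^ M * algebraMap _ K s = algebraMap _ K t →
      a - (z'.appr M : 𝓞 K) ^ n ∈ below j P ^ M := fun s t m h => by
    refine (Ideal.IsPrime.mul_mem_pow (below j P) (a := s) ?_).resolve_left m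
    rw [show s * (a - (z'.appr M : 𝓞 K) ^ n) = (l : 𝓞 K) ^ M * t from
      RingOfIntegers.coe_injective (by
        simp only [map_mul, map_sub, map_pow, map_natCast, ← h]
        field_simp)]
    exact Ideal.mul_mem_right _ _ (Ideal.pow_mem_pow lm M)
  refine ⟨z'.appr M, h.elim (fin d m d.2) fun h => fin m d (fun k => d.2 ((k1 d).2 ?_)) h⟩
  rw [show ((d : 𝓞 K) : K) = _ from h.symm, map_mul, map_mul, norm_mul]
  exact mul_lt_one_of_nonneg_of_lt_one_right q1 (norm_nonneg _) ((k1 m).1 k)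

/-- a local `n`-th power is congruent to one, after multiplication by an `n`-th power -/
theorem cub0 (n0 : n ≠ 0) (c r : ℕ) (a : 𝓞 K) (I J : Ideal (𝓞 K)) (c0 : 0 < c) (a0 : a ≠ 0)
    (hd : ∀ l P, Ov l P → l ∣ c → dec P ≤ GK j)
    (hL : ∀ l P, Ov l P → l ∣ c → ∃ y : Qb, y ^ n = j a ∧ ∀ g ∈ dec P, g y = y)
    (e : Ideal.span {a} = I ^ n * J) (hJ : Cop c J) :
    ∃ (t : K) (b : 𝓞 K) (I' : Ideal (𝓞 K)), t ≠ 0 ∧ ((1 + c ^ r * b : 𝓞 K) : K) = t ^ n * a ∧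
      Ideal.span {1 + c ^ r * b} = I' ^ n * J := by
  have i0 : I ≠ ⊥ := fun z => a0 (by
    rw [z, ← Ideal.zero_eq_bot, zero_pow n0, zero_mul] at e
    exact Ideal.span_singleton_eq_bot.1 e)
  have c1 : (c : 𝓞 K) ≠ 0 := Nat.cast_ne_zero.2 c0.ne'
  obtain ⟨α, β, I₁, α0, β0, h, hc⟩ := rep (RingOfIntegers.not_isField K) i0
    (Ideal.span_singleton_eq_bot.not.2 c1)
  have e1 : Ideal.span {β ^ n * a} = Ideal.span {α ^ n} * (I₁ ^ n * J) := by
    rw [← Ideal.span_singleton_mul_span_singleton, e, ← Ideal.span_singleton_pow,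
      ← Ideal.span_singleton_pow, ← mul_assoc, ← mul_pow, h, mul_pow, mul_assoc]
  obtain ⟨a₁, e2⟩ := Ideal.mem_span_singleton.1 ((e1.le.trans Ideal.mul_le_left)
    (Ideal.mem_span_singleton_self _))
  have e3 : Ideal.span {a₁} = I₁ ^ n * J := mul_left_cancel₀
    (Ideal.span_singleton_eq_bot.not.2 (pow_ne_zero n α0)) (by
      rw [← e1, e2, Ideal.span_singleton_mul_span_singleton])
  have α1 : (α : K) ≠ 0 := RingOfIntegers.coe_ne_zero_iff.2 α0
  have e4 : (a₁ : K) = ((β : K) / α) ^ n * a := by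
    have := congrArg (algebraMap (𝓞 K) K) e2
    simp only [map_mul, map_pow] at this
    rw [div_pow, div_mul_eq_mul_div, eq_div_iff (pow_ne_zero n α1), mul_comm]
    exact this.symm
  obtain ⟨u, hu⟩ := crt n a₁ (Ideal.span {(c : 𝓞 K) ^ r})
    (Ideal.span_singleton_eq_bot.not.2 (pow_ne_zero r c1)) fun p q m M => by
      have m := q.mem_of_pow_mem r ((Ideal.span_singleton_le_iff_mem _).1 m)
      obtain ⟨P, hP, rfl⟩ := P022.H916.exists_above j p q
      have : ∃ l ∈ c.primeFactorsList, (l : 𝓞 K) ∈ below j P := by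
        rw [← Nat.prod_primeFactorsList c0.ne', Nat.cast_list_prod, ← Multiset.prod_coe] at m
        obtain ⟨_, a, b⟩ := (q.multiset_prod_mem_iff_exists_mem _).1 m
        obtain ⟨l, l1, rfl⟩ := List.mem_map.1 (Multiset.mem_coe.1 a)
        exact ⟨l, l1, b⟩
      obtain ⟨l, l1, l2⟩ := this
      have o : Ov l P := ⟨Nat.prime_of_mem_primeFactorsList l1, hP, by
        rwa [P022.H20.mem_below, map_natCast] at l2⟩
      have d := Nat.dvd_of_mem_primeFactorsList l1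
      obtain ⟨y, y1, y2⟩ := hL l P o d
      exact (loc j n0 o (y := j (β / α) * y) (by rw [e4, mul_pow, y1, map_mul, map_pow])
        (fun g m => by rw [map_mul, hd l P o d m, y2 g m]) M).elim fun u h => ⟨u, h⟩
  obtain ⟨p, q, e5⟩ : IsCoprime a₁ ((c : 𝓞 K) ^ r) := by
    refine IsCoprime.pow_right ((Ideal.isCoprime_span_singleton_iff _ _).1 ?_)
    rw [e3]
    exact hc.pow_left.mul_left (Ideal.isCoprime_iff_sup_eq.2 hJ.2)
  obtain ⟨v, hv⟩ := Ideal.mem_span_singleton.1 hu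
  obtain ⟨w, w0, b, hb⟩ : ∃ w : 𝓞 K, w ≠ 0 ∧ (c : 𝓞 K) ^ r ∣ w ^ n * a₁ - 1 := by
    have h3 : (c : 𝓞 K) ^ r ∣ p * u ^ (n - 1) * u - 1 := ⟨-q - p * v, by
      rw [mul_assoc, pow_sub_one_mul n0]
      linear_combination e5 - p * hv⟩
    have h4 : (c : 𝓞 K) ^ r ∣ (p * u ^ (n - 1)) ^ n * a₁ - 1 := by
      rw [show (p * u ^ (n - 1)) ^ n * a₁ - 1 = (p * u ^ (n - 1)) ^ n * (a₁ - u ^ n) +
        ((p * u ^ (n - 1) * u) ^ n - 1 ^ n) by rw [mul_pow _ u, one_pow]; ring]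
      exact dvd_add (Dvd.dvd.mul_left ⟨v, hv⟩ _) (h3.trans (sub_dvd_pow_sub_pow _ _ n))
    by_cases z : p * u ^ (n - 1) = 0
    · rw [z, zero_mul, zero_sub, dvd_neg] at h3
      exact ⟨1, one_ne_zero, h3.trans (one_dvd _)⟩
    · exact ⟨_, z, h4⟩
  have e6 : 1 + (c : 𝓞 K) ^ r * b = w ^ n * a₁ := by linear_combination -hb
  refine ⟨w * (β / α), b, Ideal.span {w} * I₁, mul_ne_zero (RingOfIntegers.coe_ne_zero_iff.2 w0)
    (div_ne_zero (RingOfIntegers.coe_ne_zero_iff.2 β0) α1), ?_, ?_⟩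
  · rw [e6, mul_pow, mul_assoc, ← e4]
    simp only [map_mul, map_pow]
  · rw [e6, ← Ideal.span_singleton_mul_span_singleton, e3, mul_pow, Ideal.span_singleton_pow,
      mul_assoc]

/-- reciprocity, for characters with values in a ring which is killed by `n` -/
theorem art0 (r2 : RC2) (iq : Iq K) (n0 : n ≠ 0) {A : Type} [CommRing A] (nA : (n : A) = 0)
    (c r : ℕ) (x : GQ → A) (a : 𝓞 K) (I : Ideal (𝓞 K)) (ι : Type) [Fintype ι] (l m : ι → ℕ)
    (Q : ι → Ideal (𝓞 Qb)) (φ : ι → GQ) (c0 : 0 < c) (a0 : a ≠ 0)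
    (xa : ∀ g ∈ GK j, ∀ h ∈ GK j, x (g * h) = x g + x h) (xk : ∀ g ∈ Hc j (c ^ r), x g = 0)
    (hd : ∀ l P, Ov l P → l ∣ c → dec P ≤ GK j)
    (hL : ∀ l P, Ov l P → l ∣ c → ∃ y : Qb, y ^ n = j a ∧ ∀ g ∈ dec P, g y = y)
    (hQ : ∀ i, Ov (l i) (Q i) ∧ dec (Q i) ≤ GK j ∧ Fb (l i) (Q i) (φ i) ∧ ¬ l i ∣ c)
    (e : Ideal.span {a} = I ^ n * ∏ i, below j (Q i) ^ m i) : ∑ i, (m i : A) * x (φ i) = 0 := by
  obtain ⟨a1, -, a3, -, a5, -, a7⟩ := r2 K j iq (c ^ r) (pow_pos c0 r)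
  have cm : ∀ (n : ℕ) (A B : Ideal (𝓞 K)), Cop n A → Cop n B → Cop n (A * B) := fun n A B h h' =>
    ⟨mul_ne_zero h.1 h'.1, Ideal.isCoprime_iff_sup_eq.1
      ((Ideal.isCoprime_iff_sup_eq.2 h.2).mul_left (Ideal.isCoprime_iff_sup_eq.2 h'.2))⟩
  have c1 : ∀ n : ℕ, Cop n (1 : Ideal (𝓞 K)) := fun n => by
    rw [Ideal.one_eq_top]
    exact ⟨top_ne_bot, top_sup_eq _⟩
  have nm : ∀ i k, ((c ^ k : ℕ) : 𝓞 Qb) ∉ Q i := fun i k h => (hQ i).2.2.2
    ((hQ i).1.1.dvd_of_dvd_pow (n := k) (by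
      exact_mod_cast P004S.ov_dvd (hQ i).1 (a := (c ^ k : ℕ)) (by exact_mod_cast h)))
  have b0 : ∀ i, below j (Q i) ≠ ⊥ := fun i z => (hQ i).1.1.ne_zero (by
    simpa [z] using P022.H20.l_mem_below j (hQ i).1.2.2)
  have cb : ∀ i k, Cop (c ^ k) (below j (Q i)) := fun i k => ⟨b0 i, by
    refine ((P022.H20.below_prime j (hQ i).1.2.1).isMaximal (b0 i)).out.2 _
      (lt_of_le_of_ne le_sup_left fun h => nm i k ?_)
    have := h.ge (Ideal.mem_sup_right (Ideal.mem_span_singleton_self _))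
    rwa [P022.H20.mem_below, map_natCast] at this⟩
  obtain ⟨t, b, I', t0, e1, e2⟩ := cub0 j n0 c r a I _ c0 a0 hd hL e
    (Finset.prod_induction _ _ (cm c) (c1 c) fun i _ => by
      induction m i with
      | zero => rw [pow_zero]; exact c1 c
      | succ n h => rw [pow_succ]; exact cm c _ _ h (pow_one c ▸ cb i 1))
  let T : Ideal (𝓞 K) → A → Prop := fun A v =>
    Cop (c ^ r) A ∧ ∃ g, Ar j (c ^ r) A g ∧ x g = v
  have tm : ∀ A B u v, T A u → T B v → T (A * B) (u + v) := by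
    rintro A B _ _ ⟨h, g, k, rfl⟩ ⟨h', g', k', rfl⟩
    exact ⟨cm _ _ _ h h', _, a3 A B g g' h h' k k', xa g k.1 g' k'.1⟩
  have t1 : T 1 0 := by
    obtain ⟨g, k⟩ := a1 1 (c1 _)
    exact ⟨c1 _, g, k, xk g ((a5 _ g (c1 _) k).2 ⟨1, 0, by simp⟩)⟩
  have tp : ∀ A v (n : ℕ), T A v → T (A ^ n) (n * v) := fun A v n h => by
    induction n with
    | zero => simpa using t1
    | succ n k => rw [pow_succ, Nat.cast_succ, add_one_mul]; exact tm _ _ _ _ k h
  have tb : ∀ i, T (below j (Q i)) (x (φ i)) := fun i => by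
    obtain ⟨o, d, f, -⟩ := hQ i
    have g := d (P022D.W.phi_mem o.1 o.2.1 f)
    refine ⟨cb i r, φ i, ?_, rfl⟩
    have := a7 (Q i) o.2.1 (fun z => o.1.ne_zero (by simpa [z] using o.2.2)) (nm i r) _ g 1
      fun y => by rw [pow_one, P022.H20.norm_of_frob_mem iq.two o.1 j o.2.1 o.2.2 f g]; exact f y
    rwa [pow_one] at this
  have ts : ∀ s : Finset ι, T (∏ i ∈ s, below j (Q i) ^ m i) (∑ i ∈ s, (m i : A) * x (φ i)) := by
    classical
    intro s
    induction s using Finset.induction_on with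
    | empty => simpa using t1
    | insert i s n k =>
      rw [Finset.prod_insert n, Finset.sum_insert n]
      exact tm _ _ _ _ (tp _ _ _ (tb i)) k
  have mI : 1 + (c : 𝓞 K) ^ r * b ∈ I' := (e2.le.trans (Ideal.mul_le_left.trans
    (Ideal.pow_le_self n0))) (Ideal.mem_span_singleton_self _)
  have cI : Cop (c ^ r) I' := ⟨fun z => by
      rw [z, Ideal.mem_bot] at mI
      rw [mI] at e1
      exact mul_ne_zero (pow_ne_zero n t0) (RingOfIntegers.coe_ne_zero_iff.2 a0) e1.symm,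
    Ideal.isCoprime_iff_sup_eq.1 (Ideal.isCoprime_iff_exists.2 ⟨_, mI, -(c ^ r * b),
      Ideal.mem_span_singleton.2 ⟨-b, by push_cast; ring⟩, by ring⟩)⟩
  obtain ⟨g, k⟩ := a1 I' cI
  obtain ⟨h, s, k', v⟩ := tm _ _ _ _ (tp I' _ n ⟨cI, g, k, rfl⟩) (ts Finset.univ)
  rw [xk s ((a5 _ s h k').2 ⟨1, b, by rw [← e2]; push_cast; rfl⟩), nA, zero_mul, zero_add] at v
  exact v.symm

end Vale.Agent.P014Z.Rp.Cu
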