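import Vale.Agent.P014Z.Rp.St
import Vale.Agent.P014Z.Rp.Cub0

/-!
# P014Z: the rows `CUB` and `ART`
-/

set_option autoImplicit false
set_option linter.all false

namespace Vale.Agent.P014Z.Rp

open P014U

variable [Pp]

theorem cub : CUB := fun _ _ _ j _ c r a I J =>
  Cu.cub0 j (Fact.out : pp.Prime).ne_zero c r a I J

theorem art (r2 : P004K.RC2) : ART := fun _ _ _ j iq c r x a I ι _ l m Q φ c0 a0 hx =>
  Cu.art0 j r2 iq (Fact.out : pp.Prime).ne_zero (ZMod.natCast_self pp) c r x a I ι l m Q φ c0 a0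
    hx.add hx.ker

end Vale.Agent.P014Z.Rp
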