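import Vale.Agent.P014Z.Rp.St
import Vale.Agent.P014Y.Rd.Bsx

/-!
# P014Z, a rational point of order `p`: split primes generate the class group
-/

set_option autoImplicit false
set_option linter.all false

open NumberField Module
open scoped nonZeroDivisors

noncomputable section

namespace Vale.Agent.P014Z.Rp

open Vale.Agent.P022 (Qb GQ GK below)
open P022.H20 hiding Qb
open P004K P014U
open Vale.Agent.P022D.W (dec)
open Vale.Agent.P022E.GW (Ov Fb)

variable [Pp]

open P014Y.Rd.Bx in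
theorem bsx : BSX := by
  classical
  intro K _ _ j q S P h3 hS
  choose J j0 jc jd using rep (K := K) (discr_ne_zero K)
  let n := ∏ c, Ideal.absNorm (J c)
  have n0 : n ≠ 0 := Finset.prod_ne_zero_iff.2 fun c _ => mt Ideal.absNorm_eq_zero_iff.1 (j0 c)
  let E : ℕ → Prop := fun l => ∃ Q, Ov l Q ∧ dec Q ≤ GK j
  let B := S ∪ n.primeFactors.filter E
  let P' : ℕ → Ideal (𝓞 Qb) := fun l => if l ∈ S then P l else if h : E l then h.choose else ⊥
  have ov : ∀ b ∈ B, Ov b (P' b) ∧ dec (P' b) ≤ GK j := fun b hb => by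
    by_cases k : b ∈ S
    · simpa only [P', if_pos k] using hS b k
    · have e := (Finset.mem_filter.1 ((Finset.mem_union.1 hb).resolve_left k)).2
      simpa only [P', if_neg k, dif_pos e] using e.choose_spec
  let H : Subgroup (ClassGroup (𝓞 K)) :=
    { carrier := {c | ∃ μ : ℕ → ℕ, c = ∏ b ∈ B, cl (below j (P' b)) ^ μ b}
      one_mem' := ⟨0, by simp⟩
      mul_mem' := by
        rintro _ _ ⟨μ, rfl⟩ ⟨ν, rfl⟩
        exact ⟨μ + ν, by simp only [Pi.add_apply, pow_add, Finset.prod_mul_distrib]⟩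
      inv_mem' := by
        rintro _ ⟨μ, rfl⟩
        refine ⟨fun b => μ b * (Nat.card (ClassGroup (𝓞 K)) - 1), ?_⟩
        simp only [pow_mul, Finset.prod_pow]
        rw [inv_eq_iff_mul_eq_one, mul_pow_sub_one Nat.card_pos.ne', pow_card_eq_one'] }
  have hb : ∀ b ∈ B, cl (below j (P' b)) ∈ H := fun b hb => ⟨Pi.single b 1, by
    rw [Finset.prod_eq_single_of_mem b hb fun c _ k => by simp [k]]
    simp⟩
  have pr : ∀ c (v : Ideal (𝓞 K)), Prime v → v ∣ J c → cl v ∈ H := fun c v hv d => by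
    obtain ⟨l, Q, o, rfl⟩ := above j (Ideal.isPrime_of_prime hv) hv.ne_zero
    have m := l_mem_below j o.2.2
    have hD : ¬ (l : ℤ) ∣ discr K := fun ⟨k, e⟩ => (below_prime j o.2.1).ne_top <| by
      rw [eq_top_iff, ← jd c, sup_le_iff, Ideal.span_singleton_le_iff_mem, e]
      exact ⟨Ideal.le_of_dvd d, by simpa using Ideal.mul_mem_right _ _ m⟩
    rcases dich (j := j) q.two o hD with e | e
    · rw [e, cl_sp]; exact H.one_mem
    · have a := nm q.two o e
      have lb : l ∈ B := Finset.mem_union_right _ (Finset.mem_filter.2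
        ⟨Nat.mem_primeFactors.2 ⟨o.1, (a ▸ map_dvd Ideal.absNorm d).trans
          (Finset.dvd_prod_of_mem _ (Finset.mem_univ c)), n0⟩, Q, o, e⟩)
      by_cases k : below j Q = below j (P' l)
      · rw [k]; exact hb l lb
      · have := cl_sp (l : 𝓞 K)
        rw [← mul_eq_span q.two o.1 a (nm q.two (ov l lb).1 (ov l lb).2) k,
          cl_mul (ne j o) (ne j (ov l lb).1)] at this
        rw [eq_inv_of_mul_eq_one_left this]
        exact H.inv_mem (hb l lb)
  have al : ∀ c (I : Ideal (𝓞 K)), I ∣ J c → cl I ∈ H := fun c I => by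
    induction I using UniqueFactorizationMonoid.induction_on_prime with
    | h₁ => exact fun d => absurd (zero_dvd_iff.1 d) (j0 c)
    | h₂ x u => intro; rw [Ideal.isUnit_iff.1 u, ← Ideal.span_singleton_one, cl_sp]; exact H.one_mem
    | h₃ a p a0 hp ih =>
      intro d
      rw [cl_mul hp.ne_zero a0]
      exact H.mul_mem (pr c p hp (dvd_of_mul_right_dvd d)) (ih (dvd_of_mul_left_dvd d))
  refine ⟨B, P', Finset.subset_union_left, fun p hp => if_pos hp,
    Finset.mem_union_left _ h3, ov, fun I h0 => ?_⟩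
  obtain ⟨μ, e⟩ := al (cl I)⁻¹ _ dvd_rfl
  have z := fun b hb => pow_ne_zero (μ b) (ne j (ov b hb).1)
  refine ⟨μ, (cl_one (mul_ne_zero h0 (Finset.prod_ne_zero_iff.2 z))).1 ?_⟩
  rw [cl_mul h0 (Finset.prod_ne_zero_iff.2 z), cl_prod _ _ z,
    Finset.prod_congr rfl fun b hb => cl_pow (ne j (ov b hb).1) _, ← e, jc, mul_inv_cancel]

end Vale.Agent.P014Z.Rp
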