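import Vale.Agent.P014Z.Rp.St0
import Vale.Agent.P014Y.Rd.St

/-!
# P014Z, a rational point of order `p`: the class number formula and the tower (words and rows)
-/

set_option autoImplicit false
set_option linter.all false

open UpperHalfPlane NumberField Filter Topology Module IsDedekindDomain
open scoped Real Pointwise

noncomputable section

namespace Vale.Agent.P014Z.Rp

open Vale.Agent.P022 (Qb GQ GK below IsConj IsFrob)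
open P027H P027M.M P004K P014U
open Vale.Agent.P027M.S (Inert LI)
open Vale.Agent.P022D.W (dec)
open Vale.Agent.P022E.GW (Ov Fb)
open Vale.Agent.P022K.G2 (Tv ka oz zt)
open Vale.Agent.P004S (UnS)

export Vale.Agent.P004R (Fx)
export Vale.Agent.P014Y.Rd (Kv qa Rl)

variable [Pp]

section layer

variable {K : Type} [Field K] [NumberField K] (j : K →+* Qb) (c M : ℕ) (e : GQ → ZMod (pp * M))

/-- a cyclic layer of degree `pp M` in the ring class field of conductor `c`, totally ramified at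
the primes of `c`, which split in `K` -/
structure Ly : Prop where
  iq : Iq K
  upm : Upm K
  pow : ∃ m, M = pp ^ (m + 1)
  sq : Squarefree c
  one : 1 < c
  add : ∀ g ∈ GK j, ∀ h ∈ GK j, e (g * h) = e g + e h
  ker : ∀ g ∈ Hc j c, e g = 0
  ram : ∀ q P, Ov q P → q ∣ c → q % pp = 1 ∧ dec P ≤ GK j ∧ ∃ t, Inert P t ∧ e t = 1

/-- the fields of the layer; `φ` induces `σ` -/
structure Fl (F : Type) {H : Type} [Field F] [Field H] [Algebra F H] [Algebra ℚ H] (jH : H →+* Qb)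
    (φ : GQ) (σ : H ≃ₐ[ℚ] H) : Prop where
  gH : ∀ g, g ∈ GK jH ↔ g ∈ GK j ∧ e g = 0
  gF : ∀ g, g ∈ GK (jH.comp (algebraMap F H)) ↔ g ∈ GK j ∧ pp * e g = 0
  mem : φ ∈ GK j
  gen : IsUnit (e φ)
  act : ∀ x, jH (σ x) = φ (jH x)

open Classical in
/-- the characters of ideals -/
def th (k : ℕ) (I : Ideal (𝓞 K)) : ℂ :=
  if h : Cop c I ∧ ∃ g, Ar j c I g then ze (pp * M) (k * (e h.2.choose).val) else 0

/-- `s = p ^ 12 Δ(O_c) / Δ(𝔭⁻¹ O_c)`, `𝔭` the prime below `P`, `φ` a Frobenius element at `P` -/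
structure Us (P : Ideal (𝓞 Qb)) (φ : GQ) (s : 𝓞 Qb) : Prop where
  fix : ∀ g ∈ Hc j c, g • s = s
  unit : ∀ g ∈ GK j, g • s ∉ P ∧ Associated (g • s) s
  lg : ∀ g ∈ GK j, ∀ τ τ' : ℍ, jL (lat τ) = io (g (jc j c)) → jL (lat τ') = io ((g * φ) (jc j c)) →
    Real.log ‖io (g (s : Qb))‖ = Gl τ - Gl τ' + 6 * Real.log pp
  val : ∀ g ∈ GK j, ∀ σ τ τ', Ex σ g → Hp (JJ j) pp (below j P) c τ → Cj0 σ pp τ τ' →
    io (g (s : Qb)) = Dq τ'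

/-- the primes of `S` split in `K` and are inert in the layer -/
structure Lv (S : Finset ℕ) : Prop extends Ly j c M e where
  two : 2 ∈ S
  thr : pp ∈ S
  spl : ∀ p ∈ S, p.Prime ∧ ¬ p ∣ c ∧ ∀ Q, Ov p Q → dec Q ≤ GK j ∧ ∀ φ, Fb p Q φ → IsUnit (e φ)

end layer

/-! ### the class number formula -/

/-- the fields and their primes -/
def FLD : Prop := ∀ (K : Type) [Field K] [NumberField K] (j : K →+* Qb) (c M : ℕ)
  (e : GQ → ZMod (pp * M)), Ly j c M e → ∀ φ ∈ GK j, IsUnit (e φ) →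
  ∃ (F H : Type) (_ : Field F) (_ : NumberField F) (_ : Field H) (_ : NumberField H)
    (_ : Algebra F H) (jH : H →+* Qb) (σ : H ≃ₐ[ℚ] H), Fl j M e F jH φ σ ∧ Cp F σ M ∧
    ∀ l P ψ, Ov l P → ¬ l ∣ c → dec P ≤ GK j → Fb l P ψ → IsUnit (e ψ) → ∀ γ ∉ GK j,
      Ip σ M l (below (jH.comp (algebraMap F H)) P) (below (jH.comp (algebraMap F H)) (γ • P)) ∧
      up H (below (jH.comp (algebraMap F H)) P) = below jH P ∧
      up H (below (jH.comp (algebraMap F H)) (γ • P)) = below jH (γ • P) ∧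
      ¬ (l : ℤ) ∣ discr K ∧ ¬ (l : ℤ) ∣ discr F ∧ ¬ (l : ℤ) ∣ discr H

/-- the factorisation of the zeta functions -/
def LFA : Prop := ∀ (K : Type) [Field K] [NumberField K] (j : K →+* Qb) (c M : ℕ)
  (e : GQ → ZMod (pp * M)), Ly j c M e → ∀ (F H : Type) [Field F] [NumberField F] [Field H]
  [NumberField H] [Algebra F H] (jH : H →+* Qb) (φ : GQ) (σ : H ≃ₐ[ℚ] H), Fl j M e F jH φ σ →
  ∀ s : ℝ, 1 < s → dedekindZeta H s = dedekindZeta F s * ∏ k ∈ Fa M, LI (th j c M e k) s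

/-- the series of a primitive character is a sum of Epstein zeta functions -/
def LFB : Prop := ∀ (K : Type) [Field K] [NumberField K] (j : K →+* Qb) (c M : ℕ)
  (e : GQ → ZMod (pp * M)), Ly j c M e → ∀ R, Tv (GK j) (Hc j c) R → ∀ τ : GQ → ℍ,
  (∀ g ∈ R, jL (lat (τ g)) = io (g (jc j c))) → ∀ k, ¬ pp ∣ k → ∀ s : ℝ, 1 < s →
  LI (th j c M e k) s = 1 / 2 * ((c * √|(discr K : ℝ)| / 2) ^ (-s) : ℝ) *
    ∑ g ∈ R, ze (pp * M) (k * (e g).val) * Ze (τ g) s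

/-- the elliptic unit -/
def UNI : Prop := ∀ (K : Type) [Field K] [NumberField K] (j : K →+* Qb) (c : ℕ), Iq K → 0 < c → ¬ pp ∣ c →
  ∀ P φ, Ov pp P → dec P ≤ GK j → Fb pp P φ → ∃ s, Us j c P φ s

open Classical in
/-- **the index formula** -/
def CNF : Prop := pp ≠ 3 → ∀ (K : Type) [Field K] [NumberField K] (j : K →+* Qb) (c M : ℕ)
  (e : GQ → ZMod (pp * M)), Ly j c M e → ∀ (F H : Type) [Field F] [NumberField F] [Field H]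
  [NumberField H] [Algebra F H] (jH : H →+* Qb) (φ : GQ) (σ : H ≃ₐ[ℚ] H), Fl j M e F jH φ σ →
  Cp F σ M → ¬ (pp : ℤ) ∣ discr K → ¬ (pp : ℤ) ∣ discr F → ¬ (pp : ℤ) ∣ discr H → ∀ P s, Us j c P φ s →
  ∀ R, Tv (GK j) (Hc j c) R → ∀ u : (𝓞 H)ˣ,
  jH (u : 𝓞 H) * ∏ g ∈ R with e g = 0, g (s : Qb) = φ (∏ g ∈ R with e g = 0, g (s : Qb)) →
  (CU F σ u).index ≠ 0 ∧ padicValNat pp ((CU F σ u).index * classNumber F) =
    padicValNat pp (classNumber H) + 1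

/-! ### the tower: words -/

/-- `g` acts on the roots of unity of order `q` by a `p`-th power -/
def Cb (q : ℕ) (g : GQ) : Prop := ∃ a : ℕ, ∀ ζ : Qb, ζ ^ q = 1 → g ζ = ζ ^ a ^ pp

/-- reduction modulo `p` -/
def eb {N : ℕ} (e : GQ → ZMod N) (g : GQ) : ZMod pp := ((e g).val : ZMod pp)

section tower

variable {K : Type} [Field K] [NumberField K] (j : K →+* Qb)

/-- the field: `p` splits -/
structure Kd : Prop where
  iq : Iq K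
  upm : Upm K
  spl : ∀ P, Ov pp P → dec P ≤ GK j
  pos : ∃ γ ∉ GK j, ∀ n, Fx {1} (pp ^ n) γ
  neg : ∃ γ ∉ GK j, ∀ (n : ℕ) (ζ : Qb), ζ ^ pp ^ n = 1 → γ ζ = ζ⁻¹

/-- a ring class character of order `p` -/
structure Xc (c : ℕ) (x : GQ → ZMod pp) : Prop where
  add : ∀ g ∈ GK j, ∀ h ∈ GK j, x (g * h) = x g + x h
  ker : ∀ g ∈ Hc j c, x g = 0

/-- primes of degree one which generate the class group -/
structure Bs (B : Finset ℕ) (P : ℕ → Ideal (𝓞 Qb)) : Prop where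
  thr : pp ∈ B
  ov : ∀ b ∈ B, Ov b (P b) ∧ dec (P b) ≤ GK j
  gen : ∀ I : Ideal (𝓞 K), I ≠ ⊥ → ∃ (μ : ℕ → ℕ) (β : 𝓞 K),
    I * ∏ b ∈ B, below j (P b) ^ μ b = Ideal.span {β}

/-- `a` is a `p`-th power in the completions at the primes of `c` -/
def Lc (c : ℕ) (a : 𝓞 K) : Prop :=
  ∀ l P, Ov l P → l ∣ c → ∃ y : Qb, y ^ pp = j a ∧ ∀ g ∈ dec P, g y = y

/-- the ideal is a `p`-th power, the element is a `p`-th power above `p` -/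
def Yz (a : 𝓞 K) : Prop := a ≠ 0 ∧ (∃ I : Ideal (𝓞 K), Ideal.span {a} = I ^ pp) ∧ Lc j pp a

/-- **the small Selmer group vanishes**: strict at `P`, transverse at `c` -/
def Sl (c : ℕ) (x : GQ → ZMod pp) (P : Ideal (𝓞 Qb)) : Prop := ∀ (a : 𝓞 K) (y : Qb), a ≠ 0 →
  y ^ pp = j a → (∃ (I J : Ideal (𝓞 K)) (n : ℕ), Ideal.span {a} = I ^ pp * J ∧
    J ∣ Ideal.span {(c : 𝓞 K)} ^ n) → (∀ g ∈ dec P, g y = y) →
  (∀ q Q, Ov q Q → q ∣ c → ∀ g ∈ dec Q, x g = 0 → g y = y) → ∀ g ∈ GK j, g y = y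

/-- the data which kill the small Selmer group; `o` is the last prime -/
structure Kl {ι : Type} [Fintype ι] [DecidableEq ι] (q : ι → ℕ) (Q : ι → Ideal (𝓞 Qb)) (φ : ι → GQ)
    (o : ι) (x x₀ : GQ → ZMod pp) : Prop where
  inj : Function.Injective q
  pl : ∀ i, Ov (q i) (Q i) ∧ Fb (q i) (Q i) (φ i) ∧ q i % pp = 1 ∧
    ∀ Q', Ov (q i) Q' → dec Q' ≤ GK j ∧ ∃ t, Inert Q' t ∧ x t = 1
  xe : Xc j (∏ i, q i) x
  x0 : Xc j (∏ i ∈ Finset.univ.erase o, q i) x₀ ∧ x₀ (φ o) ≠ 0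
  x9 : ∀ i ≠ o, ∃ z, Xc j (pp ^ 2) z ∧ z (φ i) ≠ 0 ∧ ∀ i' ≠ i, z (φ i') = 0
  det : ∀ (a : 𝓞 K) (y : Qb), Yz j a → y ^ pp = j a → (∀ i ≠ o, φ i y = y) → ∃ t : K, (a : K) = t ^ pp
  pls : ∃ s : ι → GQ, (∀ i, s i ∈ dec (Q i) ∧ x (s i) = 0) ∧
    ∀ m : ι → ZMod pp, (∀ i, ∑ i', ka pp (q i') (s i) * m i' = 0) → m = 0

/-- the input which keeps the traces of the Frobenius elements away from `± 2` -/
structure Nq (S : Finset ℕ) (U : ℕ → Subgroup GQ) (Gq : ℕ → GQ → Prop) : Prop where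
  opn : ∀ m, IsOpen (U m : Set GQ) ∧ (U m).Normal ∧ UnS S (U m)
  stb : ∀ m g, ∀ u ∈ U m, Gq m g → Gq m (g * u)
  cj : ∀ m g x, Gq m g → Gq m (x * g * x⁻¹)
  mono : ∀ m m' g, m ≤ m' → Gq m g → Gq m' g
  ex : ∀ A : Finset K, 0 ∉ A → ∀ W : Subgroup GQ, IsOpen (W : Set GQ) → ∃ h ∈ GK j, h ∈ W ∧
    (∀ n, Fx (insert 1 (j '' A)) (pp ^ n) h) ∧ ∃ m, ∀ g, Fx {1} pp g → ∃ k ≤ 2, Gq m (g * h ^ k)

end tower

/-! ### the tower: rows -/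

/-- generators of the class group -/
def BSX : Prop := ∀ (K : Type) [Field K] [NumberField K] (j : K →+* Qb), Iq K →
  ∀ (S : Finset ℕ) (P : ℕ → Ideal (𝓞 Qb)), pp ∈ S → (∀ p ∈ S, Ov p (P p) ∧ dec (P p) ≤ GK j) →
  ∃ B P', S ⊆ B ∧ (∀ p ∈ S, P' p = P p) ∧ Bs j B P'

/-- finitely many Kummer classes control the relations -/
def GEN : Prop := ∀ (K : Type) [Field K] [NumberField K] (j : K →+* Qb), Kd j → ∀ γ ∉ GK j,
  ∀ B P, Bs j B P → ∃ A : Finset K, 0 ∉ A ∧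
    (∀ n l Q, Ov l Q → l ∉ B → ∀ g ∈ GK j, Inert Q g → Fx (insert 1 (j '' A)) (pp ^ n) g) ∧
    (∀ (N : ℕ) (ζ : Qb), ∀ g ∈ GK j, ∀ h ∈ GK j, ∀ y : ℕ → ZMod N, 0 < N →
      Fx (insert 1 (j '' A)) N h → Rl j γ B P ζ g y → Rl j γ B P ζ (g * h) y) ∧
    (∀ (N : ℕ) (ζ : Qb), Rl j γ B P ζ 1 (0 : ℕ → ZMod N)) ∧
    ∀ (a : 𝓞 K) (I : Ideal (𝓞 K)) (y : Qb), ∀ g ∈ GK j, a ≠ 0 → Ideal.span {a} = I ^ pp →
      y ^ pp = j a → Fx (insert 1 (j '' A)) pp g → g y = y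

/-- an element which is not a `p`-th power is not a `p`-th power in the cyclotomic tower -/
def KI0 : Prop := ∀ (K : Type) [Field K] [NumberField K] (j : K →+* Qb), Kd j → ∀ (a : K) (y : Qb)
  (n : ℕ), y ^ pp = j a → (∀ g ∈ GK j, Fx {1} (pp ^ n) g → g y = y) → ∃ t : K, a = t ^ pp

/-- independence of the Kummer classes of the relations -/
def KI : Prop := ∀ (K : Type) [Field K] [NumberField K] (j : K →+* Qb), Kd j → ∀ γ ∉ GK j,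
  ∀ B P, Bs j B P → ∀ (N n : ℕ) (ζ : Qb) (y : ℕ → ZMod N), N = pp ^ n → IsPrimitiveRoot ζ N →
  ∃ g ∈ GK j, Fx {1} N g ∧ Rl j γ B P ζ g y

/-- **ring class characters with prescribed ramification and values** -/
def EXT : Prop := ∀ (K : Type) [Field K] [NumberField K] (j : K →+* Qb), Kd j → ∀ γ ∉ GK j,
  ∀ B P, Bs j B P → ∀ (N n : ℕ) (ζ : Qb) (y : ℕ → ZMod N), N = pp ^ n → IsPrimitiveRoot ζ N →
  ∀ (k : ℕ) (q : Fin k → ℕ) (Q : Fin k → Ideal (𝓞 Qb)) (φ : Fin k → GQ), Function.Injective q →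
  (∀ i, Ov (q i) (Q i) ∧ dec (Q i) ≤ GK j ∧ Fb (q i) (Q i) (φ i) ∧ q i ∉ B ∧ Fx {1} N (φ i)) →
  Rl j γ B P ζ (List.ofFn φ).prod y →
  ∃ e : GQ → ZMod N, (∀ g ∈ GK j, ∀ h ∈ GK j, e (g * h) = e g + e h) ∧
    (∀ g ∈ Hc j (∏ i, q i), e g = 0) ∧ (∀ i Q', Ov (q i) Q' → ∃ t, Inert Q' t ∧ e t = 1) ∧
    (∀ b ∈ B, ∀ ψ, Fb b (P b) ψ → e ψ = y b) ∧
    ∀ (l : ℕ) (L : Ideal (𝓞 Qb)) (ψ : GQ) (μ : ℕ → ℕ) (β : 𝓞 K) (x : ZMod N), Ov l L →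
      dec L ≤ GK j → Fb l L ψ → ¬ l ∣ ∏ i, q i →
      below j L * ∏ b ∈ B, below j (P b) ^ μ b = Ideal.span {β} →
      Kv ζ (qa j γ β) (List.ofFn φ).prod x → e ψ + ∑ b ∈ B, (μ b : ZMod N) * y b = x

/-- a local `p`-th power is congruent to one, after multiplication by a `p`-th power -/
def CUB : Prop := ∀ (K : Type) [Field K] [NumberField K] (j : K →+* Qb), Iq K →
  ∀ (c r : ℕ) (a : 𝓞 K) (I J : Ideal (𝓞 K)), 0 < c → a ≠ 0 →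
  (∀ l P, Ov l P → l ∣ c → dec P ≤ GK j) → Lc j c a → Ideal.span {a} = I ^ pp * J → Cop c J →
  ∃ (t : K) (b : 𝓞 K) (I' : Ideal (𝓞 K)), t ≠ 0 ∧ ((1 + c ^ r * b : 𝓞 K) : K) = t ^ pp * a ∧
    Ideal.span {1 + c ^ r * b} = I' ^ pp * J

/-- reciprocity for ring class characters -/
def ART : Prop := ∀ (K : Type) [Field K] [NumberField K] (j : K →+* Qb), Iq K →
  ∀ (c r : ℕ) (x : GQ → ZMod pp) (a : 𝓞 K) (I : Ideal (𝓞 K)) (ι : Type) [Fintype ι] (l m : ι → ℕ)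
    (Q : ι → Ideal (𝓞 Qb)) (φ : ι → GQ), 0 < c → a ≠ 0 → Xc j (c ^ r) x →
  (∀ l P, Ov l P → l ∣ c → dec P ≤ GK j) → Lc j c a →
  (∀ i, Ov (l i) (Q i) ∧ dec (Q i) ≤ GK j ∧ Fb (l i) (Q i) (φ i) ∧ ¬ l i ∣ c) →
  Ideal.span {a} = I ^ pp * ∏ i, below j (Q i) ^ m i → ∑ i, (m i : ZMod pp) * x (φ i) = 0

/-- **the rank of the class group of conductor `p ^ 2`** -/
def CLS : Prop := ∀ (K : Type) [Field K] [NumberField K] (j : K →+* Qb), Kd j →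
  ∃ (d : ℕ) (x : Fin (d + 1) → GQ → ZMod pp) (a : Fin d → 𝓞 K), (∀ i, Xc j (pp ^ 2) (x i)) ∧
    (∀ u : Fin (d + 1) → ZMod pp, ∃ g ∈ GK j, ∀ i, x i g = u i) ∧
    (∀ i, a i ≠ 0 ∧ ∃ I : Ideal (𝓞 K), Ideal.span {a i} = I ^ pp) ∧
    ∀ b, Yz j b → ∃ (m : Fin d → ℕ) (t : K), (b : K) * ∏ i, (a i : K) ^ m i = t ^ pp

/-- the ring class characters are independent from the Kummer classes -/
def KX : Prop := ∀ (K : Type) [Field K] [NumberField K] (j : K →+* Qb), Kd j →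
  ∀ (A : Finset K) (n c : ℕ), 0 < c → ∀ g ∈ GK j, ∃ h ∈ GK j,
    Fx (insert 1 (j '' A)) (pp ^ n) h ∧ ∀ x, Xc j c x → x h = x g

/-- **the classes of the first primes** -/
def PH1 : Prop := ∀ (K : Type) [Field K] [NumberField K] (j : K →+* Qb), Kd j →
  ∀ (d : ℕ) (x : Fin (d + 1) → GQ → ZMod pp) (a : Fin d → 𝓞 K) (A : Finset K), (∀ i, Xc j (pp ^ 2) (x i)) →
  (∀ u : Fin (d + 1) → ZMod pp, ∃ g ∈ GK j, ∀ i, x i g = u i) → (∀ i, a i ≠ 0) → 0 ∉ A →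
  (∀ i (y : Qb), ∀ g ∈ GK j, y ^ pp = j (a i) → Fx (insert 1 (j '' A)) pp g → g y = y) →
  ∀ n, 0 < n → ∀ g₀ ∈ GK j, Fx {1} (pp ^ n) g₀ → ∃ g : Fin (d + 1) → GQ,
    (∀ i, g i ∈ GK j ∧ Fx {1} (pp ^ n) (g i) ∧ ∀ i', x i' (g i) = if i' = i then 1 else 0) ∧
    ∀ φ : Fin (d + 1) → GQ,
      (∀ i, φ i ∈ GK j ∧ Fx (insert 1 (j '' A)) (pp ^ n) ((g i)⁻¹ * φ i)) →
      Fx (insert 1 (j '' A)) (pp ^ n) (g₀⁻¹ * (List.ofFn φ).prod) ∧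
      ∀ (m : Fin d → ℕ) (y : Qb), y ^ pp = j (∏ i, (a i : K) ^ m i) → (∀ i, φ i y = y) →
        ∃ t : K, ∏ i, (a i : K) ^ m i = t ^ pp

/-- **adjustment by inertia at the first primes** -/
def ADJ : Prop := ∀ (K : Type) [Field K] [NumberField K] (j : K →+* Qb), Kd j → ∀ γ ∉ GK j,
  ∀ (ι : Type) [Fintype ι] (o : ι) (q : ι → ℕ) (Q : ι → Ideal (𝓞 Qb)) (β : ι → 𝓞 K)
    (J : ι → Ideal (𝓞 K)) (x : GQ → ZMod pp) (ζ : Qb), Function.Injective q → IsPrimitiveRoot ζ pp →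
  (∀ i, Ov (q i) (Q i) ∧ q i % pp = 1 ∧ below j (Q i) * J i = Ideal.span {β i} ∧
    Cop (∏ i, q i) (J i) ∧ ∀ Q', Ov (q i) Q' → dec Q' ≤ GK j ∧ ∃ t, Inert Q' t ∧ x t = 1) →
  Xc j (∏ i, q i) x → ∀ g₀ ∈ GK j, g₀ ζ = ζ → ∀ z : ι → ZMod pp,
  ∃ t ∈ Subgroup.closure {s | ∃ i Q', Ov (q i) Q' ∧ Inert Q' s}, x (g₀ * t) = 1 ∧ ∀ i,
    Kv ζ (qa j γ (β i)) (g₀ * t) (z i) ∧ (ka pp (q i) (g₀ * t) = 0 ↔ i ≠ o) ∧
      (Cb (q i) (g₀ * t) ↔ i ≠ o)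

/-- power residues -/
def CBR : Prop := ∀ (q l : ℕ) (Q L : Ideal (𝓞 Qb)) (φ ψ : GQ), Ov q Q → Ov l L → q ≠ l →
  q % pp = 1 → Fb l L ψ → φ ∈ dec Q → (∃ t, Inert Q t ∧ Fb q Q (φ * t)) → (ka pp l φ = 0 ↔ Cb q ψ)

/-- **the rational part** -/
def PLS : Prop := ∀ (ι : Type) [Fintype ι] (q : ι → ℕ) (s : ι → GQ) (n : ℤ) (y : Qb),
  Function.Injective q → (∀ i, (q i).Prime ∧ oz pp (s i) = 1 ∧ s i y = y) → n ≠ 0 → y ^ pp = n →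
  (∀ l : ℕ, l.Prime → (∀ i, l ≠ q i) → pp ∣ padicValInt l n) →
  (∀ m : ι → ZMod pp, (∀ i, ∑ i', ka pp (q i') (s i) * m i' = 0) → m = 0) → ∃ t : ℤ, n = t ^ pp

/-- **killing** -/
def KIL : Prop := ∀ (K : Type) [Field K] [NumberField K] (j : K →+* Qb), Kd j →
  ∀ (ι : Type) [Fintype ι] [DecidableEq ι] (q : ι → ℕ) (Q : ι → Ideal (𝓞 Qb)) (φ : ι → GQ) (o : ι)
    (x x₀ : GQ → ZMod pp), Kl j q Q φ o x x₀ → ∀ P, Ov pp P → Sl j (∏ i, q i) x P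

/-- **the tower** -/
def TWR : Prop := ∀ (K : Type) [Field K] [NumberField K] (j : K →+* Qb) (S : Finset ℕ)
  (U : ℕ → Subgroup GQ) (Gq : ℕ → GQ → Prop), Kd j → 2 ∈ S → pp ∈ S →
  (∀ p ∈ S, p.Prime ∧ ∀ Q, Ov p Q → dec Q ≤ GK j) → Nq j S U Gq →
  ∃ k m : ℕ, ∀ n, ∃ (c : ℕ) (e : GQ → ZMod (pp * pp ^ (n + 1))), Lv j c (pp ^ (n + 1)) e S ∧
    (∀ P, Ov pp P → Sl j c (eb e) P) ∧ c.primeFactors.card ≤ k ∧
    ∀ q : ℕ, q.Prime → q ∣ c → pp ^ n ∣ q - 1 ∧ ∀ g, IsFrob q g → Gq m g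

end Vale.Agent.P014Z.Rp
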