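import Vale.Agent.P014Y.Rd.Cls
import Vale.Agent.P014Z.Rp.St

/-!
# P014Z, block Rp: the rank of the class group of conductor `p ^ 2`
-/

set_option autoImplicit false
set_option linter.all false

open NumberField Module

noncomputable section

namespace Vale.Agent.P014Z.Rp.Cls

open Vale.Agent.P022 (Qb GQ GK)
open P004K P004K.Rc

theorem crd (p : ℕ) [Fact p.Prime] (V : Type) [AddCommGroup V] [Module (ZMod p) V] [Finite V] :
    Nat.card V = p ^ finrank (ZMod p) V := by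
  rw [natCard_eq_pow_finrank (K := ZMod p) (V := V), Nat.card_zmod]

/-- a finite abelian group with a nonzero element of order `p` -/
theorem ab {p : ℕ} (hp : p.Prime) {A : Type} [AddCommGroup A] [Finite A] {g₀ : A} (h0 : g₀ ≠ 0)
    (h3 : p • g₀ = 0) :
    ∃ (d : ℕ) (x : A →+ (Fin (d + 1) → ZMod p)) (h : Fin d → A), Function.Surjective x ∧
      (∀ i, p • h i = 0) ∧ ∀ g, p • g = 0 →
        ∃ (n : ℕ) (m : Fin d → ℕ), g + n • g₀ + ∑ i, m i • h i = 0 := by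
  have : Fact p.Prime := ⟨hp⟩
  let f : A →+ A := nsmulAddMonoidHom p
  obtain ⟨_⟩ : Nonempty (Module (ZMod p) f.ker) :=
    ⟨AddCommGroup.zmodModule fun a => Subtype.ext a.2⟩
  obtain ⟨_⟩ : Nonempty (Module (ZMod p) (A ⧸ f.range)) := ⟨AddCommGroup.zmodModule fun a => by
    obtain ⟨a, rfl⟩ := QuotientAddGroup.mk_surjective a
    exact (QuotientAddGroup.eq_zero_iff (p • a)).2 ⟨a, rfl⟩⟩
  have e1 : Nat.card (A ⧸ f.range) = Nat.card f.ker := AddSubgroup.index_range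
  rw [crd p (A ⧸ f.range), crd p f.ker] at e1
  have e2 := Nat.pow_right_injective hp.two_le e1
  let v : f.ker := ⟨g₀, h3⟩
  have e3 := (Submodule.span (ZMod p) {v}).finrank_quotient_add_finrank
  rw [finrank_span_singleton (fun k : v = 0 => h0 (congrArg Subtype.val k)), ← e2] at e3
  let b := finBasis (ZMod p) (f.ker ⧸ Submodule.span (ZMod p) {v})
  choose h hh using fun i => (Submodule.span (ZMod p) {v}).mkQ_surjective (b i)
  let c := (finBasisOfFinrankEq (ZMod p) _ e3.symm).equivFun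
  refine ⟨_, c.toAddMonoidHom.comp (QuotientAddGroup.mk' _), fun i => h i,
    c.surjective.comp QuotientAddGroup.mk_surjective, fun i => (h i).2, fun g hg => ?_⟩
  let w : f.ker := ⟨g, hg⟩
  let m := b.repr ((Submodule.span (ZMod p) {v}).mkQ (-w))
  have e4 : -w - ∑ i, m i • h i ∈ Submodule.span (ZMod p) {v} := by
    refine (Submodule.ker_mkQ _).le (LinearMap.mem_ker.2 ?_)
    rw [map_sub, map_sum, sub_eq_zero]
    simp only [map_smul, hh]
    exact (b.sum_repr _).symm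
  obtain ⟨n, e5⟩ := Submodule.mem_span_singleton.1 e4
  have k : ∀ (z : ZMod p) (u : f.ker), z • u = z.val • u := fun z u => by
    rw [← Nat.cast_smul_eq_nsmul (ZMod p), ZMod.natCast_zmod_val]
  have e6 : w + n.val • v + ∑ i, (m i).val • h i = 0 := by
    simp only [← k]
    rw [e5]
    abel
  exact ⟨n.val, fun i => (m i).val, by simpa using congrArg Subtype.val e6⟩

/-- **the rank** -/
theorem cls0 (h1 : RC1) (h2 : RC2) {K : Type} [Field K] [NumberField K] (j : K →+* Qb) (hK : Iq K)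
    (hu : Upm K) {p : ℕ} (hp : p.Prime) (od : Odd p) :
    ∃ (d : ℕ) (x : Fin (d + 1) → GQ → ZMod p) (a : Fin d → 𝓞 K),
      (∀ i, (∀ g ∈ GK j, ∀ h ∈ GK j, x i (g * h) = x i g + x i h) ∧
        ∀ g ∈ Hc j (p ^ 2), x i g = 0) ∧
      (∀ u : Fin (d + 1) → ZMod p, ∃ g ∈ GK j, ∀ i, x i g = u i) ∧
      (∀ i, a i ≠ 0 ∧ ∃ I : Ideal (𝓞 K), Ideal.span {a i} = I ^ p) ∧
      ∀ (b b' : 𝓞 K) (t : K) (J : Ideal (𝓞 K)), b ≠ 0 → t ≠ 0 →
        ((1 + p ^ 2 * b' : 𝓞 K) : K) = t ^ p * b → Ideal.span {1 + p ^ 2 * b'} = J ^ p →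
        ∃ (m : Fin d → ℕ) (t : K), (b : K) * ∏ i, (a i : K) ^ m i = t ^ p := by
  obtain ⟨A, _, _, π, T, p1, p2, p3, t1, t2, t3, t4, t5, t6⟩ :=
    P014Y.Rd.Cls.art h1 h2 j hK (c := p ^ 2) (pow_pos hp.pos 2)
  obtain ⟨ω, s, q⟩ := qd j hK
  have w0 : (1 + p * ω : 𝓞 K) ≠ 0 := fun e =>
    one_ne_zero (q.ext (u := 1) (v := p) (u' := 0) (v' := 0) (by simpa using e)).1
  obtain ⟨g₀, e0⟩ := t1 (Ideal.span {1 + p * ω}) (cop_of (mt Ideal.span_singleton_eq_bot.1 w0)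
    (Ideal.mul_mem_right (1 - p * ω) _ (Ideal.mem_span_singleton_self _)) (b := ω ^ 2)
    (by push_cast; ring))
  have n0 : g₀ ≠ 0 := fun e => by
    obtain ⟨x, hx, e1⟩ := (t6 _ _ e0).2.1 e
    have := Int.natCast_dvd_natCast.1
      ((q.rc_iff (c := p ^ 2) (u := 1) (v := p)).1 (by simpa using rc_span hu e1 hx))
    exact (Nat.le_of_dvd hp.pos this).not_gt (by nlinarith [hp.two_le])
  have n3 : p • g₀ = 0 := by
    obtain ⟨y, e⟩ := dvd_sub_pow_of_dvd_sub (p := p) (a := (1 + p * ω : 𝓞 K)) (b := 1)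
      ⟨ω, by ring⟩ 1
    rw [pow_one, one_pow] at e
    exact (t6 _ _ (t4 _ _ p e0)).2.2 ⟨_, ⟨1, y, by push_cast; linear_combination e⟩,
      Ideal.span_singleton_pow _ _⟩
  obtain ⟨d, x, h, x1, h3, sp⟩ := ab hp n0 n3
  choose I hI using fun i => t2 (h i)
  choose a ha using fun i => (t6 _ _ (t4 _ _ p (hI i))).2.1 (h3 i)
  refine ⟨d, fun i g => x (π g) i, a, fun i => ⟨fun g hg g' hg' => ?_, fun g hg => ?_⟩,
    fun u => ?_, fun i => ⟨fun e => ?_, I i, (ha i).2.symm⟩, ?_⟩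
  · simp only [p1 g hg g' hg', map_add, Pi.add_apply]
  · simp only [p2 g hg, map_zero, Pi.zero_apply]
  · obtain ⟨y, rfl⟩ := x1 u
    obtain ⟨g, hg, rfl⟩ := p3 y
    exact ⟨g, hg, fun _ => rfl⟩
  · exact (t6 _ _ (t4 _ _ p (hI i))).1 (by rw [(ha i).2, e, Ideal.span_singleton_eq_bot])
  intro b b' t J' b0 t0 e1 e2
  have u0 : (1 + p ^ 2 * b' : 𝓞 K) ≠ 0 := fun e => by
    rw [e] at e1
    exact mul_ne_zero (pow_ne_zero p t0) (by exact_mod_cast b0) e1.symm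
  obtain ⟨g, eg⟩ := t1 J' (cop_of
    (fun e => u0 (Ideal.span_singleton_eq_bot.1 (by rw [e2, e]; simp [hp.ne_zero])))
    (Ideal.pow_le_self hp.ne_zero (e2 ▸ Ideal.mem_span_singleton_self _)) (b := -b')
    (by push_cast; ring))
  obtain ⟨n, m, e3⟩ := sp g ((t6 _ _ (t4 _ _ p eg)).2.2 ⟨_, ⟨1, b', by push_cast; ring⟩, e2.symm⟩)
  obtain ⟨β, -, e4⟩ := (t6 _ _ (t3 _ _ _ _ (t3 _ _ _ _ eg (t4 _ _ n e0))
    (t5 d _ _ fun i => t4 _ _ (m i) (hI i)))).2.1 e3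
  have e5 : Ideal.span {(1 + p ^ 2 * b') * ((1 + p * ω) ^ n) ^ p * ∏ i, a i ^ m i} =
      Ideal.span {β ^ p} := by
    rw [← Ideal.span_singleton_pow β, ← e4, ← Ideal.span_singleton_mul_span_singleton,
      ← Ideal.span_singleton_mul_span_singleton, ← Ideal.prod_span_singleton, e2, mul_pow, mul_pow,
      ← Finset.prod_pow]
    simp only [← Ideal.span_singleton_pow, ← (ha _).2, ← pow_mul, mul_comm]
  obtain ⟨u, e6⟩ := Ideal.span_singleton_eq_span_singleton.1 e5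
  have e7 := congrArg (algebraMap (𝓞 K) K) e6
  have w1 : (algebraMap (𝓞 K) K (1 + p * ω)) ^ n ≠ 0 :=
    pow_ne_zero _ ((map_ne_zero_iff _ RingOfIntegers.coe_injective).2 w0)
  rw [map_mul, map_mul, map_mul, map_pow, map_pow, map_pow, map_prod] at e7
  simp only [map_pow] at e7
  have e8 : algebraMap (𝓞 K) K (1 + p ^ 2 * b') = t ^ p * b := e1
  rw [e8] at e7
  refine ⟨m, algebraMap (𝓞 K) K u * algebraMap (𝓞 K) K β /
    (t * (algebraMap (𝓞 K) K (1 + p * ω)) ^ n), ?_⟩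
  rw [div_pow, eq_div_iff (pow_ne_zero _ (mul_ne_zero t0 w1)), mul_pow, mul_pow, ← e7]
  rcases hu u with rfl | rfl <;> simp [od.neg_pow] <;> ring

end Vale.Agent.P014Z.Rp.Cls

namespace Vale.Agent.P014Z.Rp

open P004K P014U

theorem cls [Pp] (h1 : RC1) (h2 : RC2) (cub : CUB) : CLS := fun K _ _ j kd => by
  obtain ⟨d, x, a, k1, k2, k3, k4⟩ :=
    Cls.cls0 h1 h2 j kd.iq kd.upm Pp.prime (Pp.prime.odd_of_ne_two Pp.odd)
  refine ⟨d, x, a, fun i => ⟨(k1 i).1, (k1 i).2⟩, k2, k3, ?_⟩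
  rintro b ⟨b0, ⟨J, hJ⟩, lc⟩
  obtain ⟨t, b', J', t0, e1, e2⟩ := cub K j kd.iq pp 2 b J ⊤ Pp.prime.pos b0
    (fun l P o k => by
      obtain rfl := (Nat.prime_dvd_prime_iff_eq o.1 Pp.prime).1 k
      exact kd.spl P o) lc (by rw [hJ, Ideal.mul_top]) Rc.cop_top
  exact k4 b b' t J' b0 t0 e1 (by rw [e2, Ideal.mul_top])

end Vale.Agent.P014Z.Rp
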