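import Vale.Agent.P014Z.Rp.St
import Vale.Agent.P004R.Cnf

/-!
# P014Z, a rational point of order `p`: the index formula for the elliptic units
-/

set_option autoImplicit false
set_option linter.all false

open ZMod Finset UpperHalfPlane NumberField Filter Topology
open NumberField.Units (torsion torsionOrder regulator)
open scoped Real

noncomputable section

namespace Vale.Agent.P014Z.Rp

open Vale.Agent.P022 (Qb GQ GK)
open P027H P027M.M P004K P014U
open Vale.Agent.P022K.G2 (Tv Nz)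
open P004R.Cf (SS Iv Dt ze_st lim res ex_T)

variable [Pp]

namespace Cf

theorem prod_Fa {β : Type} [CommMonoid β] (f : ℕ → β) (M : ℕ) :
    (∏ k ∈ Fa M, f k) * ∏ i ∈ range M, f (pp * i) = ∏ k ∈ range (pp * M), f k := by
  rw [Fa, ← prod_filter_not_mul_prod_filter (range (pp * M)) (fun k => pp ∣ k) f]
  congr 1
  refine prod_bij' (fun i _ => pp * i) (fun k _ => k / pp) (fun i hi => ?_) (fun k hk => ?_)
    (fun i _ => Nat.mul_div_cancel_left i pp_pos) (fun k hk => Nat.mul_div_cancel' (mem_filter.1 hk).2)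
    fun _ _ => rfl
  · exact mem_filter.2 ⟨mem_range.2 (Nat.mul_lt_mul_of_pos_left (mem_range.1 hi) pp_pos),
      dvd_mul_right _ _⟩
  · exact mem_range.2 (Nat.div_lt_of_lt_mul (mem_range.1 (mem_filter.1 hk).1))

theorem card_Fa (M : ℕ) : pp * M = (Fa M).card + M := by
  have := prod_Fa (fun _ => Multiplicative.ofAdd (1 : ℕ)) M
  simp only [prod_const, card_range, ← pow_add] at this
  have := congrArg Multiplicative.toAdd this
  simpa using this.symm

theorem prod_fa {M : ℕ} [NeZero (pp * M)] (f : ZMod (pp * M) → ℝ) : ∏ k ∈ Fa M, f k =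
    ∏ a ∈ univ.filter fun a => castHom (dvd_mul_right pp M) (ZMod pp) a ≠ 0, f a := by
  refine prod_bij' (fun k _ => (k : ZMod (pp * M))) (fun a _ => a.val) (fun k hk => ?_)
    (fun a ha => ?_) (fun k hk => ?_) (fun a _ => natCast_zmod_val a) fun _ _ => rfl
  · rw [mem_filter, map_natCast]
    exact ⟨mem_univ _, fun z => (mem_filter.1 hk).2 ((natCast_eq_zero_iff _ _).1 z)⟩
  · rw [mem_filter, ← natCast_zmod_val a, map_natCast] at ha
    exact mem_filter.2 ⟨mem_range.2 a.val_lt, fun z => ha.2 ((natCast_eq_zero_iff _ _).2 z)⟩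
  · exact val_cast_of_lt (mem_range.1 (mem_filter.1 hk).1)

theorem prod_unit {M : ℕ} [NeZero (pp * M)] (f : ZMod (pp * M) → ℝ) (η : (ZMod (pp * M))ˣ) :
    ∏ k ∈ Fa M, f (k * η) = ∏ k ∈ Fa M, f k := by
  rw [prod_fa f, prod_fa fun a : ZMod (pp * M) => f (a * η)]
  refine prod_equiv η.mulRight (fun a => ?_) fun _ _ => rfl
  simp only [mem_filter, Units.mulRight_apply, map_mul, mem_univ, true_and, ne_eq,
    (η.isUnit.map (castHom (dvd_mul_right pp M) (ZMod pp))).mul_left_eq_zero]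

omit [Pp] in
theorem prod_all {ζ : ℂ} {N : ℕ} (h : IsPrimitiveRoot ζ N) (N0 : 0 < N) :
    ∏ k ∈ range N, (if k = 0 then 1 else 1 - ζ ^ k) = N := by
  obtain ⟨n, rfl⟩ : ∃ n, N = n + 1 := ⟨N - 1, by omega⟩
  rw [prod_range_succ', if_pos rfl, mul_one]
  simp only [Nat.succ_ne_zero, if_false]
  rw [h.prod_one_sub_pow_eq_order]
  push_cast
  rfl

theorem prod_one_sub {M : ℕ} [NeZero (pp * M)] :
    ∏ k ∈ Fa M, ‖1 - stdAddChar (-(k : ZMod (pp * M)))‖ = pp := by
  have N0 := NeZero.pos (pp * M)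
  have M0 : 0 < M := Nat.pos_of_mul_pos_left N0
  have h := (Complex.isPrimitiveRoot_exp (pp * M) N0.ne').inv
  set ζ := (Complex.exp (2 * π * Complex.I / (pp * M : ℕ)))⁻¹ with hζ
  have a : ∀ k : ℕ, stdAddChar (-(k : ZMod (pp * M))) = ζ ^ k := fun k => by
    rw [← Int.cast_natCast, ← Int.cast_neg, stdAddChar_coe, hζ, inv_pow, ← Complex.exp_nat_mul,
      ← Complex.exp_neg]
    congr 1
    push_cast
    ring
  have k := prod_Fa (fun k => if k = 0 then (1 : ℂ) else 1 - ζ ^ k) M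
  rw [prod_all h N0] at k
  simp only [mul_eq_zero, pp_ne, false_or, pow_mul] at k
  rw [prod_all (h.pow N0 rfl) M0, Nat.cast_mul] at k
  have k' := mul_right_cancel₀ (Nat.cast_ne_zero.2 M0.ne') k
  simp only [a]
  rw [prod_congr rfl fun i hi => if_neg fun z : i = 0 => by
    rw [Fa, mem_filter, z] at hi
    exact hi.2 (dvd_zero _)] at k'
  rw [← norm_prod, k', Complex.norm_natCast]

theorem valp {x h a o : ℕ} (h0 : h ≠ 0) (ha : ¬ pp ∣ a) (ho : ¬ pp ∣ o)
    (e : x ^ 2 * a = (h * pp) ^ 2 * o) : x ≠ 0 ∧ padicValNat pp x = padicValNat pp h + 1 := by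
  have o0 : o ≠ 0 := fun z => ho (z ▸ dvd_zero _)
  have a0 : a ≠ 0 := fun z => ha (z ▸ dvd_zero _)
  have := pp_pos
  have x0 : x ≠ 0 := by
    rintro rfl
    exact absurd e (by rw [zero_pow two_ne_zero, zero_mul]; positivity)
  have k := congrArg (padicValNat pp) e
  rw [padicValNat.mul (by positivity) a0, padicValNat.mul (by positivity) o0,
    padicValNat.pow, padicValNat.pow, padicValNat.mul h0 pp_ne,
    padicValNat_self, padicValNat.eq_zero_of_not_dvd ha,
    padicValNat.eq_zero_of_not_dvd ho] at k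
  exact ⟨x0, by omega⟩

omit [Pp] in
theorem arith {x h h' c M n p : ℕ} {a b D : ℤ} {R R' r r' P : ℝ} (h0 : R ≠ 0) (hc : 0 < c)
    (hD : D ≠ 0) (p0 : 0 < p) (e3 : p * x * R = R' * (p ^ 2 * (2 ^ n * P)))
    (e4 : r = r' * ((π / (12 * (c * √|(D : ℝ)| / 2))) ^ n * P))
    (e5 : r * (2 * √|(a : ℝ)|) = (2 * π) ^ (n + M) * R * h)
    (e6 : r' * (2 * √|(b : ℝ)|) = (2 * π) ^ M * R' * h') :
    (x * h') ^ 2 * a.natAbs = (h * p) ^ 2 * (((24 * c) ^ 2 * D.natAbs) ^ n * b.natAbs) := by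
  have k : ∀ n : ℤ, (n.natAbs : ℝ) = √|(n : ℝ)| ^ 2 := fun n => by
    rw [Real.sq_sqrt (abs_nonneg _), Nat.cast_natAbs, Int.cast_abs]
  have d : 0 < √|(D : ℝ)| := Real.sqrt_pos.2 (abs_pos.2 (Int.cast_ne_zero.2 hD))
  have e : r * (24 * c * √|(D : ℝ)|) ^ n = r' * (2 * π) ^ n * (2 ^ n * P) := by
    rw [e4, mul_assoc r', mul_assoc r', ← mul_assoc _ (2 ^ n), ← mul_pow, mul_right_comm, ← mul_pow]
    congr 3
    field_simp
    norm_num
  have f : x * h' * √|(a : ℝ)| = h * p * ((24 * c * √|(D : ℝ)|) ^ n * √|(b : ℝ)|) := by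
    refine mul_left_cancel₀ (show p * R * ((2 * π) ^ n * (2 * π) ^ M) ≠ 0 by positivity) ?_
    rw [pow_add] at e5
    generalize (24 * c * √|(D : ℝ)|) ^ n = Z, (2 * π) ^ M = Y, (2 * π) ^ n = X, 2 ^ n * P = Q,
      √|(a : ℝ)| = a, √|(b : ℝ)| = b at *
    linear_combination (h' * a * X * Y) * e3 - (p ^ 2 * Q * a * X) * e6 - (2 * p ^ 2 * a * b) * e +
      (p ^ 2 * b * Z) * e5
  refine Nat.cast_injective (R := ℝ) ?_
  push_cast
  rw [k, k, k, ← mul_pow, f, ← mul_pow, pow_right_comm _ 2 n]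
  generalize (24 * c * √|(D : ℝ)|) ^ n = Z
  ring

theorem nd_c {K : Type} [Field K] [NumberField K] {j : K →+* Qb} {c M : ℕ} {e : GQ → ZMod (pp * M)}
    (y : Ly j c M e) : ¬ pp ∣ c := fun a => by
  have := (Ideal.span_singleton_prime (Nat.cast_ne_zero.2 pp_ne : (pp : ℤ) ≠ 0)).2
    (Nat.prime_iff_prime_int.1 pp_prime)
  obtain ⟨P, h1, h2⟩ := Ideal.exists_ideal_over_prime_of_isIntegral_of_isDomain (S := 𝓞 Qb)
    (Ideal.span {(pp : ℤ)}) (by
      rw [(RingHom.injective_iff_ker_eq_bot _).1 (algebraMap ℤ (𝓞 Qb)).injective_int]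
      exact bot_le)
  have : (pp : ℤ) ∈ P.comap (algebraMap ℤ (𝓞 Qb)) := h2 ▸ Ideal.mem_span_singleton_self _
  have k := (y.ram pp P ⟨pp_prime, h1, by simpa using this⟩ a).1
  rw [Nat.mod_self] at k
  exact zero_ne_one k

theorem nd_abs {a : ℤ} (h : ¬ (pp : ℤ) ∣ a) : ¬ pp ∣ a.natAbs := fun z => h (Int.natCast_dvd.2 z)

theorem nd_24 (h : pp ≠ 3) : ¬ pp ∣ 24 := fun z =>
  (pp_prime.dvd_mul.1 (show pp ∣ 2 ^ 3 * 3 from z)).elim
    (fun z => not_dvd_two (pp_prime.dvd_of_dvd_pow z))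
    fun z => h ((Nat.prime_dvd_prime_iff_eq pp_prime Nat.prime_three).1 z)

end Cf

open Cf in
/-- **CNF** -/
theorem cnf (hr : REG) (ha : LFA) (hb : LFB) (h1 : P004K.RC1) : CNF := by
  intro p3 K _ _ j c M e y F H _ _ _ _ _ jH φ σ l p oK oF oH P s us R t u hu
  have M0 : 0 < M := by
    obtain ⟨m, rfl⟩ := p.pow
    exact pow_pos pp_pos _
  have : NeZero (pp * M) := ⟨(Nat.mul_pos pp_pos M0).ne'⟩
  have oc := nd_c y
  have cp : 0 < c := y.one.le
  have d : Dt (GK j) (Hc j c) R e φ :=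
    ⟨t, fun g _ u hu => (h1 K j y.iq c cp).2.2.1.conj_mem u hu g, y.add, y.ker, l.mem⟩
  obtain ⟨T, hT⟩ := ex_T h1 j y.iq cp
  obtain ⟨ε, hε⟩ := l.gen
  have ne : ∀ k ∈ Fa M, (k : ZMod (pp * M)) ≠ 0 := fun k hk a =>
    (mem_filter.1 hk).2 ((dvd_mul_right pp M).trans ((natCast_eq_zero_iff _ _).1 a))
  set G : GQ → ℂ := fun g => Gl (T (g (jc j c))) with hG
  set L : GQ → ℂ := fun g => (2 * Real.log ‖io (g (s : Qb))‖ : ℝ) with hL
  have iG : Iv (GK j) (Hc j c) G := fun y _ u _ m => by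
    simp only [hG, AlgEquiv.mul_apply, show u (jc j c) = jc j c from m.2]
  have iL : Iv (GK j) (Hc j c) L := fun y _ u _ m => by
    simp only [hL, AlgEquiv.mul_apply,
      show u (s : Qb) = s from congrArg (fun x : 𝓞 Qb => (x : Qb)) (us.fix u m)]
  have s0 : (s : Qb) ≠ 0 := fun a => (us.unit 1 (one_mem _)).1 (by
    rw [one_smul, RingOfIntegers.coe_eq_zero_iff.1 a]
    exact P.zero_mem)
  have ac : ∀ (i : ℕ) x, jH ((σ ^ i) x) = (φ ^ i) (jH x) := fun i => by
    induction i with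
    | zero => exact fun _ => rfl
    | succ i ih => intro x; rw [pow_succ, pow_succ, AlgEquiv.mul_apply, ih, l.act]; rfl
  have lg : ∀ g : GQ, ((2 * Real.log ‖io (g (∏ r ∈ R with e r = 0, r (s : Qb)))‖ : ℝ) : ℂ) =
      ∑ r ∈ R with e r = 0, L (g * r) := fun g => by
    rw [map_prod, map_prod, norm_prod, Real.log_prod fun r _ => by simpa using s0, mul_sum,
      Complex.ofReal_sum]
    rfl
  set w := InfinitePlace.mk ((io : Qb →+* ℂ).comp jH) with hw
  have lw : ∀ i : ℕ, ((2 * Real.log (w ((σ ^ i) (u : 𝓞 H))) : ℝ) : ℂ) =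
      ∑ r ∈ R with e r = 0, L (φ * (φ ^ i * r)) - ∑ r ∈ R with e r = 0, L (φ ^ i * r) := fun i => by
    have a := congrArg (fun x => Real.log ‖io ((φ ^ i) x)‖) hu
    have n : ‖io ((φ ^ i) (∏ r ∈ R with e r = 0, r (s : Qb)))‖ ≠ 0 := by
      simpa only [norm_ne_zero_iff, map_ne_zero, Finset.prod_ne_zero_iff] using fun _ _ => s0
    simp only [map_mul, norm_mul] at a
    rw [Real.log_mul (by simp [-AlgEquiv.coe_pow]) n, ← ac, ← AlgEquiv.mul_apply, ← pow_succ, pow_succ'] at a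
    simp only [← mul_assoc]
    rw [← lg, ← lg, ← a, mul_add, Complex.ofReal_add, add_sub_cancel_right]
    rfl
  have e1 : ∀ k ∈ Fa M, ‖Lg σ M w (u : 𝓞 H) k‖ =
      ‖1 - stdAddChar (-(k : ZMod (pp * M)))‖ ^ 2 * (2 * ‖SS R e G (k * ↑ε⁻¹)‖) := fun k hk => by
    have s2 : ∀ a, SS R e (fun g => 2 * G g) a = 2 * SS R e G a := fun a => by
      simp only [SS, mul_sum, mul_left_comm]
    simp only [Lg, ze_st, lw, Int.cast_mul, Int.cast_natCast]
    rw [d.lg iL (f' := fun g => 2 * G g) (fun y hy u hu m => by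
      beta_reduce
      rw [iG y hy u hu m]) (hε ▸ ε.inv_mul) (ne k hk) (C := (12 * Real.log pp : ℝ)) fun g hg => by
      simp only [hL, hG, us.lg g (t.mem g hg) _ _ (hT g) (hT (g * φ))]
      push_cast
      ring, norm_neg, norm_mul, norm_pow, s2, norm_mul, Complex.norm_two]
  have dK := Real.sqrt_pos.2 (abs_pos.2 (Int.cast_ne_zero.2 (discr_ne_zero K) : (discr K : ℝ) ≠ 0))
  have c0 : (0 : ℝ) < c := Nat.cast_pos.2 cp
  have e2 := tendsto_nhds_unique (tendsto_sub_one_mul_dedekindZeta_nhdsGT H)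
    (((tendsto_sub_one_mul_dedekindZeta_nhdsGT F).mul (tendsto_finsetProd (Fa M) fun k hk =>
      lim (A := c * √|(discr K : ℝ)| / 2) (by positivity) R _ (d.zero (a := k)
        (hε ▸ ε.mul_left_eq_zero.not.2 (ne k hk))) fun g => T (g (jc j c)))).congr'
      (eventually_mem_nhdsWithin.mono fun x hx => by
        beta_reduce
        rw [ha K j c M e y F H jH φ σ l x hx, mul_assoc]
        refine congrArg (fun z => _ * (_ * z)) (prod_congr rfl fun k hk => ?_)
        rw [hb K j c M e y R t _ (fun g _ => hT g) _ (mem_filter.1 hk).2 x hx]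
        simp only [ze_st, Int.cast_mul, Int.cast_natCast, natCast_zmod_val]))
  have e3 := hr F H σ M p w u
  rw [norm_prod, prod_congr rfl e1, prod_mul_distrib, prod_pow,
    prod_one_sub, prod_mul_distrib, prod_const, prod_unit fun a => ‖SS R e G a‖] at e3
  have e4 := congrArg norm e2
  rw [norm_mul, norm_prod, Complex.norm_real, Complex.norm_real] at e4
  simp only [norm_mul, norm_neg, Complex.norm_real, prod_mul_distrib, prod_const] at e4
  rw [Real.norm_of_nonneg (dedekindZeta_residue_pos H).le,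
    Real.norm_of_nonneg (dedekindZeta_residue_pos F).le, Real.norm_of_nonneg (by positivity)] at e4
  have := p.cx
  have := isTotallyComplex_of_algebra F H
  have e5 := res H (n := (Fa M).card + M) (by rw [p.deg, card_Fa]) p.tor
  have inj := Units.map_injective (f := (algebraMap (𝓞 F) (𝓞 H) : 𝓞 F →* 𝓞 H))
    (FaithfulSMul.algebraMap_injective (𝓞 F) (𝓞 H))
  have e6 := res F p.deg' fun v hv => (p.tor _ ((Units.map (algebraMap (𝓞 F) (𝓞 H) :
    𝓞 F →* 𝓞 H)).isOfFinOrder hv)).imp (fun a => inj (a.trans (map_one _).symm)) fun a =>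
      inj (a.trans (Units.ext (by simp)))
  have q := pp_prime
  have o4 : ¬ pp ∣ ((24 * c) ^ 2 * (discr K).natAbs) ^ (Fa M).card * (discr F).natAbs := fun z =>
    ((q.dvd_mul.1 z).resolve_right (nd_abs oF) |> q.dvd_of_dvd_pow |> q.dvd_mul.1).elim
      (fun z => ((q.dvd_mul.1 (q.dvd_of_dvd_pow z)).elim (nd_24 p3) oc)) (nd_abs oK)
  exact (valp (classNumber_ne_zero H) (nd_abs oH) o4 (arith (Units.regulator_ne_zero H) cp
      (discr_ne_zero K) pp_pos e3 e4 e5 e6)).imp_left left_ne_zero_of_mul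

end Vale.Agent.P014Z.Rp
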