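import Vale.Agent.P014Z.Rp.Dpt0
import Vale.Agent.P004R.Dpt
import Vale.Agent.P004R.Lev

/-! # P014Z, route R, row DPT: the depth of the elliptic unit at any prime (word free) -/

set_option autoImplicit false
set_option linter.all false

open NumberField

noncomputable section

namespace Vale.Agent.P014Z.Rp.Dt

open Vale.Agent.P022 P027H P027M.M P004K
open Vale.Agent.P022E.GW (Ov Fb)
open Vale.Agent.P022K.G2 (Tv)
open Vale.Agent.P004R (up Vn)
open Vale.Agent.P004R.Dt (Sm root coe_smul desc zp_sum shift inj ex_u)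
open Vale.Agent.P004R.Lv (zp_add zp_int zp_zero)

variable {q : ℕ} {P : Ideal (𝓞 Qb)} {φ : GQ}

theorem fb_pow (h : Fb q P φ) (k : ℕ) (x : 𝓞 Qb) : φ ^ k • x - x ^ q ^ k ∈ P := by
  induction k with
  | zero => simp
  | succ k ih =>
    rw [pow_succ', mul_smul, pow_succ, pow_mul]
    obtain ⟨z, hz⟩ := sub_dvd_pow_sub_pow (φ ^ k • x) (x ^ q ^ k) q
    convert add_mem (h (φ ^ k • x)) (P.mul_mem_right z ih) using 1
    rw [← hz]; ring

theorem fb_inv (o : Ov q P) (h : Fb q P φ) {k : ℕ} (hk : 0 < k)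
    {x : 𝓞 Qb} (hx : x ∉ P) (e : φ ^ k • x = x) : x * x ^ (q ^ k - 2) - 1 ∈ P := by
  have := neg_mem (fb_pow h k x)
  have h2 : q ^ k = q ^ k - 2 + 2 :=
    (Nat.sub_add_cancel (o.1.two_le.trans (Nat.le_self_pow hk.ne' q))).symm
  rw [e, h2] at this
  refine (o.2.1.mem_or_mem (show x * _ ∈ P from ?_)).resolve_left hx
  convert this using 1
  ring

theorem ex_inv {R : Type} [CommRing R] {p : Ideal R} (h : p.IsMaximal) {a : R} (ha : a ∉ p) :
    ∃ b, 1 - a * b ∈ p := by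
  obtain ⟨b, c, hc, e⟩ := h.exists_inv ha
  exact ⟨b, by rwa [← e, mul_comm a, add_sub_cancel_left]⟩

theorem ov_max (o : Ov q P) : P.IsMaximal :=
  have := o.2.1
  Ideal.isMaximal_of_isIntegral_of_isMaximal_comap (R := ℤ) P
    ((Ideal.comap_isPrime _ P).isMaximal fun h => by
      have h1 : (q : ℤ) ∈ P.comap (algebraMap ℤ (𝓞 Qb)) := by
        rw [Ideal.mem_comap, map_natCast]; exact o.2.2
      rw [h, Ideal.mem_bot] at h1
      exact o.1.ne_zero (by exact_mod_cast h1))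

/-- residues of integral elements -/
theorem ex_res (o : Ov q P) {a : Qb} (h : Ip P a) : ∃ t : 𝓞 Qb, Zp P (a - t) := by
  obtain ⟨α, β, hα, e⟩ := h
  obtain ⟨b, hb⟩ := ex_inv (ov_max o) hα
  refine ⟨b * β, α, β * (1 - α * b), hα, P.mul_mem_left _ hb, ?_⟩
  simp only [RingOfIntegers.coe_eq_algebraMap, map_mul, map_sub, map_one] at e ⊢
  linear_combination e

theorem ex_res' (o : Ov q P) {H : Type} [Field H] [NumberField H] (jH : H →+* Qb) {y : H}
    (h : Ip P (jH y)) : ∃ x : 𝓞 H, Zp P (jH y - RingOfIntegers.mapRingHom jH x) := by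
  set ι := RingOfIntegers.mapRingHom jH
  have pr : (P.comap ι).IsPrime := have := o.2.1; inferInstance
  have p0 : P.comap ι ≠ ⊥ := fun z => o.1.ne_zero (by
    have : (q : 𝓞 H) ∈ P.comap ι := by rw [Ideal.mem_comap, map_natCast]; exact o.2.2
    rw [z, Ideal.mem_bot] at this
    exact_mod_cast this)
  have k : ∃ n d : 𝓞 H, d ∉ P.comap ι ∧ y * d = n := by
    obtain ⟨n, d, e | e⟩ := IsDedekindDomain.HeightOneSpectrum.exists_primeCompl_mul_eq_or_mul_eq
      ⟨P.comap ι, pr, p0⟩ y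
    · exact ⟨n, d, d.2, e⟩
    refine ⟨d, n, fun m => d.2 ?_, e⟩
    obtain ⟨α, β, hα, e'⟩ := h
    refine (o.2.1.mem_or_mem (show α * ι d ∈ P from ?_)).resolve_left hα
    convert P.mul_mem_left β m using 1
    refine RingOfIntegers.ext ?_
    have := congrArg jH e
    rw [map_mul] at this
    change (α : Qb) * jH (d : 𝓞 H) = β * jH n
    rw [← e', mul_assoc]
    exact congrArg _ this.symm
  obtain ⟨n, d, hd, e⟩ := k
  obtain ⟨b, hb⟩ := ex_inv (pr.isMaximal p0) hd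
  refine ⟨b * n, ι d, ι (n * (1 - d * b)), hd, (P.comap ι).mul_mem_left _ hb, ?_⟩
  have := congrArg jH e
  rw [map_mul] at this
  change jH d * (jH y - jH (b * n : 𝓞 H)) = jH (n * (1 - d * b) : 𝓞 H)
  simp only [RingOfIntegers.coe_eq_algebraMap, map_mul, map_sub, map_one] at this ⊢
  linear_combination this

theorem ip_add (hP : P.IsPrime) {a b : Qb} (h : Ip P a) (h' : Ip P b) : Ip P (a + b) := by
  obtain ⟨s, t, s1, e⟩ := h
  obtain ⟨s', t', s2, e'⟩ := h'
  refine ⟨s * s', s' * t + s * t', hP.mul_notMem s1 s2, ?_⟩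
  simp only [RingOfIntegers.coe_eq_algebraMap, map_mul, map_add] at e e' ⊢
  linear_combination (algebraMap _ Qb s') * e + (algebraMap _ Qb s) * e'

theorem zp_mem (hP : P.IsPrime) {x : 𝓞 Qb} (h : Zp P x) : x ∈ P := by
  obtain ⟨s, t, s1, t1, e⟩ := h
  exact (hP.mem_or_mem (show s * x ∈ P from (RingOfIntegers.ext (by
    rw [← e]; exact map_mul (algebraMap _ Qb) _ _) : s * x = t) ▸ t1)).resolve_left s1

theorem zp_fb (o : Ov q P) (f : Fb q P φ) {a : Qb} (h : Zp P a) (k : ℕ) : Zp P ((φ ^ k) a) := by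
  obtain ⟨s, t, s1, t1, e⟩ := h
  have n : q ^ k ≠ 0 := pow_ne_zero k o.1.ne_zero
  refine ⟨φ ^ k • s, φ ^ k • t, fun m => s1 (o.2.1.mem_of_pow_mem (q ^ k) ?_), ?_, ?_⟩
  · simpa using sub_mem m (fb_pow f k s)
  · simpa using add_mem (fb_pow f k t) (P.pow_mem_of_mem t1 _ (Nat.pos_of_ne_zero n))
  · rw [coe_smul, coe_smul, ← map_mul, e]

theorem one (o : Ov q P) {a b t : 𝓞 Qb} {h : Qb} (e : (a : Qb) ^ q = b * (1 + q * h))
    (z : Zp P (h - t)) : haveI := o.2.1; b - a ^ q * (1 + q * -t) ∈ Sm P ((q : 𝓞 Qb) ^ 1) := by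
  obtain ⟨α, β, hα, hβ, k⟩ := z
  refine ⟨α, hα, b * (q * (t * (β + α * t)) - β),
    P.mul_mem_left _ (sub_mem (P.mul_mem_right _ o.2.2) hβ), RingOfIntegers.ext ?_⟩
  simp only [RingOfIntegers.coe_eq_algebraMap, map_mul, map_sub, map_add, map_one, map_pow,
    map_natCast, map_neg] at e k ⊢
  rw [e, ← k]; ring

theorem fib {A : Type} [AddCommMonoid A] {N : ℕ} [NeZero N] (R : Finset GQ) (e : GQ → ZMod N)
    (h : GQ → A) (i : ℕ) : ∑ k ∈ Finset.range N, k.choose i • ∑ g ∈ R with e g = k, h g =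
      ∑ g ∈ R, (e g).val.choose i • h g := by
  rw [← Finset.sum_fiberwise_of_maps_to (t := Finset.range N) (g := fun g => (e g).val)
    fun g _ => Finset.mem_range.2 (ZMod.val_lt _)]
  refine Finset.sum_congr rfl fun k hk => ?_
  rw [Finset.smul_sum]
  refine Finset.sum_congr (Finset.filter_congr fun g _ => ?_) fun g hg => by
    rw [(Finset.mem_filter.1 hg).2]
  rw [← (ZMod.val_injective _).eq_iff, ZMod.val_cast_of_lt (Finset.mem_range.1 hk)]

open Classical in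
/-- **the depth of the unit**, `h g = ((g s) ^ q / (g φ) s - 1) / q` -/
theorem main {Γ U : Subgroup GQ} {R : Finset GQ} (hR : Tv Γ U R)
    (com : ∀ g ∈ Γ, ∀ h ∈ Γ, g * h * g⁻¹ * h⁻¹ ∈ U) {M m : ℕ} (hM : M = q ^ m)
    {e : GQ → ZMod (q * M)} (add : ∀ g ∈ Γ, ∀ h ∈ Γ, e (g * h) = e g + e h)
    (ker : ∀ g ∈ U, e g = 0) (le : U ≤ Γ) {F H : Type} [Field F] [NumberField F] [Field H]
    [NumberField H] [Algebra F H] {jH : H →+* Qb} {σ : H ≃ₐ[ℚ] H}
    (gH : ∀ g, g ∈ GK jH ↔ g ∈ Γ ∧ e g = 0) (mem : φ ∈ Γ) (gen : IsUnit (e φ))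
    (act0 : ∀ x, jH (σ x) = φ (jH x)) (ord : σ ^ (q * M) = 1) (o : Ov q P) (hφ : Fb q P φ)
    {v' : Ideal (𝓞 F)} (ip : P004R.Ip σ M q (below (jH.comp (algebraMap F H)) P) v')
    (hup : up H (below (jH.comp (algebraMap F H)) P) = below jH P) {s : 𝓞 Qb}
    (fix : ∀ g ∈ U, g • s = s) (unit : ∀ g ∈ Γ, g • s ∉ P ∧ Associated (g • s) s) {h : GQ → Qb}
    (hh : ∀ g, h g = (g (s : Qb) ^ q / (g * φ) (s : Qb) - 1) / q) (hi : ∀ g ∈ Γ, Ip P (h g)) :
    ∃ u : (𝓞 H)ˣ,
      jH (u : 𝓞 H) * ∏ g ∈ R with e g = 0, g (s : Qb) = φ (∏ g ∈ R with e g = 0, g (s : Qb)) ∧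
      ∀ l, l + 1 ≤ (q - 1) * M → Vn P R e h l → ∃ (o : ℕ) (x : 𝓞 H) (y : 𝓞 F), ¬ q ∣ o ∧
        (u : 𝓞 H) ^ o - 1 - q * x ∈ up H (below (jH.comp (algebraMap F H)) P) ^ 2 ∧
        (fun z : 𝓞 H => σ • z - z)^[(q - 1) * M - l - 1] x - algebraMap (𝓞 F) (𝓞 H) y ∈
          up H (below (jH.comp (algebraMap F H)) P) := by
  have := Fact.mk o.1
  have hp := o.2.1
  have h2 := o.2.2
  have q0 : (q : Qb) ≠ 0 := Nat.cast_ne_zero.2 o.1.ne_zero
  obtain ⟨f, f0, -, hf, -⟩ := Subgroup.exists_pow_mem_of_relIndex_ne_zero hR.ne mem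
  have fx : ∀ g ∈ U, g (s : Qb) = s := fun g hg => congrArg (fun x : 𝓞 Qb => (x : Qb)) (fix g hg)
  have sw : ∀ g ∈ Γ, (φ * g) (s : Qb) = (g * φ) s := fun g hg => by
    rw [show φ * g = g * φ * (φ⁻¹ * g⁻¹ * φ⁻¹⁻¹ * g⁻¹⁻¹) by group, AlgEquiv.mul_apply,
      fx _ (com _ (inv_mem mem) _ (inv_mem hg))]
  have hγ : ∀ γ g : GQ, γ (h g) = h (γ * g) := fun γ g => by
    simp only [hh, map_div₀, map_sub, map_pow, map_one, map_natCast, AlgEquiv.mul_apply]
  have hU : ∀ g, ∀ u ∈ U, h (g * u) = h g := fun g u hu => by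
    rw [← hγ, ← mul_one g, ← hγ, mul_one, hh, hh, one_mul, ← sw u (le hu), AlgEquiv.mul_apply,
      fx u hu, AlgEquiv.one_apply]
  have he : ∀ g ∈ Γ, g (s : Qb) ^ q = (φ * g) (s : Qb) * (1 + q * h g) := fun g hg => by
    have : (g * φ) (s : Qb) ≠ 0 := fun z => (unit _ (mul_mem hg mem)).1 (by
      rw [show (g * φ) • s = 0 from RingOfIntegers.ext z]; exact zero_mem _)
    rw [sw g hg, hh]
    field_simp
    ring
  choose! t ht using fun g (hg : g ∈ Γ) => ex_res o (hi g hg)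
  have cg : ∀ g ∈ Γ, (φ * g) • s - (g • s) ^ q * (1 + q * -t g) ∈ Sm P ((q : 𝓞 Qb) ^ 1) :=
    fun g hg => one o (he g hg) (ht g hg)
  obtain ⟨w, hw⟩ : ∃ w : 𝓞 Qb, w = ∏ g ∈ R with e g = 0, g • s := ⟨_, rfl⟩
  obtain ⟨X, hX0⟩ : ∃ X : ZMod (q * M) → Qb, ∀ a, X a = ∑ g ∈ R with e g = a, h g :=
    ⟨_, fun _ => rfl⟩
  have hX : ∀ γ ∈ Γ, ∀ a, γ (X a) = X (e γ + a) := fun γ m a => by
    rw [hX0, hX0, map_sum]
    simp only [hγ]
    exact shift hR e add ker h hU m a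
  have w1 : ∀ γ : GQ, γ • w = ∏ g ∈ R with e g = 0, (γ * g) • s := fun γ => by
    simp only [hw, Finset.smul_prod', mul_smul]
  have wf : ∀ γ ∈ GK jH, γ • w = w := fun γ hγ => by
    obtain ⟨h1, h0⟩ := (gH γ).1 hγ
    have := shift (B := Additive (𝓞 Qb)) hR e add ker (fun g => Additive.ofMul (g • s))
      (fun g u hu => by rw [mul_smul, fix u hu]) h1 0
    rw [h0, add_zero, ← ofMul_prod, ← ofMul_prod, ← hw] at this
    exact (w1 γ).trans (Additive.ofMul.injective this)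
  have wP : w ∉ P := fun h => by
    obtain ⟨g, hg, h⟩ := (Ideal.IsPrime.prod_mem_iff).1 (hw ▸ h)
    exact (unit g (hR.mem g (Finset.mem_filter.1 hg).1)).1 h
  set ι := RingOfIntegers.mapRingHom jH with hι
  have act : ∀ y, ι (σ • y) = φ • ι y := fun y => RingOfIntegers.ext (act0 y)
  have actk : ∀ (k : ℕ) y, ι (σ ^ k • y) = φ ^ k • ι y := fun k y => by
    induction k with
    | zero => simp
    | succ k ih => rw [pow_succ', pow_succ', mul_smul, mul_smul, act, ih]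
  obtain ⟨W, hW⟩ := desc jH w wf
  obtain ⟨y₀, hy₀⟩ := P022D.Sel.KillAux.fix_range jH (X 0) fun γ hγ => by
    rw [hX γ ((gH γ).1 hγ).1, ((gH γ).1 hγ).2, add_zero]
  obtain ⟨x, hx⟩ := ex_res' o jH (y := y₀) (by
    rw [hy₀, hX0]
    exact Finset.sum_induction _ _ (fun _ _ => ip_add hp) ⟨1, 0, hp.one_notMem, by simp⟩
      fun g hg => hi g (hR.mem g (Finset.mem_filter.1 hg).1))
  rw [hy₀] at hx
  change Zp P (X 0 - ι x) at hx
  change ι W = w at hW
  have tx : ∑ g ∈ R with e g = 0, t g - ι x ∈ P := zp_mem hp (by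
    have := zp_add hp hx (Finset.sum_induction (s := R.filter (e · = 0))
      (fun g => ((-1 : ℤ) : Qb) * (h g - t g)) (Zp P) (fun _ _ => zp_add hp) (zp_zero hp)
      fun g hg => zp_int _ (ht g (hR.mem g (Finset.mem_filter.1 hg).1)))
    rw [← Finset.mul_sum, Finset.sum_sub_distrib, ← hX0] at this
    refine (congrArg (Zp P) ?_).mp this
    simp only [RingOfIntegers.coe_eq_algebraMap, map_sub, map_sum]
    push_cast; ring)
  obtain ⟨u, hu⟩ := ex_u jH (w := w) (w' := φ • w) (fun h => wP (h ▸ zero_mem _)) (by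
      rw [w1, hw]
      refine Associated.prod _ _ _ fun g hg => ?_
      have hg := hR.mem g (Finset.mem_filter.1 hg).1
      exact (unit g hg).2.trans (unit _ (mul_mem mem hg)).2.symm) wf
    fun γ hγ => by rw [← hW, ← act]; exact RingOfIntegers.ext (hγ _)
  refine ⟨u, ?_, fun l hl vn => ?_⟩
  · have wc : (w : Qb) = ∏ g ∈ R with e g = 0, g (s : Qb) := hw ▸ map_prod (algebraMap _ Qb) _ _
    have := congrArg (algebraMap _ Qb) hu
    rw [map_mul] at this
    change jH (u : 𝓞 H) * (w : Qb) = φ w at this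
    rwa [wc] at this
  replace hup : up H (below (jH.comp (algebraMap F H)) P) = P.comap ι := hup
  have hm : P.comap ι * up H v' = Ideal.span {(q : 𝓞 H)} := by
    rw [← hup, ← Ideal.map_mul, ip.mul, Ideal.map_span]
    simp
  have hc : P.comap ι ⊔ up H v' = ⊤ := by rw [← hup, ← Ideal.map_sup, ip.cop, Ideal.map_top]
  have fr : ∀ y, σ • y - y ^ q ∈ P.comap ι := fun y => by
    rw [Ideal.mem_comap, map_sub, map_pow, act]; exact hφ _
  have pp : (P.comap ι).IsPrime := inferInstance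
  obtain ⟨ω, k1, k2⟩ := core (S := W) (x := -x) (u := u) (Nat.cast_ne_zero.2 o.1.ne_zero) hm hc
    (MulSemiringAction.toRingHom _ (𝓞 H) σ) (stab pp fr) (mod_o f0)
    (by
      rw [pow_mul, ← geom_sum_mul]
      refine Ideal.mul_mem_left _ _ ?_
      rw [Ideal.mem_comap, map_sub, map_pow, map_one, hW, pow_succ']
      exact fb_inv o hφ f0 wP (wf _ ((gH _).2 ⟨le hf, ker _ hf⟩)))
    (l3 ι (by rw [map_natCast]; exact Nat.cast_ne_zero.2 o.1.ne_zero) P hm hc 1 (by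
      rw [MulSemiringAction.toRingHom_apply]
      simp only [map_sub, map_mul, map_pow, map_add, map_one, map_natCast, map_neg, act, hW]
      have a := prod P h2 q (R.filter (e · = 0)) _ _ _ fun g hg =>
        cg g (hR.mem g (Finset.mem_filter.1 hg).1)
      rw [← w1, ← hw, Finset.sum_neg_distrib] at a
      have c : q * (w ^ q * (∑ g ∈ R with e g = 0, t g - ι x)) ∈ Sm P ((q : 𝓞 Qb) ^ 1) :=
        ⟨1, hp.one_notMem, _, P.mul_mem_left (w ^ q) tx, by ring⟩
      convert sub_mem a c using 1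
      ring))
    (inj jH (by rw [map_mul, hW, hu, ← hW]; exact (act W).symm))
  have : NeZero (q * M) := ⟨by rw [hM]; exact mul_ne_zero o.1.ne_zero (pow_ne_zero _ o.1.ne_zero)⟩
  obtain ⟨ε, hε⟩ := gen
  have ek : ∀ k : ℕ, e (φ ^ k) = k * ε := fun k => by
    induction k with
    | zero => simpa using ker 1 (one_mem _)
    | succ k ih => rw [pow_succ, add _ (pow_mem mem k) _ mem, ih, hε]; push_cast; ring
  have := resid (a := ((ε⁻¹ : (ZMod (q * M))ˣ) : ZMod (q * M)).val) (b := (ε : ZMod (q * M)).val)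
    pp (by simpa using n_mem hm 1) fr hM ord ((ZMod.natCast_eq_natCast_iff _ _ _).1 (by simp))
    hl k2 fun i hi => by
      have a := vn i hi
      simp only [← nsmul_eq_mul] at a
      rw [← fib R e h i] at a
      simp only [nsmul_eq_mul] at a
      have := zp_sum hp (Finset.range (q * M)) (fun k => k.choose i) _
        (fun k => φ ^ (((ε⁻¹ : (ZMod (q * M))ˣ) : ZMod (q * M)).val * k) • ι x) (fun k _ => by
          have z := zp_fb o hφ hx (((ε⁻¹ : (ZMod (q * M))ˣ) : ZMod (q * M)).val * k)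
          rwa [map_sub, hX _ (pow_mem mem _), ek, Nat.cast_mul, ZMod.natCast_zmod_val,
            mul_right_comm, Units.inv_mul, one_mul, add_zero, hX0] at z) a
      simp only [smul_neg, Finset.sum_neg_distrib, neg_mem_iff, Ideal.mem_comap, map_sum, map_nsmul,
        actk]
      exact this
  obtain ⟨y, hy⟩ := root (algebraMap (𝓞 F) (𝓞 H)) (P.comap ι) (q := q ^ M) (by
    rw [← ip.nm, Ideal.absNorm_apply, Submodule.cardQuot_apply]; rfl)
    (pow_ne_zero _ o.1.ne_zero) this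
  refine ⟨_, _, y, fun d => ?_, hup ▸ k1, hup ▸ hy⟩
  obtain ⟨n, hn⟩ := mod_o (q := q) f0
  rw [hn] at d
  exact o.1.one_lt.ne' (Nat.dvd_one.1 ((Nat.dvd_add_right (dvd_mul_right q n)).1 d))

end Vale.Agent.P014Z.Rp.Dt
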