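import Vale.Agent.P014Z.Rp.St2
import Vale.Agent.P014Z.Rp.Dpt1

/-! # P014Z, a rational point of order `p`: the row DPT -/

set_option autoImplicit false
set_option linter.all false

namespace Vale.Agent.P014Z.Rp

open P014U

variable [Pp]

/-- **row DPT** -/
theorem dpt (rc1 : P004K.RC1) : DPT := by
  intro K _ _ j c M e ly F H _ _ _ _ _ jH φ σ fl cp P o f v' ip hup s us hi R hR
  obtain ⟨-, -, -, com, -⟩ := rc1 K j ly.iq c (Nat.pos_of_ne_zero ly.sq.ne_zero)
  obtain ⟨m, hM⟩ := ly.pow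
  exact Dt.main hR com hM ly.add ly.ker inf_le_left fl.gH fl.mem fl.gen fl.act cp.ord o f ip hup
    us.fix us.unit (fun _ => rfl) hi

end Vale.Agent.P014Z.Rp
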