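import Vale.Agent.P014Z.Rp.St2
import Vale.Agent.P014Z.Ra.Du1

/-!
# P014Z, block Rp: the row `DU1` (helper93)
-/

set_option autoImplicit false
set_option linter.all false

namespace Vale.Agent.P014Z.Rp

open Vale.Agent.P022K.G2 Vale.Agent.P014U

variable [Pp]

theorem du1 : DU1 := fun R _ ρ J h J0 Γ T U L χ P G oP dP dj hU hL rel =>
  Ra.du1 R ρ J h J0 Γ T U L χ P ⟨G.toGd, G.thr⟩ oP dP dj (fun l m => by
    obtain ⟨a, b, c⟩ := hU l m
    have n : l ≠ pp := fun e => by simp [e] at b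
    refine ⟨a, n, fun Q o => ⟨(c Q o).1, fun g d => ?_⟩⟩
    obtain ⟨φ, f⟩ := P022D.W.exists_phi o.1 o.2.1 o.2.2
    rw [mem_Gz.1 (P004S.lt.dec_le o f Gz_open (mem_Gz.2 ((Ra.D1.oz_fb o n f).trans (by
      rw [← ZMod.natCast_mod, b, Nat.cast_one]))) (fun i => inert_gz o n) d), map_one, map_one]
    exact (c Q o).2 g d)
    (fun l m => ⟨(hU l (Finset.mem_union_right _ m)).2.1, hL l m⟩) (.inr rel)

end Vale.Agent.P014Z.Rp
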