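import Vale.Agent.P014Y.Rd.Ext

/-!
# P014Z: ring class characters with prescribed ramification and values, any prime
-/

set_option autoImplicit false
set_option linter.all false

open NumberField IsDedekindDomain
open scoped Pointwise

noncomputable section

namespace Vale.Agent.P014Z.Rp.Xt

open Vale.Agent.P022 (Qb GQ GK below)
open P004K P004K.Rc P004R.Xt P014Y.Rd.Xt
open P014Y.Rd (Kv qa Rl)
open P004R (Fx)
open Vale.Agent.P027M.S (Inert)
open Vale.Agent.P022D.W (dec)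
open Vale.Agent.P022E.GW (Ov Fb)
open Vale.Agent.P004S (ov_dvd)
open P004F.Pt (cj_out ex_q)
open P004R.Gl (below_pr below_ne eq_of_norm)

/-- an element which is not a power modulo `P` -/
theorem npw {l m : ℕ} {P : Ideal (𝓞 Qb)} {φ : GQ} (o : Ov l P) (f : Fb l P φ)
    (l3 : l % (m + 2) = 1) : ∃ r : ℤ, ¬ (l : ℤ) ∣ r ∧
    ∀ (a b : 𝓞 Qb) (w : Qb), a - r ∈ P → b - 1 ∈ P → φ b = b → w ^ (m + 2) = a / b → φ w ≠ w := by
  have := Fact.mk o.1
  have l1 := o.1.one_lt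
  obtain ⟨t, ht⟩ : ∃ t, l = (m + 2) * t + 1 := ⟨l / (m + 2), by rw [← l3, Nat.div_add_mod]⟩
  have t0 : 0 < t := Nat.pos_of_ne_zero fun k => by simp [k] at ht; omega
  have t1 : 2 * t ≤ (m + 2) * t := Nat.mul_le_mul_right _ (by omega)
  obtain ⟨x, hx⟩ := not_forall.1 (mt (FiniteField.forall_pow_eq_one_iff (K := ZMod l) t).1 fun d => by
    have := Nat.le_of_dvd t0 d
    rw [ZMod.card] at this
    omega)
  obtain ⟨r, hr⟩ := ZMod.intCast_surjective (x : ZMod l)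
  have r0 : ¬ (l : ℤ) ∣ r := fun d =>
    x.ne_zero (hr ▸ (ZMod.intCast_zmod_eq_zero_iff_dvd r l).2 d)
  refine ⟨r, r0, fun a b w ha hb fb hw e => hx (Units.ext ?_)⟩
  have := o.2.1
  have b1 : (b : Qb) ≠ 0 := fun k => o.2.1.ne_top ((Ideal.eq_top_iff_one _).2 (by
    simpa [show b = 0 from RingOfIntegers.ext k] using P.neg_mem hb))
  obtain ⟨z, hz, e2⟩ := ex_int (y := w * b) (N := m + 2) (by omega) (w := a * b ^ (m + 1)) (by
    rw [mul_pow, hw, RingOfIntegers.coe_eq_algebraMap (_ * _), map_mul, map_pow, pow_succ' _ (m + 1)]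
    exact (mul_assoc _ _ _).symm.trans (by rw [div_mul_cancel₀ _ b1]))
  have e3 : Ideal.Quotient.mk P z ^ (m + 2) = r := by
    rw [← map_pow, e2, map_mul, map_pow, Ideal.Quotient.eq.2 ha, Ideal.Quotient.eq.2 hb]
    simp
  have e4 := Ideal.Quotient.eq.2 (f z)
  rw [show φ • z = z from RingOfIntegers.ext (by rw [smul_coe, hz, map_mul, e, fb]), map_pow] at e4
  nth_rw 1 [ht] at e4
  rw [pow_succ, pow_mul, e3, eq_comm, mul_eq_right₀ fun k => r0 (ov_dvd o (by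
    rw [← Ideal.Quotient.eq_zero_iff_mem, map_intCast, ← e3, k, zero_pow (by omega)]))] at e4
  have e5 := (ZMod.intCast_zmod_eq_zero_iff_dvd _ l).2 (ov_dvd o (a := r ^ t - 1) (by
    rw [← Ideal.Quotient.eq_zero_iff_mem, map_intCast]; push_cast; rw [e4, sub_self]))
  push_cast at e5 ⊢
  rw [← hr, sub_eq_zero.1 e5]

/-- **ring class characters with prescribed ramification and values** -/
theorem ext0 (h1 : RC1) (h2 : RC2) (h3 : RC3) {π : ℕ} (hπ : π.Prime) {K : Type} [Field K]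
    [NumberField K] {j : K →+* Qb} (iq : Iq K) (upm : Upm K) {γ : GQ} (hγ : γ ∉ GK j) {B : Finset ℕ}
    {P : ℕ → Ideal (𝓞 Qb)} (thr : π ∈ B) (ov : ∀ b ∈ B, Ov b (P b) ∧ dec (P b) ≤ GK j)
    (gen : ∀ I : Ideal (𝓞 K), I ≠ ⊥ → ∃ (μ : ℕ → ℕ) (β : 𝓞 K),
      I * ∏ b ∈ B, below j (P b) ^ μ b = Ideal.span {β})
    (N n : ℕ) (ζ : Qb) (y : ℕ → ZMod N) (hN : N = π ^ n) (hζ : IsPrimitiveRoot ζ N) (k : ℕ)
    (p : Fin k → ℕ) (Q : Fin k → Ideal (𝓞 Qb)) (φ : Fin k → GQ) (inj : Function.Injective p)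
    (hp : ∀ i, Ov (p i) (Q i) ∧ dec (Q i) ≤ GK j ∧ Fb (p i) (Q i) (φ i) ∧ p i ∉ B ∧ Fx {1} N (φ i))
    (rl : Rl j γ B P ζ (List.ofFn φ).prod y) :
    ∃ e : GQ → ZMod N, (∀ g ∈ GK j, ∀ h ∈ GK j, e (g * h) = e g + e h) ∧
      (∀ g ∈ Hc j (∏ i, p i), e g = 0) ∧ (∀ i Q', Ov (p i) Q' → ∃ t, Inert Q' t ∧ e t = 1) ∧
      (∀ b ∈ B, ∀ ψ, Fb b (P b) ψ → e ψ = y b) ∧
      ∀ (l : ℕ) (L : Ideal (𝓞 Qb)) (ψ : GQ) (μ : ℕ → ℕ) (β : 𝓞 K) (x : ZMod N), Ov l L →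
        dec L ≤ GK j → Fb l L ψ → ¬ l ∣ ∏ i, p i →
        below j L * ∏ b ∈ B, below j (P b) ^ μ b = Ideal.span {β} →
        Kv ζ (qa j γ β) (List.ofFn φ).prod x → e ψ + ∑ b ∈ B, (μ b : ZMod N) * y b = x := by
  classical
  obtain ⟨π, rfl⟩ : ∃ m, π = m + 2 := ⟨π - 2, by have := hπ.two_le; omega⟩
  obtain rfl | ⟨n, rfl⟩ := n.eq_zero_or_eq_succ_pred.imp_right fun h => (⟨_, h⟩ : ∃ m, n = m + 1)
  · obtain rfl : N = 1 := hN
    exact ⟨0, fun _ _ _ _ => Subsingleton.elim _ _, fun _ _ => rfl,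
      fun i Q' _ => ⟨1, fun x => by simp, Subsingleton.elim _ _⟩, fun _ _ _ _ => Subsingleton.elim _ _,
      fun _ _ _ _ _ _ _ _ _ _ _ _ => Subsingleton.elim _ _⟩
  have N1 : 1 < N := hN ▸ Nat.one_lt_pow n.succ_ne_zero (by omega)
  have : NeZero N := ⟨by omega⟩
  obtain ⟨ω, s, q⟩ := ex_q j iq
  have qa' (β : 𝓞 K) : qa j γ β = j (qu s β) := by rw [qa, cj_out q hγ, qu, map_div₀]
  have pN (i) : p i % N = 1 := mdn (hp i).1 (hp i).2.2.1 (fun d => (hp i).2.2.2.1 (by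
    rw [(Nat.prime_dvd_prime_iff_eq (hp i).1.1 hπ).1
      ((hp i).1.1.dvd_of_dvd_pow (hN ▸ d))]; exact thr)) N1 hζ (hp i).2.2.2.2
  have p3 (i) : p i % (π + 2) = 1 := by
    rw [← Nat.mod_mod_of_dvd _ (show π + 2 ∣ N from hN ▸ dvd_pow_self _ n.succ_ne_zero), pN,
      Nat.mod_eq_of_lt (by omega)]
  have mφ (i) : φ i ∈ GK j := (hp i).2.1 (P022D.W.phi_mem (hp i).1.1 (hp i).1.2.1 (hp i).2.2.1)
  have mem (H : Subgroup GQ) (e : ∀ i, φ i ∈ H) : (List.ofFn φ).prod ∈ H :=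
    H.list_prod_mem fun x hx => by obtain ⟨i, rfl⟩ := List.mem_ofFn.1 hx; exact e i
  have fx (y : Qb) (e : ∀ i, φ i y = y) : (List.ofFn φ).prod y = y :=
    mem (MulAction.stabilizer GQ y) e
  have f1 : Fx {1} N (List.ofFn φ).prod := fun y hy => fx y fun i => (hp i).2.2.2.2 y hy
  have ex (a : 𝓞 K) : ∃ x : ZMod N, a ≠ 0 → Km ζ (List.ofFn φ).prod (j (qu s a)) x := by
    by_cases a0 : a = 0
    · exact ⟨0, fun e => absurd a0 e⟩
    · exact (km_ex hζ f1 (qu_ne q a0) (mem (GK j) mφ _)).imp fun _ e _ => e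
  choose lam hl using ex
  have kv {β : 𝓞 K} {x : ZMod N} (b0 : β ≠ 0) (h : Kv ζ (qa j γ β) (List.ofFn φ).prod x) :
      lam β = x := km_uq hζ (qu_ne q b0) (hl β b0) (qa' β ▸ h)
  have z {I : Ideal (𝓞 K)} {β : 𝓞 K} (i : I ≠ ⊥) (e : I = Ideal.span {β}) : β ≠ 0 := fun a =>
    i (by rw [e, a, Ideal.span_singleton_eq_bot])
  have p0 (b) (m : b ∈ B) := below_ne j (ov b m).1.1.ne_zero (ov b m).1.2.2
  have n0 (μ : ℕ → ℕ) : ∏ b ∈ B, below j (P b) ^ μ b ≠ ⊥ :=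
    Finset.prod_ne_zero_iff.2 fun b m => pow_ne_zero _ (p0 b m)
  obtain ⟨f, fa, fb, fc⟩ := ex_f (lam := lam) (y := y) (fun a b a0 b0 => by
    refine km_uq hζ (qu_ne q (mul_ne_zero a0 b0)) (hl _ (mul_ne_zero a0 b0)) ?_
    have := km_mul hζ f1 (qu_ne q a0) (qu_ne q b0) (hl a a0) (hl b b0)
    rwa [← map_mul, show qu s a * qu s b = qu s (a * b) by simp [qu, div_mul_div_comm]] at this)
    p0 gen fun μ β e => by simpa only [nsmul_eq_mul] using kv (z (n0 μ) e) (rl μ β e)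
  have f2 (a : 𝓞 K) (a0 : a ≠ 0) : f (Ideal.span {a}) = lam a := by
    simpa using fb _ (mt Ideal.span_singleton_eq_bot.1 a0) 0 a (by simp [Ideal.top_pow])
  have fq (i) {M c : ℕ} (hM : p i % M = 1) (d : p i ∣ c) {x : ℤ} (e : ¬ (p i : ℤ) ∣ x) (a : 𝓞 K)
      {w : Qb} (hw : w ^ M = j (qu s (x + c * a))) : φ i w = w := by
    have m (b : 𝓞 K) : iz j (c * b) ∈ Q i := by
      obtain ⟨r, hr⟩ := d
      rw [map_mul, map_natCast, hr, Nat.cast_mul]
      exact Ideal.mul_mem_right _ _ (Ideal.mul_mem_right _ _ (hp i).1.2.2)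
    refine fix_quo (hp i).1 (hp i).2.2.1 hM (a := iz j _) (b := iz j (s _)) (mφ i _)
      (mφ i _) (fun b => e (ov_dvd (hp i).1 ?_)) ?_ (hw.trans (map_div₀ j _ _))
    · rw [map_add, map_intCast, map_mul, map_natCast, map_add, map_intCast] at b
      exact (Ideal.add_mem_iff_left _ (m _)).1 b
    · rw [← map_sub, map_add s, map_intCast, map_mul s, map_natCast, add_sub_add_left_eq_sub, ← mul_sub]
      exact m _
  have c0 : 0 < ∏ i, p i := Finset.prod_pos fun i _ => (hp i).1.1.pos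
  obtain ⟨e, add, ker, he⟩ := ex_e (j := j) h2 iq c0 fa fun x a h => by
    have a0 := mt Ideal.span_singleton_eq_bot.2 h.1
    have d (i) := Finset.dvd_prod_of_mem p (Finset.mem_univ i)
    rw [f2 _ a0]
    exact km_uq hζ (qu_ne q a0) (hl _ a0) (km_zero fun w hw => fx w fun i => fq i (pN i) (d i)
      (fun u => (Nat.prime_iff_prime_int.1 (hp i).1.1).not_unit ((q.cop_int h).isUnit_of_dvd' u
        (Int.natCast_dvd_natCast.2 (d i)))) a hw)
  refine ⟨e, add, ker, fun i Q' o => ?_, fun b m ψ h => ?_, fun l L ψ μ β x o le h lc r v => ?_⟩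
  · have e1 := Finset.prod_erase_mul Finset.univ p (Finset.mem_univ i)
    have dv (i') (n : i' ≠ i) := Finset.dvd_prod_of_mem p (Finset.mem_erase.2 ⟨n, Finset.mem_univ i'⟩)
    have nd : ¬ p i ∣ ∏ i' ∈ Finset.univ.erase i, p i' := fun a => by
      obtain ⟨i', a1, a2⟩ := (o.1.prime.dvd_finset_prod_iff _).1 a
      exact Finset.ne_of_mem_erase a1 (inj ((Nat.prime_dvd_prime_iff_eq o.1 (hp i').1.1).1 a2)).symm
    have c1 : 0 < ∏ i' ∈ Finset.univ.erase i, p i' := Finset.prod_pos fun i' _ => (hp i').1.1.pos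
    generalize ∏ i' ∈ Finset.univ.erase i, p i' = c at e1 dv nd c1
    obtain ⟨ty, v, v1, v2⟩ := spl h1 iq q hγ (hp i).1 (hp i).2.1 (hp i).2.2.1
    obtain ⟨r, r0, hr⟩ := npw (hp i).1 (hp i).2.2.1 (p3 i)
    obtain ⟨w, u, uw⟩ := Nat.isCoprime_iff_coprime.2 ((Nat.Prime.coprime_iff_not_dvd o.1).2 nd)
    have uw' : (w : 𝓞 Qb) * p i + u * c = 1 := by exact_mod_cast congrArg (Int.cast : ℤ → 𝓞 Qb) uw
    obtain ⟨a, ha⟩ : ∃ a : 𝓞 K, a = u * (r - 1) * v := ⟨_, rfl⟩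
    have b1 : iz j ((1 : ℤ) + c * a) - r ∈ Q i := by
      convert (Q i).sub_mem ((Q i).mul_mem_left (c * u * (r - 1)) v1)
        ((Q i).mul_mem_left (w * (r - 1)) (hp i).1.2.2) using 1
      simp only [ha, map_add, map_mul, map_sub, map_intCast, map_natCast, map_one, Int.cast_one]
      linear_combination (r - 1 : 𝓞 Qb) * uw'
    have b2 : iz j (s ((1 : ℤ) + c * a)) - 1 ∈ Q i := by
      convert (Q i).mul_mem_left (c * u * (r - 1)) v2 using 1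
      simp only [ha, map_add, map_mul, map_sub, map_intCast, map_natCast, map_one, Int.cast_one]
      ring
    obtain ⟨m, hm⟩ := q.nm ((1 : ℤ) + c * a)
    have m1 : ¬ (p i : ℤ) ∣ m := fun d => r0 (by
      have : ((m - r : ℤ) : 𝓞 Qb) ∈ Q i := by
        convert (Q i).add_mem ((Q i).mul_mem_left (iz j ((1 : ℤ) + c * a)) b2) b1 using 1
        rw [Int.cast_sub, ← map_intCast (iz j) m, ← hm, map_mul]
        ring
      simpa using dvd_sub d (ov_dvd (hp i).1 this))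
    have b0 : (((1 : ℤ) : 𝓞 K) + c * a) ≠ 0 := fun k => m1 (by
      rw [k, zero_mul, eq_comm, Int.cast_eq_zero] at hm; simp [hm])
    obtain ⟨d, hd⟩ : (c : ℤ) ∣ m - 1 := q.dvd_int ⟨a + s a + c * a * s a, by
      rw [Int.cast_sub, ← hm]; simp only [map_add, map_mul, map_intCast, map_natCast]; push_cast; ring⟩
    have cp := cop_nm (c := c * p i) b0 hm (by
      push_cast
      exact IsCoprime.mul_right ⟨1, -d, by linear_combination hd⟩
        (((Nat.prime_iff_prime_int.1 o.1).irreducible.coprime_iff_not_dvd.2 m1).symm))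
    refine ram h2 h3 iq upm ty c1 nd add (e1 ▸ ker) cp (fun g hg => ?_) o
    rw [he _ _ (e1 ▸ cp) (e1 ▸ hg), f2 _ b0, ← ZMod.natCast_zmod_val (lam _), ZMod.isUnit_iff_coprime]
    refine (Nat.Coprime.pow_right (n + 1) (((Nat.Prime.coprime_iff_not_dvd hπ).2
      fun ⟨t, ht⟩ => ?_).symm)).coprime_dvd_right hN.dvd
    obtain ⟨Y, hY⟩ := rt N (j (qu s ((1 : ℤ) + c * a)))
    have hw : (Y ^ (π + 2) ^ n) ^ (π + 2) = j (qu s ((1 : ℤ) + c * a)) := by rw [← pow_mul, ← pow_succ, ← hN, hY]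
    refine hr _ _ _ b1 b2 (mφ i _) (hw.trans (map_div₀ j _ _))
      (one_of (MulAction.stabilizer GQ (Y ^ (π + 2) ^ n)) φ i (fun i' n => fq i' (p3 i') (dv i' n)
        (fun u => (Nat.prime_iff_prime_int.1 (hp i').1.1).not_dvd_one u) a hw) ?_)
    show (List.ofFn φ).prod _ = _
    rw [map_pow, hl _ b0 Y hY, mul_pow, ← pow_mul, ht, show (π + 2) * t * (π + 2) ^ n = N * t by rw [hN]; ring,
      pow_mul, hζ.pow_eq_one, one_pow, one_mul]
  · obtain ⟨a1, a2⟩ := arf h2 iq c0 (ov b m).1 (ov b m).2 h fun d => by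
      obtain ⟨i, -, a⟩ := ((ov b m).1.1.prime.dvd_finset_prod_iff _).1 d
      exact (hp i).2.2.2.1 ((Nat.prime_dvd_prime_iff_eq (ov b m).1.1 (hp i).1.1).1 a ▸ m)
    rw [he _ _ a1 a2, fc b m]
  · obtain ⟨a1, a2⟩ := arf h2 iq c0 o le h lc
    rw [he _ _ a1 a2, ← kv (z (mul_ne_zero a1.1 (n0 μ)) r) v, ← fb _ a1.1 μ β r]
    simp only [nsmul_eq_mul]

end Vale.Agent.P014Z.Rp.Xt
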