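import Vale.Agent.P014Z.Rp.St
import Vale.Agent.P014Z.Rp.Ext0

/-! # P014Z, block Rp, row EXT -/

set_option autoImplicit false
set_option linter.all false

namespace Vale.Agent.P014Z.Rp

open P004K P014U

theorem ext [Pp] (h1 : RC1) (h2 : RC2) (h3 : RC3) : EXT := fun _ _ _ _ kd _ hγ _ _ bs =>
  Xt.ext0 h1 h2 h3 Fact.out kd.iq kd.upm hγ bs.thr bs.ov bs.gen

end Vale.Agent.P014Z.Rp
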