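import Vale.Agent.P014Z.Rp.St3
import Vale.Agent.P014Z.Rp.Fac0

/-! # P014Z, a rational point of order `p`: the row FAC -/

set_option autoImplicit false
set_option linter.all false

namespace Vale.Agent.P014Z.Rp

open P014U

variable [Pp]

/-- **row FAC** -/
theorem fac : FAC := fun e b =>
  ⟨Fc.kd b, fun p h => ⟨(e.ov p (List.mem_toFinset.1 h)).1, fun _ o => Fc.spl b (List.mem_toFinset.1 h) o⟩,
    ⟨_, _, Fc.nq b, fun m => ⟨_, fun _ hq h g => Fc.gp hq h g⟩⟩,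
    fun c => ⟨Fc.gd b c, Finset.mem_union_left _ (List.mem_toFinset.2 e.pm)⟩, Fc.det e,
    fun _ _ o h d => Fc.typ b o h d,
    fun ⟨_, v0, hv⟩ l hl k => ⟨(e.bad l hl k).1, Fc.eis e v0 hv hl k⟩,
    fun J => ⟨Fc.tq J, Fc.eqv b J⟩⟩

end Vale.Agent.P014Z.Rp
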