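import Vale.Agent.P014Z.Rp.Ly
import Vale.Agent.P014Y.Rd.Fld

/-!
# P014Z, a rational point of order `p`: the fields of a layer and their primes
-/

set_option autoImplicit false
set_option linter.all false

open NumberField Module IsDedekindDomain
open scoped Pointwise

noncomputable section

namespace Vale.Agent.P014Z.Rp

open Vale.Agent.P022 Vale.Agent.P022.H916 P004K P004R.Gl P014U
open P004R (inert_dec)
open P004R.Fd (not_mem cx sub_inf dec_smul ov_smul fb_smul)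
open P014Y.Rd.Fd (rou_cm ex_out)
open Vale.Agent.P027M.S (Inert)
open Vale.Agent.P022D.W (dec)
open Vale.Agent.P022E.GW (Ov Fb)

namespace Fd

variable [Pp] {K F H : Type} [Field K] [NumberField K] [Field F] [NumberField F] [Field H]
  [NumberField H] [Algebra F H] {j : K →+* Qb} {jH : H →+* Qb} {c M l : ℕ}
  {e : GQ → ZMod (pp * M)} {P : Ideal (𝓞 Qb)} {φ ψ γ : GQ} {σ : H ≃ₐ[ℚ] H}

theorem act_pow (hF : Fl j M e F jH φ σ) (i : ℕ) : ∀ x, jH ((σ ^ i) x) = (φ ^ i) (jH x) := by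
  induction i with
  | zero => exact fun _ => rfl
  | succ i ih => exact fun x => by rw [pow_succ, pow_succ, AlgEquiv.mul_apply, ih, hF.act]; rfl

theorem gH (hF : Fl j M e F jH φ σ) (g : GQ) : g ∈ GK jH ↔ g ∈ GK j ∧ 1 * e g = 0 := by
  rw [one_mul]; exact hF.gH g

/-- a subgroup which contains a generator -/
theorem mem_of (h : Ly j c M e) (hF : Fl j M e F jH φ σ) {S : Subgroup GQ} (le : GK jH ≤ S) {t g : GQ}
    (m : t ∈ GK j) (u : IsUnit (e t)) (k : g ∈ GK j) (a : ∀ i : ℕ, e g = e (t ^ i) → t ^ i ∈ S) :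
    g ∈ S := by
  obtain ⟨i, hi⟩ := h.gen m u k
  have b := le ((hF.gH _).2 ⟨mul_mem (inv_mem k) (pow_mem m i), hi⟩)
  rw [h.add _ (inv_mem k) _ (pow_mem m i), h.inv k, neg_add_eq_zero] at hi
  simpa using inv_mem (mul_mem b (inv_mem (a i hi)))

theorem root (r1 : RC1) (h : Ly j c M e) (hF : Fl j M e F jH φ σ) {d : ℕ} (d0 : d ≠ 0)
    {v : (𝓞 H)ˣ} (hv : v ^ d = 1) : v = 1 ∨ v = -1 := by
  obtain ⟨γ, hγ⟩ := ex_out h.iq j
  obtain ⟨a, b⟩ := h.cj' r1 hγ hF.mem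
  have inj : ∀ {L : Type} [Field L] (jL : L →+* Qb),
      Function.Injective (RingOfIntegers.mapRingHom jL) := fun jL x y a =>
    RingOfIntegers.ext (jL.injective (congrArg (fun z : 𝓞 Qb => (z : Qb)) a))
  set y := RingOfIntegers.mapRingHom jH v with hy
  have y1 : y ^ d = 1 := by rw [hy, ← map_pow, ← Units.val_pow_eq_pow_val, hv, Units.val_one, map_one]
  have ty : (γ * φ * γ⁻¹ * φ⁻¹) • y = y := RingOfIntegers.ext
    (rou_cm (y := (y : Qb)) d0 (by exact_mod_cast congrArg (fun z : 𝓞 Qb => (z : Qb)) y1) γ φ)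
  have u : IsUnit (e (γ * φ * γ⁻¹ * φ⁻¹)) := by
    rw [h.add _ a _ (inv_mem hF.mem), b, h.inv hF.mem, ← two_mul]
    refine IsUnit.mul ?_ hF.gen.neg
    obtain ⟨m, rfl⟩ := h.pow
    exact (ZMod.isUnit_iff_coprime 2 _).2 (Nat.Coprime.mul_right cop_two (cop_two_pow _))
  obtain ⟨z, hz⟩ := fixed_int j (x := y) fun g => mem_of h hF (S := MulAction.stabilizer GQ y)
    (fun g hg => RingOfIntegers.ext (hg _)) (mul_mem a (inv_mem hF.mem)) u g.2
    fun i _ => pow_mem (show _ ∈ MulAction.stabilizer GQ y from ty) i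
  have z1 : z ^ d = 1 := inj j (by rw [map_pow, hz, y1, map_one])
  obtain ⟨w, rfl⟩ := IsUnit.of_pow_eq_one z1 d0
  refine (h.upm w).imp (fun a => Units.ext (inj jH ?_)) fun a => Units.ext (inj jH ?_)
  · rw [← hy, ← hz, a, Units.val_one, Units.val_one, map_one, map_one]
  · rw [← hy, ← hz, a, Units.val_neg, Units.val_neg, Units.val_one, Units.val_one, map_neg, map_neg,
      map_one, map_one]

theorem cp (r1 : RC1) (h : Ly j c M e) (hF : Fl j M e F jH φ σ) : Cp F σ M := by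
  obtain ⟨_, _, ρH, DH, nH, cH⟩ := h.dict (gH hF) fun t m u i => by
    rw [one_mul]; exact (h.dvd m u i).1
  obtain ⟨_, _, ρF, DF, nF, cF⟩ := h.dict hF.gF fun t m u i => (h.dvd m u i).2
  have := cx h.iq
  have := sub_inf h.iq
  refine ⟨h.pow, AlgEquiv.ext fun x => jH.injective ?_, fun x => ⟨fun a => ?_, ?_⟩, ?_, ?_,
    isTotallyComplex_of_algebra K F, fun w w' => ?_, fun u hu => ?_⟩
  · rw [act_pow hF]
    exact (hF.gH _).2 ⟨pow_mem hF.mem _, (h.dvd hF.mem hF.gen _).1.2 dvd_rfl⟩ x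
  · obtain ⟨y, hy⟩ := fixed (jH.comp (algebraMap F H)) (x := jH x) fun g =>
      mem_of h hF (S := MulAction.stabilizer GQ (jH x)) (fun g hg => hg x) hF.mem hF.gen
        ((hF.gF g).1 g.2).1 fun i hi => by
          obtain ⟨k, rfl⟩ := (h.dvd hF.mem hF.gen i).2.1 (hi ▸ ((hF.gF g).1 g.2).2)
          rw [pow_mul]
          exact pow_mem (show (φ ^ M) (jH x) = jH x by rw [← act_pow hF, a]) k
    exact ⟨y, jH.injective hy⟩
  · rintro ⟨y, rfl⟩
    refine jH.injective ?_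
    rw [act_pow hF]
    exact (hF.gF _).2 ⟨pow_mem hF.mem _, (h.dvd hF.mem hF.gen _).2.2 dvd_rfl⟩ y
  · rw [← finrank_mul_finrank ℚ K H, h.iq.two, ← IsGalois.card_aut_eq_finrank, nH]
  · rw [← finrank_mul_finrank ℚ K F, h.iq.two, ← IsGalois.card_aut_eq_finrank, nF]
  · obtain ⟨τ, rfl⟩ := InfinitePlace.exists_smul_eq_of_comap_eq (k := K) (w := w) (w' := w')
      (Subsingleton.elim _ _)
    obtain ⟨i, hi⟩ := cH ⟨φ, hF.mem⟩ hF.gen τ⁻¹
    refine ⟨i, fun x => ?_⟩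
    rw [InfinitePlace.smul_apply]
    refine congrArg w (jH.injective ?_)
    rw [act_pow hF, show τ.symm x = τ⁻¹ x from rfl, ← hi]
    show jH ((ρH ⟨φ, hF.mem⟩ ^ i) x) = _
    rw [← map_pow, ← DH.act]
    rfl
  · obtain ⟨m, m0, hm⟩ := isOfFinOrder_iff_pow_eq_one.1 hu
    exact root r1 h hF m0.ne' hm

theorem rank (h : Ly j c M e) (C : Cp F σ M) : finrank (𝓞 F) (𝓞 H) = pp := by
  have a := Ideal.absNorm_algebraMap (S := 𝓞 H) (I := Ideal.span {((2 : ℕ) : 𝓞 F)})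
  rw [Ideal.map_span, Set.image_singleton, map_natCast, Ideal.absNorm_span_natCast,
    Ideal.absNorm_span_natCast, RingOfIntegers.rank, RingOfIntegers.rank, C.deg, C.deg',
    ← pow_mul] at a
  have b : 2 * (pp * M) = 2 * M * finrank (𝓞 F) (𝓞 H) := Nat.pow_right_injective le_rfl a
  have := h.M0
  exact Nat.eq_of_mul_eq_mul_left (show 0 < 2 * M by omega) (b.symm.trans (by ring))

theorem half (r1 : RC1) (r : RC2) (h : Ly j c M e) (hF : Fl j M e F jH φ σ) (o : Ov l P)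
    (lc : ¬ l ∣ c) (le : dec P ≤ GK j) (f : Fb l P ψ) (u : IsUnit (e ψ)) :
    Ideal.absNorm (below (jH.comp (algebraMap F H)) P) = l ^ M ∧
    up H (below (jH.comp (algebraMap F H)) P) = below jH P ∧
    ¬ (l : ℤ) ∣ discr K ∧ ¬ (l : ℤ) ∣ discr F ∧ ¬ (l : ℤ) ∣ discr H := by
  obtain ⟨hl, hP, m⟩ := o
  have P0 : P ≠ ⊥ := fun z => by
    rw [z, Ideal.mem_bot] at m
    exact hl.ne_zero (by exact_mod_cast m)
  have I : ∀ g : GQ, Inert P g → g ∈ GK j ∧ e g = 0 := fun g i => ⟨le (inert_dec hP i),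
    h.unr r hP P0 (not_mem hP (hl.coprime_iff_not_dvd.2 lc) m) (le (inert_dec hP i)) i⟩
  have IH : ∀ g : GQ, Inert P g → g ∈ GK jH := fun g i => (hF.gH g).2 (I g i)
  have IF : ∀ g : GQ, Inert P g → g ∈ GK (jH.comp (algebraMap F H)) := fun g i =>
    (hF.gF g).2 ⟨(I g i).1, by rw [(I g i).2, mul_zero]⟩
  have nH := h.nor r1 (gH hF)
  have nF := h.nor r1 hF.gF
  have nK := h.nor r1 (U := GK j) (a := 0) fun g => by simp
  obtain ⟨-, ρH, DH⟩ := ex_Q nH
  obtain ⟨-, ρF, DF⟩ := ex_Q nF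
  have k : ψ ∈ GK j := le (mem_of_frob hP hl.ne_zero f)
  have f' : ∀ x : 𝓞 Qb, ψ • x - x ^ Ideal.absNorm (below jQ P) ∈ P := by rwa [norm_Q hP hl m]
  have a := nrm DF hP hl.ne_zero m (fun g _ => IF g) (mem_Q ψ) f' (f := M) fun i => by
    rw [hF.gF, (h.dvd k u i).2, and_iff_right (pow_mem k i)]
  have b := nrm DH hP hl.ne_zero m (fun g _ => IH g) (mem_Q ψ) f' (f := pp * M) fun i => by
    rw [hF.gH, (h.dvd k u i).1, and_iff_right (pow_mem k i)]
  rw [norm_Q hP hl m] at a b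
  refine ⟨a, eq_of_norm (Ideal.map_le_iff_le_comap.2 fun x hx => hx) ?_ (below_ne jH hl.ne_zero m),
    ndisc nK hP hl m fun g i => (I g i).1, ndisc nF hP hl m IF, ndisc nH hP hl m IH⟩
  rw [Ideal.absNorm_algebraMap, rank h (cp r1 h hF), a, b, ← pow_mul, mul_comm]

theorem prm (r1 : RC1) (r : RC2) (h : Ly j c M e) (hF : Fl j M e F jH φ σ) (o : Ov l P)
    (lc : ¬ l ∣ c) (le : dec P ≤ GK j) (f : Fb l P ψ) (u : IsUnit (e ψ)) (hγ : γ ∉ GK j) :
    Ip σ M l (below (jH.comp (algebraMap F H)) P) (below (jH.comp (algebraMap F H)) (γ • P)) ∧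
      up H (below (jH.comp (algebraMap F H)) P) = below jH P ∧
      up H (below (jH.comp (algebraMap F H)) (γ • P)) = below jH (γ • P) ∧
      ¬ (l : ℤ) ∣ discr K ∧ ¬ (l : ℤ) ∣ discr F ∧ ¬ (l : ℤ) ∣ discr H := by
  have nK := h.nor r1 (U := GK j) (a := 0) fun g => by simp
  have p : ψ ∈ dec P := mem_of_frob o.2.1 o.1.ne_zero f
  have o' := ov_smul o γ
  obtain ⟨a, b, d⟩ := half r1 r h hF o lc le f u
  obtain ⟨a', b', -⟩ := half r1 r h hF o' lc (fun g hg => by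
    simpa [mul_assoc] using nK.conj_mem _ (le (dec_smul hg)) γ) (fb_smul f γ)
    (by rw [(h.cj' r1 hγ (le p)).2]; exact u.neg)
  set jF := jH.comp (algebraMap F H)
  have ne : below jF P ≠ below jF (γ • P) := fun z => hγ (by
    obtain ⟨g, hg⟩ := exists_smul jF o.2.1 o'.2.1 z
    have : (g : GQ)⁻¹ * γ ∈ dec P := fun x => by
      rw [mul_smul, ← Ideal.mem_pointwise_smul_iff_inv_smul_mem, ← hg,
        Ideal.smul_mem_pointwise_smul_iff]
    simpa using mul_mem ((hF.gF g).1 g.2).1 (le this))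
  have cop : below jF P ⊔ below jF (γ • P) = ⊤ :=
    ((below_pr jF o.2.1).isMaximal (below_ne jF o.1.ne_zero o.2.2)).coprime_of_ne
      ((below_pr jF o'.2.1).isMaximal (below_ne jF o.1.ne_zero o'.2.2)) ne
  refine ⟨⟨o.1, (eq_of_norm ?_ ?_ (mul_ne_zero (below_ne jF o.1.ne_zero o.2.2)
    (below_ne jF o.1.ne_zero o'.2.2))).symm, cop, a, b ▸ below_pr jH o.2.1, b' ▸ below_pr jH o'.2.1,
    fun x hx => ?_⟩, b, b', d⟩
  · rw [Ideal.mul_eq_inf_of_coprime cop, Ideal.span_singleton_le_iff_mem]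
    exact ⟨(mem_below l).2 o.2.2, (mem_below l).2 o'.2.2⟩
  · rw [map_mul, a, a', Ideal.absNorm_span_natCast, RingOfIntegers.rank, (cp r1 h hF).deg', two_mul,
      pow_add]
  · rw [b] at hx ⊢
    obtain ⟨i, hi⟩ := h.gen (le p) u (inv_mem hF.mem) |>.imp fun i hi =>
      (hF.gH _).2 ⟨mul_mem (inv_mem (inv_mem hF.mem)) (pow_mem (le p) i), hi⟩
    have n := (h.nor r1 (gH hF)).conj_mem _ hi (ψ ^ i)
    have q : (ψ ^ i) • RingOfIntegers.mapRingHom jH (σ • x) = RingOfIntegers.mapRingHom jH x := by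
      refine RingOfIntegers.ext ?_
      show (ψ ^ i) (jH (σ x)) = jH x
      rw [hF.act]
      simpa [mul_assoc] using n x
    exact (pow_mem p i _).1 (q ▸ hx)

end Fd

open Fd in
/-- **FLD** -/
theorem fld [Pp] (r1 : RC1) (r : RC2) : FLD := by
  intro K _ _ j c M e h φ m u
  let U : ZMod (pp * M) → Subgroup GQ := fun a =>
    { carrier := {g | g ∈ GK j ∧ a * e g = 0}
      mul_mem' := fun {g t} x y => ⟨mul_mem x.1 y.1, by
        rw [h.add _ x.1 _ y.1, mul_add, x.2, y.2, add_zero]⟩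
      one_mem' := ⟨one_mem _, by rw [h.e1, mul_zero]⟩
      inv_mem' := fun {g} x => ⟨inv_mem x.1, by rw [h.inv x.1, mul_neg, x.2, neg_zero]⟩ }
  have op : ∀ a, IsOpen (U a : Set GQ) := fun a => Subgroup.isOpen_mono (H₁ := Hc j c)
    (fun g x => ⟨x.1, by rw [h.ker g x, mul_zero]⟩) (r1 K j h.iq c h.c0).2.1
  have nr : ∀ a, (U a).Normal := fun a => h.nor r1 fun _ => Iff.rfl
  obtain ⟨F, _, _, jF, eF⟩ := H853.exists_fix _ (op pp)
  obtain ⟨H, _, _, _, -, jH, ρ, D, eH, -⟩ := exists_fld jF _ (op 1) (fun g x => eF ▸ ⟨x.1, by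
    rw [← one_mul (e g), x.2, mul_zero]⟩) fun g _ t x => (nr 1).conj_mem t x g
  obtain rfl : jH.comp (algebraMap F H) = jF := RingHom.ext D.comp
  obtain ⟨-, ρQ, DQ⟩ := ex_Q (jL := jH) (eH ▸ nr 1)
  have hF : Fl j M e F jH φ (ρQ ⟨φ, mem_Q φ⟩) :=
    ⟨fun g => by rw [eH, ← one_mul (e g)]; rfl, fun g => by rw [eF]; rfl, m, u,
      fun x => (DQ.act ⟨φ, mem_Q φ⟩ x).symm⟩
  exact ⟨F, H, _, inferInstance, _, inferInstance, _, jH, _, hF, cp r1 h hF,
    fun l P ψ o lc le f u' γ hγ => prm r1 r h hF o lc le f u' hγ⟩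

end Vale.Agent.P014Z.Rp
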