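import Vale.Agent.P014Y.Rd.Gdr
import Vale.Agent.P014Y.Pr.All

/-! # P014Z: the characters of a layer and their local types, for every prime (helper14) -/

set_option autoImplicit false
set_option linter.all false

open NumberField PowerSeries

noncomputable section

namespace Vale.Agent.P014Z.Rp.Gr

open Vale.Agent.P022 P004K
open Vale.Agent.P022.H443 (inP)
open Vale.Agent.P027M.S (Inert)
open Vale.Agent.P022D.W (dec exists_phi phi_mem inP_le_dec)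
open Vale.Agent.P022E.GW (Ov Fb)
open Vale.Agent.P022K.G2 (In oz om0 Gz mem_Gz mem_Gz' Gz_open Gz_normal oz_mul oz_one oz_ne
  inert_gz zt_pow)
open Vale.Agent.P004R (r1)
open Vale.Agent.P014Y.Rd.Gr (idx e1 einv epow kr)

variable {p : ℕ} [hp : Fact p.Prime] {R : Type} [CommRing R] {ρ : (ZMod p)⟦X⟧ →+* R} {J : ℕ}

theorem pw (h : ∀ x, ρ x = 0 ↔ X ^ J ∣ x) {m : ℕ} (l : J ≤ p ^ m) : (1 + ρ X) ^ p ^ m = 1 := by
  haveI : CharP (ZMod p)⟦X⟧ p := charP_of_injective_ringHom (f := C) C_injective p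
  have e : (1 + X : (ZMod p)⟦X⟧) ^ p ^ m = 1 + X ^ p ^ m := by rw [add_pow_char_pow, one_pow]
  have := congrArg ρ e
  rwa [map_pow, map_add, map_add, map_one, (h _).2 (pow_dvd_pow _ l), add_zero] at this

theorem un {q : (ZMod p)⟦X⟧} (h : constantCoeff q ≠ 0) : IsUnit (ρ q) :=
  (isUnit_iff_constantCoeff.2 h.isUnit).map ρ

theorem dv0 (t : R) (k : ℕ) : t ∣ (1 + t) ^ k - 1 := by
  simpa only [add_sub_cancel_left, one_pow] using sub_dvd_pow_sub_pow (1 + t) 1 k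

/-- the local factor is a unit -/
theorem key' {a b : ZMod p} (e : a ≠ b) (k : ℕ) :
    IsUnit (ρ (C a) * (1 + ρ X) ^ k - ρ (C b)) := by
  have u : IsUnit (ρ (C a * (1 + X) ^ k - C b)) := un (by
    simp only [map_sub, map_mul, constantCoeff_C, map_pow, map_add, map_one, constantCoeff_X,
      add_zero, one_pow, mul_one]
    exact sub_ne_zero.2 e)
  simpa only [map_sub, map_mul, map_pow, map_add, map_one] using u

/-- the local factor divides the variable -/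
theorem key {a : ZMod p} (ha : a ≠ 0) (b : ZMod p) {k : ℕ} (hk : ¬ p ∣ k) :
    ρ (C a) * (1 + ρ X) ^ k - ρ (C b) ∣ ρ X := by
  by_cases e : a = b
  · subst e
    have u : IsUnit (ρ (C a * ∑ i ∈ Finset.range k, (1 + X) ^ i)) := un (by
      simp only [map_mul, constantCoeff_C, map_sum, map_pow, map_add, map_one, constantCoeff_X,
        add_zero, one_pow, Finset.sum_const, Finset.card_range, nsmul_eq_mul, mul_one]
      exact mul_ne_zero ha fun z => hk ((ZMod.natCast_eq_zero_iff k p).1 z))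
    have g := geom_sum_mul (1 + ρ X) k
    rw [add_sub_cancel_left] at g
    rw [← mul_sub_one, ← g, ← mul_assoc]
    simp only [map_mul, map_sum, map_pow, map_add, map_one] at u
    exact u.mul_left_dvd.2 dvd_rfl
  · exact (key' e k).dvd

theorem dec_oz {l : ℕ} {P : Ideal (𝓞 Qb)} (o : Ov l P) (e : l % p = 1) {g : GQ} (m : g ∈ dec P) :
    oz p g = 1 := by
  have n : l ≠ p := fun k => by simp [k] at e
  obtain ⟨φ, f⟩ := exists_phi o.1 o.2.1 o.2.2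
  exact mem_Gz.1 (P004S.lt.dec_le o f Gz_open (mem_Gz'.2 (by
    rw [P014T.Dr.root_cong o (fun d => n ((Nat.prime_dvd_prime_iff_eq o.1 hp.out).1 d))
      f zt_pow, pow_eq_pow_mod l zt_pow, e, pow_one])) (fun i => inert_gz o n) m)

theorem cz (γ g : GQ) : oz p (γ * g * γ⁻¹) = oz p g := by
  rw [oz_mul, oz_mul, mul_right_comm, ← oz_mul, mul_inv_cancel, oz_one, one_mul]

/-- total ramification -/
theorem tot {P : Ideal (𝓞 Qb)} (o : Ov p P) (g : GQ) : ∃ t, Inert P t ∧ oz p t = oz p g := by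
  have h := P022K.CH.mink_top (((inP P).map (om0 p)).comap (om0 p))
    (Subgroup.isOpen_mono (H₁ := Gz p) (fun g m => by
      rw [Subgroup.mem_comap, show om0 p g = 1 from m]; exact one_mem _) Gz_open)
    fun l Q o' g i => by
      by_cases e : l = p
      · subst e
        obtain ⟨t, a, -⟩ := P004S.ex_conj o o'
        exact ⟨_, a g i, Units.ext (by simpa only [inv_inv, oz] using cz (p := l) t⁻¹ g)⟩
      · rw [Subgroup.mem_comap, show om0 p g = 1 from inert_gz o' e i]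
        exact one_mem _
  obtain ⟨t, a, b⟩ := h.ge (Subgroup.mem_top g)
  exact ⟨t, a, congrArg Units.val b⟩

variable {K : Type} [Field K] [NumberField K] {j : K →+* Qb} {T : Finset ℕ}

/-- a character which is unramified outside `T` -/
structure Ch (j : K →+* Qb) (T : Finset ℕ) (χ : GQ → R) : Prop where
  one : χ 1 = 1
  mul : ∀ g ∈ GK j, ∀ g' ∈ GK j, χ (g * g') = χ g * χ g'
  lc : ∃ W : Subgroup GQ, IsOpen (W : Set GQ) ∧ ∀ w ∈ W, χ w = 1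
  unr : ∀ g ∈ GK j, g ∈ In T → χ g = 1

theorem Ch.gd {χ : GQ → R} (c : Ch j T χ) (h : Iq K) (two : 2 ∈ T) (pr : ∀ l ∈ T, l.Prime) :
    P004F.Pr.Gd (GK j) T (r1 χ) :=
  ⟨H916.isOpen_GK j, idx h, P004F.Ra.gk_cx h, two, pr, by simp [r1, c.one],
    fun g a g' b => by simp [r1, c.mul g a g' b, smul_smul, mul_comm],
    c.lc.imp fun W k => ⟨k.1, fun w _ m => by simp [r1, k.2 w m]⟩,
    fun g a b => by simp [r1, c.unr g a b]⟩

theorem Ch.ge [P014U.Pp] {χ : GQ → R} (c : Ch j T χ) (h : Iq K) (pm : P014U.pp ∈ T)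
    (pr : ∀ l ∈ T, l.Prime) : P014Y.Pr.Ge (GK j) T (r1 χ) :=
  ⟨H916.isOpen_GK j, idx h, P004F.Ra.gk_cx h, pm, pr, by simp [r1, c.one],
    fun g a g' b => by simp [r1, c.mul g a g' b, smul_smul, mul_comm],
    c.lc.imp fun W k => ⟨k.1, fun w _ m => by simp [r1, k.2 w m]⟩,
    fun g a b => by simp [r1, c.unr g a b]⟩

/-- the twist by a residual character -/
theorem Ch.tw {χ : GQ → R} {α : GQ → ZMod p} (c : Ch j T χ) (a : Ch j T α) :
    Ch j T fun g => ρ (C (α g)) * χ g :=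
  ⟨by rw [a.one, c.one, map_one, map_one, one_mul], fun g m g' m' => by
    rw [a.mul g m g' m', c.mul g m g' m', map_mul, map_mul, mul_mul_mul_comm],
    let ⟨W, o, k⟩ := c.lc
    let ⟨W', o', k'⟩ := a.lc
    ⟨W ⊓ W', o.inter o', fun w m => by rw [k w m.1, k' w m.2, map_one, map_one, one_mul]⟩,
    fun g m i => by rw [a.unr g m i, c.unr g m i, map_one, map_one, one_mul]⟩

theorem ch_oz (j : K →+* Qb) (pm : p ∈ T) : Ch j T (oz p) :=
  ⟨oz_one, fun _ _ _ _ => oz_mul _ _, ⟨_, Gz_open, fun _ => mem_Gz.1⟩, fun _ _ ⟨_, n, _, o, b⟩ =>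
    mem_Gz.1 (inert_gz o (fun k => n (k ▸ Finset.mem_coe.2 pm)) b)⟩

/-- a cyclic layer of degree `N`, a power of `p`, and conductor `c` -/
structure Ld (p : ℕ) (j : K →+* Qb) (c : ℕ) {N : ℕ} (e : GQ → ZMod N) : Prop where
  iq : Iq K
  c0 : 0 < c
  pow : ∃ m, N = p ^ (m + 1)
  add : ∀ g ∈ GK j, ∀ h ∈ GK j, e (g * h) = e g + e h
  ker : ∀ g ∈ Hc j c, e g = 0

variable {c N : ℕ} {e : GQ → ZMod N} {α : GQ → ZMod p} {l : ℕ} {Q : Ideal (𝓞 Qb)}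

theorem ch0 (t : R) {g : GQ} (h : e g = 0) : (1 + t) ^ (e g).val = 1 := by
  rw [h, ZMod.val_zero, pow_zero]

namespace Ld

include hp in
theorem one_lt (h : Ld p j c e) : 1 < N := by
  obtain ⟨m, rfl⟩ := h.pow
  exact Nat.one_lt_pow m.succ_ne_zero hp.out.one_lt

theorem ad (h : Ld p j c e) (k : ∀ x, ρ x = 0 ↔ X ^ J ∣ x) (hJ : J ≤ N) (x y : ZMod N) :
    (1 + ρ X) ^ (x + y).val = (1 + ρ X) ^ x.val * (1 + ρ X) ^ y.val := by
  haveI : NeZero N := ⟨by have := h.one_lt; omega⟩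
  obtain ⟨m, hm⟩ := h.pow
  have u : (1 + ρ X) ^ N = 1 := by rw [hm]; exact pw k (hm ▸ hJ)
  rw [ZMod.val_add, ← pow_eq_pow_mod _ u, pow_add]

theorem ur (h2 : RC2) (h : Ld p j c e) (o : Ov l Q) (n : ¬ l ∣ c) {g : GQ} (a : g ∈ GK j)
    (b : Inert Q g) : e g = 0 :=
  h.ker g (P004F.Ra.unr_hc h2 h.iq h.c0 o n a b)

theorem opn (h1 : RC1) (h : Ld p j c e) : IsOpen (kr h.add : Set GQ) :=
  Subgroup.isOpen_mono (H₁ := Hc j c) (H₂ := kr h.add) (fun w a => ⟨a.1, h.ker w a⟩)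
    (h1 K j h.iq c h.c0).2.1

/-- the character of the layer -/
theorem ch (h1 : RC1) (h2 : RC2) (h : Ld p j c e) (k : ∀ x, ρ x = 0 ↔ X ^ J ∣ x) (hJ : J ≤ N)
    (le : c.primeFactors ⊆ T) : Ch j T fun g => (1 + ρ X) ^ (e g).val :=
  ⟨ch0 _ (e1 h.add), fun g a g' b => by rw [h.add g a g' b, h.ad k hJ],
    ⟨_, h.opn h1, fun w a => ch0 _ a.2⟩, fun g a ⟨l, n, Q, o, b⟩ => ch0 _ (h.ur h2 o
      (fun d => n (Finset.mem_coe.2 (le (Nat.mem_primeFactors.2 ⟨o.1, d, h.c0.ne'⟩)))) a b)⟩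

theorem cj (h1 : RC1) (h : Ld p j c e) {γ g : GQ} (a : γ ∉ GK j) (b : g ∈ GK j) :
    e (γ * g * γ⁻¹) + e g = 0 := by
  haveI nr : (GK j).Normal := Subgroup.normal_of_index_eq_two (idx h.iq)
  rw [← h.add _ (nr.conj_mem g b γ) g b, h.ker _ ((h1 K j h.iq c h.c0).2.2.2.2.1 γ a g b)]

theorem cj1 (h1 : RC1) (h : Ld p j c e) (k : ∀ x, ρ x = 0 ↔ X ^ J ∣ x) (hJ : J ≤ N) {γ g : GQ}
    (a : γ ∉ GK j) (b : g ∈ GK j) :
    (1 + ρ X) ^ (e g).val * (1 + ρ X) ^ (e (γ * g * γ⁻¹)).val = 1 := by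
  rw [← h.ad k hJ, add_comm (e g), h.cj h1 a b, ZMod.val_zero, pow_zero]

theorem nrm (h1 : RC1) (h : Ld p j c e) : (kr h.add).Normal := ⟨fun w a γ => by
  haveI nr : (GK j).Normal := Subgroup.normal_of_index_eq_two (idx h.iq)
  refine ⟨nr.conj_mem w a.1 γ, ?_⟩
  by_cases b : γ ∈ GK j
  · rw [h.add _ (mul_mem b a.1) _ (inv_mem b), h.add _ b _ a.1, einv h.add b, a.2, add_zero,
      add_neg_cancel]
  · simpa only [show e w = 0 from a.2, add_zero] using h.cj h1 b a.1⟩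

include hp in
theorem nd (h : Ld p j c e) {x : ZMod N} (u : IsUnit x) : ¬ p ∣ x.val := fun d => by
  haveI : NeZero N := ⟨by have := h.one_lt; omega⟩
  obtain ⟨m, hm⟩ := h.pow
  have := (ZMod.isUnit_iff_coprime x.val _).1 (by rwa [ZMod.natCast_zmod_val])
  exact hp.out.ne_one (Nat.eq_one_of_dvd_coprimes this d (hm ▸ dvd_pow_self p m.succ_ne_zero))

/-- an inert place -/
theorem ine (h2 : RC2) (h : Ld p j c e) (o : Ov l Q) (n : ¬ l ∣ c) (le : dec Q ≤ GK j)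
    (fr : ∀ φ, Fb l Q φ → IsUnit (e φ)) (a1 : ∀ t, Inert Q t → α t = 1)
    (a0 : ∀ φ, Fb l Q φ → α φ ≠ 0) :
    (∀ t, Inert Q t → ρ (C (α t)) * (1 + ρ X) ^ (e t).val = 1) ∧ ∀ φ, Fb l Q φ →
      ρ (C (α φ)) * (1 + ρ X) ^ (e φ).val - 1 ∣ ρ X ∧
      ρ (C (α φ)) * (1 + ρ X) ^ (e φ).val - l ∣ ρ X :=
  ⟨fun t i => by
    rw [a1 t i, ch0 _ (h.ur h2 o n (le (inP_le_dec i)) i), map_one, map_one, one_mul],
    fun φ f => ⟨by simpa only [map_one] using key (ρ := ρ) (a0 φ f) 1 (h.nd (fr φ f)),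
      by simpa only [map_natCast] using key (ρ := ρ) (a0 φ f) l (h.nd (fr φ f))⟩⟩

include hp in
theorem val1 (h : Ld p j c e) (t : R) {g : GQ} (v : e g = 1) : (1 + t) ^ (e g).val - 1 = t := by
  haveI : Fact (1 < N) := ⟨h.one_lt⟩
  rw [v, ZMod.val_one, pow_one, add_sub_cancel_left]

/-- the decomposition group at `p` is everything -/
theorem onto (h2 : RC2) (h : Ld p j c e) (o : Ov p Q) (n : ¬ p ∣ c) (le : dec Q ≤ GK j)
    (fr : ∀ φ, Fb p Q φ → IsUnit (e φ)) {g : GQ} (a : g ∈ GK j) :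
    ∃ d ∈ dec Q, g * d⁻¹ ∈ kr h.add ⊓ Gz p := by
  haveI : NeZero N := ⟨by have := h.one_lt; omega⟩
  obtain ⟨φ, f⟩ := exists_phi o.1 o.2.1 o.2.2
  obtain ⟨u, hu⟩ := (fr φ f).exists_left_inv
  have d := pow_mem (phi_mem o.1 o.2.1 f) (e g * u).val
  have z : g * (φ ^ (e g * u).val)⁻¹ ∈ kr h.add := ⟨mul_mem a (inv_mem (le d)), by
    rw [h.add _ a _ (inv_mem (le d)), einv h.add (le d), epow h.add (le (phi_mem o.1 o.2.1 f)),
      ZMod.natCast_zmod_val, mul_assoc, hu, mul_one, add_neg_cancel]⟩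
  obtain ⟨t, i, v⟩ := tot o (g * (φ ^ (e g * u).val)⁻¹)
  have ti := inP_le_dec i
  refine ⟨t * φ ^ (e g * u).val, mul_mem ti d, ?_⟩
  rw [mul_inv_rev, ← mul_assoc]
  exact ⟨(kr h.add).mul_mem z ((kr h.add).inv_mem ⟨le ti, h.ur h2 o n (le ti) i⟩), mem_Gz.2 (by
    rw [oz_mul, ← v, ← oz_mul, mul_inv_cancel, oz_one])⟩

/-- **the text of the row with the words unfolded** -/
theorem all (h1 : RC1) (h2 : RC2) (h : Ld p j c e) {S : Finset ℕ}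
    (ram : ∀ q P, Ov q P → q ∣ c → q % p = 1 ∧ dec P ≤ GK j ∧ ∃ t, Inert P t ∧ e t = 1)
    (pm : p ∈ S) (spl : ∀ q ∈ S, q.Prime ∧ ¬ q ∣ c ∧
      ∀ Q, Ov q Q → dec Q ≤ GK j ∧ ∀ φ, Fb q Q φ → IsUnit (e φ))
    (k : ∀ x, ρ x = 0 ↔ X ^ J ∣ x) (hJ : J ≤ N) {χ χ' : GQ → R}
    (x : ∀ g, χ g = (1 + ρ X) ^ (e g).val) (x' : ∀ g, χ' g = ρ (C (oz p g)) * χ g) :
    (∀ l ∈ S ∪ c.primeFactors, l.Prime) ∧ Ch j (S ∪ c.primeFactors) χ ∧
    Ch j (S ∪ c.primeFactors) χ' ∧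
    (∀ l ∈ S ∪ c.primeFactors, ∀ Q, Ov l Q → dec Q ≤ GK j ∧ (∀ g ∈ dec Q, ρ X ∣ χ g - 1) ∧
      (l % p = 1 → ∀ g ∈ dec Q, ρ X ∣ χ' g - 1) ∧ (l ≠ p →
      (((∀ g ∈ dec Q, ρ X ∣ χ g - 1) ∧ ∃ t, Inert Q t ∧ χ t - 1 ∣ ρ X) ∨
        ((∀ t, Inert Q t → χ t = 1) ∧ ∀ φ, Fb l Q φ → χ φ - 1 ∣ ρ X ∧ χ φ - l ∣ ρ X)) ∧
      (((∀ g ∈ dec Q, ρ X ∣ χ' g - 1) ∧ ∃ t, Inert Q t ∧ χ' t - 1 ∣ ρ X) ∨
        ((∀ t, Inert Q t → χ' t = 1) ∧ ∀ φ, Fb l Q φ → χ' φ - 1 ∣ ρ X ∧ χ' φ - l ∣ ρ X)))) ∧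
    (∀ γ ∉ GK j, ∀ g ∈ GK j, χ g * χ' (γ * g * γ⁻¹) = ρ (C (oz p g)) ∧
      χ' g * χ (γ * g * γ⁻¹) = ρ (C (oz p g))) ∧
    ∃ W : Subgroup GQ, IsOpen (W : Set GQ) ∧ W.Normal ∧ W ≤ GK j ∧
      (∀ w ∈ W, χ w = 1 ∧ χ' w = 1 ∧ oz p w = 1) ∧
      ∀ P, Ov p P → ∀ g ∈ GK j, ∃ d ∈ dec P, g * d⁻¹ ∈ W := by
  obtain rfl := funext x'
  obtain rfl := funext x
  beta_reduce
  have c1 := h.ch h1 h2 k hJ (Finset.subset_union_right (s₁ := S))
  haveI := h.nrm h1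
  refine ⟨fun l a => (Finset.mem_union.1 a).elim (fun a => (spl l a).1)
      Nat.prime_of_mem_primeFactors, c1, c1.tw (ch_oz j (Finset.mem_union_left _ pm)),
    fun l a Q o => ?_, fun γ a g b => ⟨by rw [cz, mul_left_comm, h.cj1 h1 k hJ a b, mul_one],
      by rw [mul_assoc, h.cj1 h1 k hJ a b, mul_one]⟩, kr h.add ⊓ Gz p, (h.opn h1).inter Gz_open,
    inferInstance, fun w a => a.1.1, fun w a => ⟨ch0 _ a.1.2, by
      rw [mem_Gz.1 a.2, ch0 _ a.1.2, map_one, map_one, one_mul], mem_Gz.1 a.2⟩,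
    fun P o g a => h.onto h2 o (spl p pm).2.1 ((spl p pm).2.2 P o).1 ((spl p pm).2.2 P o).2 a⟩
  have r2 : l % p = 1 → ∀ g ∈ dec Q, ρ X ∣ ρ (C (oz p g)) * (1 + ρ X) ^ (e g).val - 1 :=
    fun k g b => by rw [dec_oz o k b, map_one, map_one, one_mul]; exact dv0 _ _
  rcases Finset.mem_union.1 a with a | a
  · obtain ⟨-, n, s⟩ := spl l a
    obtain ⟨le, fr⟩ := s Q o
    exact ⟨le, fun g _ => dv0 _ _, r2, fun n3 => ⟨.inr (by
      simpa only [map_one, one_mul] using h.ine (ρ := ρ) (α := fun _ => 1) h2 o n le fr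
        (fun _ _ => rfl) fun _ _ => one_ne_zero),
      .inr (h.ine h2 o n le fr (fun t i => mem_Gz.1 (inert_gz o n3 i)) fun φ _ => oz_ne φ)⟩⟩
  · obtain ⟨md, le, t, i, v⟩ := ram l Q o (Nat.dvd_of_mem_primeFactors a)
    exact ⟨le, fun g _ => dv0 _ _, r2, fun n3 => ⟨.inl ⟨fun g _ => dv0 _ _, t, i,
      (h.val1 _ v).dvd⟩, .inl ⟨r2 md, t, i, by
        rw [mem_Gz.1 (inert_gz o n3 i), map_one, map_one, one_mul, h.val1 _ v]⟩⟩⟩

end Ld

end Vale.Agent.P014Z.Rp.Gr
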