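import Vale.Agent.P014Z.Rp.St2
import Vale.Agent.P014Z.Rp.Gdr0

/-! # P014Z: the two characters of a layer and their local types (helper14) -/

set_option autoImplicit false
set_option linter.all false

namespace Vale.Agent.P014Z.Rp

open Vale.Agent.P022 P004K P014U

theorem gdr [Pp] (h1 : RC1) (h2 : RC2) : GDR := by
  intro K _ _ j c M e S h R _ ρ J q hJ
  have L : Gr.Ld pp j c e := ⟨h.iq, Nat.zero_lt_of_lt h.one,
    h.pow.elim fun m k => ⟨m + 1, by rw [k, ← pow_succ']⟩, h.add, h.ker⟩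
  obtain ⟨pr, c1, c2, a, b, w⟩ := L.all (χ := ch ρ e) (χ' := tw ρ (ch ρ e)) h1 h2 h.ram h.thr h.spl
    q.ker hJ (fun _ => rfl) fun _ => rfl
  have two := Finset.mem_union_left c.primeFactors h.two
  have thr := Finset.mem_union_left c.primeFactors h.thr
  exact ⟨⟨c1.gd h.iq two pr, thr⟩, ⟨c2.gd h.iq two pr, thr⟩, a, b, w⟩

end Vale.Agent.P014Z.Rp
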