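import Vale.Agent.P014Z.Rp.St0
import Vale.Agent.P014Y.Rd.Ins

/-!
# P014Z, block Rp, row INS: from ideals to abelian groups
-/

set_option autoImplicit false
set_option linter.all false

noncomputable section

namespace Vale.Agent.P014Z.Rp

open NumberField Algebra.GrothendieckGroup Function Module P014U
open NumberField.Units (torsion)
open P004R.In hiding tf idx_th sel card_gen arith card_le fix fix' fix_s tt fix_n fixm nrm main
open P014Y.Rd.Is (pw pw_mul pw_eq tf idx_th sel card_gen arith root)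

variable [Pp]

namespace I1

variable {F H : Type} [Field F] [NumberField F] [Field H] [NumberField H] [Algebra F H]
  {σ : H ≃ₐ[ℚ] H} {M : ℕ} {𝔪 : Ideal (𝓞 H)} {𝔞 : Ideal (𝓞 F)}

theorem card_le (h0 : 𝔪 ≠ 0) (h1 : 𝔪 ≠ ⊤) {κ : Type} [Fintype κ] (q : κ → JJ 𝔪) {J : Ideal (𝓞 H)}
    (hq : ∀ j, (q j).1 ∣ J) {Z : Type} [Finite Z] {k : 𝓞 H → Z}
    (hk : ∀ a b, Ad 𝔪 J a → Ad 𝔪 J b → k a = k b → ∃ y : H, (a : H) = y ^ pp * b) :
    (cb _).relIndex (((P004R.In.th q).range ⊔ cb _).comap (dd 𝔪) ⊓ (cb _).comap (rr 𝔪)) ≤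
      Nat.card Z := by
  unfold Ad at hk
  unfold cb
  obtain ⟨p, hp⟩ : ∃ p, pp = p + 1 := ⟨pp - 1, (Nat.sub_add_cancel pp_pos).symm⟩
  rw [hp] at hk ⊢
  set K := ((P004R.In.th q).range ⊔ pw (p + 1) _).comap (dd 𝔪) ⊓ (pw (p + 1) _).comap (rr 𝔪)
  have : ∀ x : K, ∃ (a : TT 𝔪) (y : Gr (TT 𝔪)), of a = x * y ^ (p + 1) ∧
      (∃ y : 𝓞 H, Ideal.span {y} ⊔ 𝔪 = ⊤ ∧ (a : 𝓞 H) - y ^ (p + 1) ∈ 𝔪) ∧
      ∃ (A B : Ideal (𝓞 H)) (n : ℕ), Ideal.span {(a : 𝓞 H)} = A ^ (p + 1) * B ∧ B ∣ J ^ n :=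
    fun x => by
    obtain ⟨a, y, e, h⟩ := sel (p := p) q h0 h1 hq x.2.1
    obtain ⟨g, hg⟩ := x.2.2
    obtain ⟨b, hb⟩ := Ideal.Quotient.mk_surjective ((g * rr 𝔪 y : (𝓞 H ⧸ 𝔪)ˣ) : 𝓞 H ⧸ 𝔪)
    refine ⟨a, y, e, ⟨b, Ideal.isCoprime_iff_sup_eq.1 (unit_iff.1 (hb ▸ Units.isUnit _)),
      Ideal.Quotient.eq.1 ?_⟩, h⟩
    rw [← rr_of, e, map_mul, map_pow, ← hg, map_pow, hb, powMonoidHom_apply, ← mul_pow,
      Units.val_pow_eq_pow_val]
  choose a y e h using this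
  refine card_gen (p := p) K (fun x => k (a x)) y fun x x' n => ?_
  obtain ⟨s, hs⟩ := root (p := p) h1 (hk _ _ (h _) (h _) n)
  exact ⟨of s, by rw [← map_pow, hs, map_mul, map_pow, e, e]⟩

variable (c : Cp F σ M)
include c

theorem fix {x : 𝓞 H} (h : σ ^ M • x = x) : ∃ a : 𝓞 F, al F H a = x := by
  obtain ⟨y, hy⟩ := (c.fix _).1 (congrArg (algebraMap (𝓞 H) H) h)
  exact ⟨⟨y, (isIntegral_algebraMap_iff (algebraMap F H).injective).1 (hy ▸ x.isIntegral_coe)⟩,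
    RingOfIntegers.ext hy⟩

theorem fix' (a : 𝓞 F) : σ ^ M • al F H a = al F H a :=
  RingOfIntegers.ext ((c.fix _).2 ⟨a, rfl⟩)

theorem fix_s (a : 𝓞 F) : σ ^ M • σ • al F H a = σ • al F H a := by
  rw [← mul_smul, ← pow_succ, pow_succ', mul_smul, fix' c]

theorem fix_n (x : 𝓞 H) : σ ^ M • ∏ i ∈ Finset.range pp, σ ^ (i * M) • x =
    ∏ i ∈ Finset.range pp, σ ^ (i * M) • x := by
  rcases eq_or_ne x 0 with rfl | x0
  · simp [pp_pos.ne']
  have a := Finset.prod_range_succ (fun i => σ ^ (i * M) • x) pp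
  rw [Finset.prod_range_succ', c.ord, zero_mul, pow_zero, one_smul] at a
  rw [Finset.smul_prod', ← mul_right_cancel₀ x0 a]
  exact Finset.prod_congr rfl fun i _ => by rw [← mul_smul, ← pow_add, add_mul, one_mul, add_comm]

theorem fixm {N : Ideal (𝓞 H)} {x : 𝓞 H} (m : x ∈ N) (h : σ ^ M • x = x) :
    x ∈ up H (N.comap (al F H)) := by
  obtain ⟨a, rfl⟩ := fix c h
  exact Ideal.mem_map_of_mem _ m

theorem nrm {A : Ideal (𝓞 H)} (h0 : A ≠ 0) : ∏ i ∈ Finset.range pp, A.map (ph (σ ^ (i * M))) ≤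
    up H ((∏ i ∈ Finset.range pp, A.map (ph (σ ^ (i * M)))).comap (al F H)) := by
  have m : ∀ a ∈ A, ∏ i ∈ Finset.range pp, σ ^ (i * M) • a ∈
      up H ((∏ i ∈ Finset.range pp, A.map (ph (σ ^ (i * M)))).comap (al F H)) := fun a ha =>
    fixm c (Ideal.prod_mem_prod fun i _ => Ideal.mem_map_of_mem (ph (σ ^ (i * M))) ha) (fix_n c a)
  generalize up H ((∏ i ∈ Finset.range pp, A.map (ph (σ ^ (i * M)))).comap (al F H)) = U at m ⊢
  obtain ⟨a, ha, a0⟩ := A.ne_bot_iff.1 h0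
  have mn := m a ha
  have f1 := fix_n c a
  have n0 : ∏ i ∈ Finset.range pp, σ ^ (i * M) • a ≠ 0 :=
    Finset.prod_ne_zero_iff.2 fun i _ => (map_ne_zero_iff _ (ph_inj _)).2 a0
  have nA : ∏ i ∈ Finset.range pp, σ ^ (i * M) • a ∈ A :=
    Ideal.prod_mem _ (Finset.mem_range.2 pp_pos) (by simpa using ha)
  generalize ∏ i ∈ Finset.range pp, σ ^ (i * M) • a = n at mn f1 n0 nA
  have f2 : ∀ i, σ ^ (i * M) • n = n := fun i => by
    induction i with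
    | zero => simp
    | succ i h => rw [add_mul, one_mul, pow_add, mul_smul, f1, h]
  obtain ⟨b, e⟩ := IsDedekindDomain.exists_sup_span_eq (I := Ideal.span {n}) (J := A)
    ((Ideal.span_singleton_le_iff_mem _).2 nA) (by simpa using n0)
  have mb := m b (e ▸ Ideal.mem_sup_right (Ideal.mem_span_singleton_self b))
  have k : ∀ τ : H ≃ₐ[ℚ] H, τ • n = n → A.map (ph τ) ≤ U ⊔ Ideal.span {τ • b} := fun τ f => by
    rw [← e, Ideal.map_sup, map_sp, map_sp]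
    exact sup_le_sup_right ((Ideal.span_singleton_le_iff_mem _).2 (f.symm ▸ mn :)) _
  have s : ∀ x y : 𝓞 H, (U ⊔ Ideal.span {x}) * (U ⊔ Ideal.span {y}) ≤ U ⊔ Ideal.span {x * y} :=
    fun x y => by
      rw [Ideal.sup_mul, Ideal.mul_sup (Ideal.span {x}), Ideal.span_singleton_mul_span_singleton]
      exact sup_le (Ideal.mul_le_left.trans le_sup_left)
        (sup_le_sup_right Ideal.mul_le_right _)
  have t : ∀ d, ∏ i ∈ Finset.range d, A.map (ph (σ ^ (i * M))) ≤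
      U ⊔ Ideal.span {∏ i ∈ Finset.range d, σ ^ (i * M) • b} := fun d => by
    induction d with
    | zero => simp
    | succ d h =>
      rw [Finset.prod_range_succ, Finset.prod_range_succ]
      exact (Ideal.mul_mono h (k _ (f2 d))).trans (s _ _)
  exact (t pp).trans (sup_le le_rfl ((Ideal.span_singleton_le_iff_mem _).2 mb))

theorem M_pos : 0 < M := by obtain ⟨m, h⟩ := c.pow; rw [h]; exact pow_pos pp_pos _

theorem cb_units : (cb (𝓞 H)ˣ).index = pp ^ (pp * M - 1) := by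
  have := c.cx
  have : IsTotallyComplex H := isTotallyComplex_of_algebra F H
  have t : torsion H ≤ cb (𝓞 H)ˣ := fun u h =>
    ⟨u, by rcases c.tor u h with rfl | rfl <;> simp [pp_odd.neg_pow]⟩
  rw [← sup_eq_right.2 t, ← QuotientGroup.comap_map_mk', Subgroup.index_comap_of_surjective _
    (QuotientGroup.mk'_surjective _), ← P004R.Rg.card_pl H (n := pp * M) c.deg]
  refine Eq.trans ?_ ((pw_mul pp ((𝓞 H)ˣ ⧸ torsion H)).trans
    (congrArg _ (Units.finrank_modTorsion H)))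
  congr 1
  refine le_antisymm (fun _ ⟨_, ⟨x, a⟩, b⟩ => ⟨x, by rw [← b, ← a]; rfl⟩) fun _ ⟨x, a⟩ => ?_
  obtain ⟨x, rfl⟩ := QuotientGroup.mk_surjective x
  exact ⟨_, ⟨x, rfl⟩, a⟩

theorem main (abs : ABS) (e : up H 𝔞 = 𝔪) (h0 : 𝔪 ≠ 0) (h1 : 𝔪 ≠ ⊤) (hs : 𝔪 ≤ 𝔪.comap (ph σ))
    {ι : Type} [Fintype ι] (q : ι → JJ 𝔪) {J : Ideal (𝓞 H)} (q1 : ∀ j, Prime (q j).1)
    (q2 : Injective q) (q3 : ∀ j, (q j).1 ∣ J)
    (q4 : ∀ j, ∃ a : Ideal (𝓞 F), (q j).1 = up H a) {n r g : ℕ}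
    {u : (𝓞 H)ˣ} (l1 : pp ^ g * (cb (𝓞 H ⧸ 𝔪)ˣ).index ≤ pp ^ (pp * M - 1 + Fintype.card ι))
    (l2 : pp ^ n ∣ pp ^ r * (Gp F 𝔪 ⊔ (CU F σ u).map
      (Units.map (Ideal.Quotient.mk 𝔪 : 𝓞 H →* 𝓞 H ⧸ 𝔪))).index) (iu : (CU F σ u).index ≠ 0)
    {Z : Type} [Finite Z] {κ : 𝓞 H → Z}
    (hκ : ∀ a b, Ad 𝔪 J a → Ad 𝔪 J b → κ a = κ b → ∃ y : H, (a : H) = y ^ pp * b)
    (hZ : Nat.card Z < pp ^ M) : ∃ b : ℕ, pp ^ (b + g) ≤ Nat.card Z ∧
      n + padicValNat pp (classNumber H) ≤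
        b + r + padicValNat pp ((CU F σ u).index * classNumber F) := by
  obtain ⟨m, hm⟩ := c.pow
  have p0 := pp_pos
  have ha : 𝔞 ≤ 𝔪.comap (al F H) := Ideal.map_le_iff_le_comap.1 e.le
  have a0 : 𝔞 ≠ 0 := fun z => h0 (by rw [← e, z]; exact Ideal.map_bot)
  have a1 : 𝔞 ≠ ⊤ := fun z => h1 (by rw [← e, z]; exact Ideal.map_top _)
  have := Ideal.finiteQuotientOfFreeOfNeBot 𝔪 h0
  have gp : ∀ (g : (𝓞 H ⧸ 𝔪)ˣ) x, σ ^ M • x = x → (g : 𝓞 H ⧸ 𝔪) = Ideal.Quotient.mk 𝔪 x →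
      g ∈ Gp F 𝔪 := fun g x h k => by
    obtain ⟨a, rfl⟩ := fix c h
    exact Subgroup.subset_closure ⟨a, k⟩
  have sx : (cb (dd 𝔪).ker).index = pp ^ (pp * M - 1) := (pw_eq pp ((MonoidHom.ofInjective
    ee_inj).trans (MulEquiv.subgroupCongr ker_dd.symm))).symm.trans (cb_units c)
  have cz := card_le h0 h1 q q3 hκ
  have A := abs _ _ _ (dd 𝔪) (rr 𝔪) (gm (fT _ (ph_inj σ) hs)) (gm (fJ _ (ph_inj σ) hs))
    (fG _ hs) (gm (fT _ al_inj ha)).range ((CU F σ u).map (ee 𝔪)) (gm (fJ _ al_inj ha)).range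
    (P004R.In.th q).range (Gp F 𝔪) (m + 1) (dd_gm _ _ _) (rr_gm _ _ _) ?_ ?_ ?_ ?_ ?_ ?_
    ((Subgroup.map_le_range _ _).trans ker_dd.ge) ?_ (tf p0.ne')
    (by rw [idx_dd h0 h1]; exact Nat.card_pos.ne')
    _ _ (pp ^ g) sx (idx_th q pp q1 q2) (by positivity) (by positivity) (by positivity)
    (l1.trans_eq (pow_add _ _ _)) _ rfl
  · obtain ⟨b, o, b1, o1, A⟩ := A.2 (hm ▸ cz.trans_lt hZ)
    rw [idx_dd h0 h1, Subgroup.map_map, show (rr 𝔪).comp (ee 𝔪) = _ from MonoidHom.ext rr_ee,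
      Nat.card_eq_fintype_card] at A
    refine ⟨b, (pow_add pp b g).trans_le (b1.trans cz), arith o1 iu (classNumber_ne_zero F) A
      ((Subgroup.relIndex_dvd_of_le_left _ le_sup_right).trans ?_)
      ((idx_rel _ _ _ a0 a1).trans Nat.card_eq_fintype_card.dvd) l2⟩
    rw [ker_dd, MonoidHom.range_eq_map, Subgroup.relIndex_map_map_of_injective _ _ ee_inj,
      Subgroup.relIndex_top_right]
  · rintro _ ⟨x, rfl⟩
    refine gr_mem (f := (gm _).comp (gm _)) (fun A => ?_) x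
    rw [MonoidHom.comp_apply, gm_of, gm_of]
    refine memI e ha a1 (Ideal.map_le_iff_le_comap.2 (Ideal.map_le_iff_le_comap.2 fun x m => ?_))
    exact fixm c (Ideal.mem_map_of_mem _ (Ideal.mem_map_of_mem _ m)) (fix_s c x)
  · refine (Subgroup.closure_le ((Gp F 𝔪).comap (fG _ hs))).2 fun g ⟨a, h⟩ => ?_
    exact gp _ _ (fix_s c a) (by simpa using it_G hs h.symm 1)
  · have k : ∀ A : JJ 𝔪, ∏ i ∈ Finset.range pp, (gm (fJ _ (ph_inj σ) hs))^[i * M] (of A) ∈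
        (gm (fJ _ al_inj ha)).range := fun A => by
      choose B e1 e2 using it_J hs A
      simp only [e1]
      rw [← map_prod]
      exact memI e ha a1 (by rw [Submonoid.coe_finset_prod]; simp only [e2]; exact nrm c A.2.1)
    intro a
    obtain ⟨A, B, rfl⟩ := ex_div a
    simp only [iterate_map_div]
    rw [Finset.prod_div_distrib, ← hm]
    exact div_mem (k A) (k B)
  · intro g
    obtain ⟨x, h⟩ := Ideal.Quotient.mk_surjective (g : 𝓞 H ⧸ 𝔪)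
    exact gp _ _ (fix_n c x) (by
      rw [Units.coe_prod, map_prod, ← hm]
      exact Finset.prod_congr rfl fun i _ => it_G hs h _)
  · rintro _ ⟨_, ⟨x, rfl⟩, rfl⟩
    exact ⟨_, (dd_gm _ _ _ x).symm⟩
  · rintro _ ⟨_, ⟨x, rfl⟩, rfl⟩
    obtain ⟨a, h⟩ := Ideal.Quotient.mk_surjective (rr 𝔞 x : 𝓞 F ⧸ 𝔞)
    exact gp _ _ (fix' c a) (by rw [rr_gm, fG, Units.coe_map, ← h]; rfl)
  · rintro _ ⟨n, rfl⟩
    refine prod_mem fun j _ => zpow_mem (memI e ha a1 ?_) _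
    obtain ⟨a, h⟩ := q4 j
    rw [h]
    exact Ideal.map_mono Ideal.le_comap_map

end I1

open I1 in
theorem ins : INS := by
  intro abs loc F H _ _ _ _ _ σ M ι _ p v v' w w' P u r D iu Z _ κ hκ hZ
  obtain ⟨l1, l2⟩ := loc F H σ M v v' P.cp P.thr
  have ne : ∀ {l : ℕ} {A : Ideal (𝓞 H)}, l.Prime → (l : 𝓞 H) ∈ A → A ≠ 0 := fun h a z =>
    (Nat.cast_ne_zero (R := 𝓞 H)).2 h.ne_zero (by rw [z] at a; exact a)
  have h1 : up H v ^ 2 ≠ ⊤ := fun h => P.thr.pw.ne_top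
    (top_le_iff.1 (h.ge.trans (Ideal.pow_le_self (n := 2) (by norm_num))))
  have cp : ∀ {l : ℕ} {a a' : Ideal (𝓞 F)}, Ip σ M l a a' → IsCoprime (up H a') (up H a) :=
    fun h => Ideal.isCoprime_iff_sup_eq.2 (by rw [← Ideal.map_sup, sup_comm, h.cop, Ideal.map_top])
  let l : Option (ι ⊕ ι) → ℕ := fun j => j.elim pp (Sum.elim p p)
  let a : Option (ι ⊕ ι) → Ideal (𝓞 F) := fun j => j.elim v' (Sum.elim w' w)
  have I : ∀ j, (l j).Prime ∧ (l j : 𝓞 H) ∈ up H (a j) ∧ (up H (a j)).IsPrime := by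
    rintro (_ | i | i)
    exacts [⟨P.thr.pr, (ip_mem P.thr).2, P.thr.pw'⟩,
      ⟨(P.oth i).2.pr, (ip_mem (P.oth i).2).2, (P.oth i).2.pw'⟩,
      ⟨(P.oth i).2.pr, (ip_mem (P.oth i).2).1, (P.oth i).2.pw⟩]
  have co : ∀ j, IsCoprime (up H (a j)) (up H v) := by
    rintro (_ | i)
    · exact cp P.thr
    · refine cop_of ((Nat.coprime_primes (I _).1 P.thr.pr).2 ?_) (I _).2.1 (ip_mem P.thr).1
      rcases i with i | i <;> exact (P.oth i).1
  refine main P.cp abs (Ideal.map_pow _ v 2) (pow_ne_zero _ (ne P.thr.pr (ip_mem P.thr).1)) h1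
    (Ideal.map_le_iff_le_comap.1 ((Ideal.map_pow _ _ 2).trans_le
      (Ideal.pow_right_mono (Ideal.map_le_iff_le_comap.2 P.thr.st) _)))
    (fun j => ⟨up H (a j), mem_JJ h1 (co j).pow_right⟩)
    (fun j => Ideal.prime_of_isPrime (ne (I j).1 (I j).2.1) (I j).2.2) (fun j k z => ?_) ?_
    (fun j => ⟨_, rfl⟩) ?_ (l2 u r D) iu hκ hZ
  · have n : ¬ IsCoprime (up H (a j)) (up H (a k)) := fun n => by
      rw [show up H (a j) = up H (a k) from congrArg Subtype.val z, isCoprime_self] at n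
      exact (I k).2.2.ne_top (Ideal.isUnit_iff.1 n)
    have e : l j = l k := by_contra fun e =>
      n (cop_of ((Nat.coprime_primes (I j).1 (I k).1).2 e) (I j).2.1 (I k).2.1)
    rcases j with _ | j | j <;> rcases k with _ | k | k
    any_goals first | exact ((P.oth _).1 e).elim | exact ((P.oth _).1 e.symm).elim
    · rfl
    all_goals obtain rfl := P.inj e
    exacts [rfl, (n (cp (P.oth j).2)).elim, (n (cp (P.oth j).2).symm).elim, rfl]
  · rintro (_ | j | j)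
    · exact dvd_mul_right _ _
    · exact ((dvd_mul_left _ _).trans (Finset.dvd_prod_of_mem
        (fun i => up H (w i) * up H (w' i)) (Finset.mem_univ j))).mul_left _
    · exact ((dvd_mul_right _ _).trans (Finset.dvd_prod_of_mem
        (fun i => up H (w i) * up H (w' i)) (Finset.mem_univ j))).mul_left _
  · rw [Fintype.card_option, Fintype.card_sum]
    refine (Nat.mul_le_mul_left _ l1).trans_eq ?_
    have := Nat.mul_pos pp_pos (M_pos P.cp)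
    rw [← pow_add]
    congr 1
    omega

end Vale.Agent.P014Z.Rp
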