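import Vale.Agent.P014Y.Rd.Ki
import Vale.Agent.P014U.Base

/-!
# P014Z: independence of the Kummer classes of the relations, for an odd prime
-/

set_option autoImplicit false
set_option linter.all false

open NumberField IsDedekindDomain
open scoped Pointwise nonZeroDivisors

noncomputable section

namespace Vale.Agent.P014Z.Kz

open Vale.Agent.P022 (Qb GQ GK below)
open P004K P014U
open Vale.Agent.P022D.W (dec)
open Vale.Agent.P022E.GW (Ov)
open Vale.Agent.P004R.Ki (dual fixed fix_of same same')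
open Vale.Agent.P014Y.Rd (Fx qa Rl)
open Vale.Agent.P014Y.Rd.Kj hiding sah

variable [Pp] {K : Type} [Field K] [NumberField K] {j : K →+* Qb} {γ : GQ} {n : ℕ}

/-- the lemma of Sah -/
theorem sah (iq : Iq K) (pos : ∃ γ ∉ GK j, ∀ n, Fx {1} (pp ^ n) γ)
    (neg : ∃ γ ∉ GK j, ∀ (n : ℕ) (ζ : Qb), ζ ^ pp ^ n = 1 → γ ζ = ζ⁻¹)
    {ζ : Qb} (hζ : IsPrimitiveRoot ζ (pp ^ n)) {w : Qb} {z : K} (w0 : w ≠ 0)
    (hw : w ^ pp ^ n = j z) (hf : ∀ g ∈ GK j, g ζ = ζ → g w = w) : ∃ k : K, k ^ pp ^ n = z ^ 2 := by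
  obtain ⟨a, a1, a2⟩ := pos
  obtain ⟨b, b1, b2⟩ := neg
  have d1 := P022.H20.mul_mem' iq.two b1 a1
  have d2 : ∀ y : Qb, y ^ pp ^ n = 1 → (b * a) y = y⁻¹ := fun y e => by
    rw [AlgEquiv.mul_apply, a2 n y e, b2 n y e]
  generalize b * a = δ at d1 d2
  obtain ⟨k, hk⟩ := fixed (j := j) (y := w * δ w) fun g hg => by
    have c := same' (hf _ (mul_mem (inv_mem (mul_mem d1 hg)) (mul_mem hg d1)) (same (by
      rw [AlgEquiv.mul_apply, AlgEquiv.mul_apply, d2 _ hζ.pow_eq_one, map_inv₀,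
        d2 _ (by rw [← map_pow, hζ.pow_eq_one, map_one])])))
    have u : (g w / w) ^ pp ^ n = 1 := by
      rw [div_pow, ← map_pow, hw, hg, ← hw, div_self (pow_ne_zero _ w0)]
    have u0 : g w / w ≠ 0 := div_ne_zero ((map_ne_zero g).2 w0) w0
    rw [map_mul, ← AlgEquiv.mul_apply g δ, c, AlgEquiv.mul_apply, ← div_mul_cancel₀ (g w) w0,
      map_mul, d2 _ u, mul_mul_mul_comm, mul_inv_cancel₀ u0, one_mul]
  exact ⟨k, j.injective (by rw [map_pow, hk, mul_pow, ← map_pow, hw, d1, map_pow, pow_two])⟩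

/-- **independence** -/
theorem core (iq : Iq K) (upm : Upm K) (pos : ∃ γ ∉ GK j, ∀ n, Fx {1} (pp ^ n) γ)
    (neg : ∃ γ ∉ GK j, ∀ (n : ℕ) (ζ : Qb), ζ ^ pp ^ n = 1 → γ ζ = ζ⁻¹) (hγ : γ ∉ GK j)
    {B : Finset ℕ} {P : ℕ → Ideal (𝓞 Qb)} (bo : ∀ b ∈ B, Ov b (P b) ∧ dec (P b) ≤ GK j) {ζ : Qb}
    (y : ℕ → ZMod (pp ^ n)) (hζ : IsPrimitiveRoot ζ (pp ^ n)) :
    ∃ g ∈ GK j, Fx {1} (pp ^ n) g ∧ Rl j γ B P ζ g y := by
  classical
  obtain ⟨a, h', nd, e⟩ := Nat.exists_eq_pow_mul_and_not_dvd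
    (Fintype.card_ne_zero (α := ClassGroup (𝓞 K))) pp one_lt.ne'
  have ov := fun b : B => (bo b b.2).1
  choose π hπ using fun b : B => show ∃ t : 𝓞 K, below j (P b) ^ (pp ^ a * h') = Ideal.span {t} by
    have m : below j (P b) ∈ (Ideal (𝓞 K))⁰ := mem_nonZeroDivisors_of_ne_zero (bl_ne (ov b))
    have k : ClassGroup.mk0 (⟨_, m⟩ ^ (pp ^ a * h')) = 1 := by rw [map_pow, ← e, pow_card_eq_one]
    exact ((ClassGroup.mk0_eq_one_iff (pow_mem m _)).1 k).principal
  have π0 : ∀ b, π b ≠ 0 := fun b z => pow_ne_zero _ (bl_ne (ov b)) (by rw [hπ, z]; simp)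
  obtain ⟨ξ, hξ⟩ := HasEnoughRootsOfUnity.exists_primitiveRoot Qb (pp ^ (n + a))
  choose r hr using fun b : B =>
    IsAlgClosed.exists_pow_nat_eq (qa j γ (π b)) (n := pp ^ (n + a)) (by have := pp_pos; positivity)
  have r0 : ∀ b, r b ≠ 0 := fun b z => qa_ne (π0 b) (by rw [← hr, z, zero_pow (by have := pp_pos; positivity)])
  have up : ∀ x : Qb, x ^ pp ^ n = 1 → x ^ pp ^ (n + a) = 1 := fun x k => by
    rw [pow_add, pow_mul, k, one_pow]
  rcases dual (N := pp ^ (n + a)) (GK j ⊓ MulAction.stabilizer GQ ξ)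
    (fun g hg x k => fix_of hξ hg.2 k) r (fun b => (ζ ^ (y b).val) ^ h') r0
    (fun g hg b => by rw [hr, qa_fix iq hγ hg.1])
    (fun b => up _ (by
      rw [← pow_mul, ← pow_mul, ← mul_assoc, pow_mul', hζ.pow_eq_one, one_pow])) with
    ⟨g, g1, g2⟩ | ⟨m, m1, m2⟩
  · refine ⟨g, g1.1, fun x k => fix_of hξ g1.2 (up x k), fun μ β hβ w hw => ?_⟩
    have β0 : β ≠ 0 := fun z => Finset.prod_ne_zero_iff.2
      (fun b hb => pow_ne_zero (μ b) (bl_ne (ov ⟨b, hb⟩))) (by rw [hβ, z]; simp)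
    have w0 : w ≠ 0 := fun z => qa_ne β0 (by rw [← hw, z, zero_pow (by have := pp_pos; positivity)])
    have p0 : ∏ b, r b ^ μ b ≠ 0 := Finset.prod_ne_zero_iff.2 fun b _ => pow_ne_zero _ (r0 b)
    have q : qa j γ (β ^ (pp ^ a * h')) = qa j γ (∏ b, π b ^ μ b) := qa_eq upm (by
      rw [← Ideal.span_singleton_pow, ← hβ, ← Ideal.prod_span_singleton, ← Finset.prod_pow,
        ← Finset.prod_coe_sort]
      exact Finset.prod_congr rfl fun b _ => by
        rw [← Ideal.span_singleton_pow, ← hπ, pow_right_comm])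
    have f := fix_of hξ g1.2 (y := w ^ h' / ∏ b, r b ^ μ b) (by
      rw [div_pow, div_eq_one_iff_eq (pow_ne_zero _ p0), ← Finset.prod_pow]
      simp only [pow_right_comm _ (μ _), hr, ← qa_pow, ← qa_prod, ← q]
      rw [qa_pow, ← hw, ← pow_mul, ← pow_mul, pow_add]
      congr 1; ring)
    have z0 : ζ ≠ 0 := hζ.ne_zero (by have := pp_pos; positivity)
    have s : ζ ^ (∑ b ∈ B, (μ b : ZMod (pp ^ n)) * y b).val = ∏ b : B, (ζ ^ (y b).val) ^ μ b := by
      simp only [← pow_mul, Finset.prod_pow_eq_pow_sum]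
      refine pow_eq_pow_of_modEq ((ZMod.natCast_eq_natCast_iff _ _ _).1 ?_) hζ.pow_eq_one
      rw [ZMod.natCast_zmod_val, ← Finset.sum_coe_sort]
      simp [mul_comm]
    rw [s, ← div_eq_one_iff_eq (mul_ne_zero (s ▸ pow_ne_zero _ z0) w0)]
    refine (pow_eq_one_iff_of_coprime (m := h') (n := pp ^ n)
      ((Nat.coprime_comm.1 ((Nat.Prime.coprime_iff_not_dvd pp_prime).2 nd)).pow_right n)).1
      ⟨?_, ?_⟩
    · rw [map_div₀, map_pow, map_prod, div_eq_div_iff (by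
        rw [← map_prod]; exact (map_ne_zero g).2 p0) p0] at f
      simp only [map_pow, g2, mul_pow, Finset.prod_mul_distrib, pow_right_comm _ h',
        Finset.prod_pow] at f
      rw [div_pow, div_eq_one_iff_eq (pow_ne_zero _ (mul_ne_zero (s ▸ pow_ne_zero _ z0) w0)),
        mul_pow]
      exact mul_right_cancel₀ p0 (f.trans (by ring))
    · rw [div_pow, mul_pow, ← map_pow, hw, qa_fix iq hγ g1.1, ← s, pow_right_comm,
        hζ.pow_eq_one, one_pow, one_mul, div_self (qa_ne β0)]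
  exfalso
  choose π' hπ' using fun b => ex_cj iq hγ (π b)
  obtain ⟨k, hk⟩ := sah iq pos neg hξ (z := ∏ b, ((π b : K) / π' b) ^ m b)
    (Finset.prod_ne_zero_iff.2 fun b _ => pow_ne_zero (m b) (r0 b)) (by
      rw [← Finset.prod_pow]
      simp only [pow_right_comm _ (m _), hr, map_prod, map_pow, map_div₀, hπ', qa])
    fun g hg e => m1 g ⟨hg, e⟩
  refine m2 (Finset.prod_eq_one fun b _ => ?_)
  let v : HeightOneSpectrum (𝓞 K) := ⟨below j (P b), bl_pr (ov b), bl_ne (ov b)⟩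
  have le : ∀ (c : B) (Q : Ideal (𝓞 Qb)), Ov b Q → π c ∈ below j Q →
      c = b ∧ below j (P c) = below j Q := fun c Q o i =>
    have := bl_pr (j := j) o
    (eq_of_le (ov c) o (Ideal.IsPrime.le_of_pow_le
      (hπ c ▸ (Ideal.span_singleton_le_iff_mem _).2 i))).imp_left Subtype.ext
  have v1 : ∀ c, v.valuation K (π' c : K) = 1 := fun c =>
    (v.valuation_eq_one_iff_notMem (K := K)).2 fun i => by
      obtain ⟨rfl, z⟩ := le c _ (ov_sm (ov b) γ⁻¹) (by
        rw [below, Ideal.mem_comap, Ideal.mem_pointwise_smul_iff_inv_smul_mem, inv_inv,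
          show γ • RingOfIntegers.mapRingHom j (π c) = RingOfIntegers.mapRingHom j (π' c) from
            RingOfIntegers.ext (hπ' c).symm]
        exact i)
      exact bl_cj (ov c) (bo c c.2).2 (mt (inv_mem_iff).1 hγ) z
  have v2 : ∀ c ≠ b, v.valuation K (π c : K) = 1 := fun c d =>
    (v.valuation_eq_one_iff_notMem (K := K)).2 fun i => d (le c _ (ov b) i).1
  have t := congrArg (v.valuation K) hk
  rw [map_pow, map_pow, map_prod, Finset.prod_eq_single b (fun c _ d => by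
    rw [map_pow, map_div₀, v1, v2 c d, div_one, one_pow]) (by simp), map_pow, map_div₀, v1,
    div_one, val_pw v (hπ b)] at t
  have k0 : v.valuation K k ≠ 0 := fun z => by
    rw [z, zero_pow (by have := pp_pos; positivity)] at t
    exact pow_ne_zero _ (pow_ne_zero _ WithZero.exp_ne_zero) t.symm
  rw [← WithZero.exp_log k0, ← WithZero.exp_nsmul, ← WithZero.exp_nsmul, ← WithZero.exp_nsmul,
    WithZero.exp_inj] at t
  have d : (pp : ℤ) ^ n ∣ 2 * (h' * m b) := ⟨-WithZero.log (v.valuation K k),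
    mul_left_cancel₀ (pow_ne_zero a (Int.natCast_ne_zero.2 pp_ne)) (by
      simp only [nsmul_eq_mul] at t; push_cast at t; linear_combination t)⟩
  obtain ⟨c, hc⟩ : pp ^ n ∣ h' * m b :=
    (Nat.Coprime.pow_left n cop_two.symm).dvd_of_dvd_mul_left (by exact_mod_cast d)
  rw [← pow_mul, hc, pow_right_comm, pow_mul, hζ.pow_eq_one, one_pow, one_pow]

end Vale.Agent.P014Z.Kz
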