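import Vale.Agent.P014Z.Rp.St
import Vale.Agent.P014Z.Rp.Ki0

/-! # P014Z: the row KI -/

set_option autoImplicit false
set_option linter.all false

namespace Vale.Agent.P014Z.Rp

open P014U

/-- **KI** -/
theorem ki [Pp] : KI := fun _ _ _ _ kd _ hγ _ _ bs _ _ _ y hN hζ => by
  subst hN
  exact Kz.core kd.iq kd.upm kd.pos kd.neg hγ bs.ov y hζ

end Vale.Agent.P014Z.Rp
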