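import Vale.Agent.P014Y.Rd.Lin
import Vale.Agent.P014U.Base

/-!
# P014Z, route R at every odd prime: kit for the rows `LIN`, `CBR`, `PLS` (helper28)
-/

set_option autoImplicit false
set_option linter.all false

open NumberField

noncomputable section

namespace Vale.Agent.P014Z.Rp.Li

open Vale.Agent.P022 (Qb GQ)
open Vale.Agent.P027M.S (Inert)
open Vale.Agent.P022E.GW (Ov Fb)
open Vale.Agent.P022K.G2
open Vale.Agent.P014Y.Rd.Li (dg stp ex_dg int_mem fb_root)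

theorem lin0 {F : Type} [Field F] [Finite F] (d : ℕ) (D : Fin (d + 1) → Fin (d + 1) → F) :
    ∃ δ : Fin (d + 1) → F, ∀ (u w s : F) (m : Fin (d + 1) → F) (m' : F), u ≠ 0 → w ≠ 0 →
      (∀ i, ∑ i', (if i' = i then δ i else D i i') * m i' + (if i = 0 then u * m' else 0) = 0) →
      w * m 0 + s * m' = 0 → m = 0 ∧ m' = 0 := by
  obtain ⟨δ, h⟩ := ex_dg d fun i k => D i.succ k.succ
  obtain ⟨a, ha⟩ := stp D δ h 0
  refine ⟨Fin.cons a δ, fun u w s m m' hu hw e e' => ?_⟩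
  have k := ha m fun i => by simpa only [dg, Fin.succ_ne_zero, if_false, add_zero] using e i.succ
  have e0 := e 0
  rw [show (∑ i', _) = _ from k.1, if_pos rfl, zero_mul, zero_add] at e0
  have z := (mul_eq_zero.1 e0).resolve_left hu
  rw [z, mul_zero, add_zero] at e'
  exact ⟨k.2 ((mul_eq_zero.1 e').resolve_left hw), z⟩

theorem pow_iff {p q n : ℕ} [Fact q.Prime] (hq : q - 1 = p * n) {x : ZMod q} (hx : x ≠ 0) :
    x ^ n = 1 ↔ ∃ a : ZMod q, x = a ^ p := by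
  have q2 := (Fact.out : q.Prime).two_le
  have pn : p * n ≠ 0 := by omega
  refine ⟨fun h => ?_, ?_⟩
  · obtain ⟨g, hg⟩ := IsCyclic.exists_monoid_generator (α := (ZMod q)ˣ)
    obtain ⟨m, hm⟩ := hg (Units.mk0 x hx)
    have o : orderOf g = p * n := by
      rw [orderOf_eq_card_of_forall_mem_powers hg, Nat.card_eq_fintype_card, ZMod.card_units, hq]
    have e : g ^ (m * n) = 1 := Units.ext (by
      rw [pow_mul, show g ^ m = _ from hm]; simpa using h)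
    obtain ⟨k, rfl⟩ := Nat.dvd_of_mul_dvd_mul_right (Nat.pos_of_ne_zero (right_ne_zero_of_mul pn))
      (o ▸ orderOf_dvd_of_pow_eq_one e)
    refine ⟨(g ^ k : (ZMod q)ˣ), ?_⟩
    have := congrArg Units.val hm
    simp only [Units.val_mk0] at this
    rw [← this]
    push_cast
    ring
  · rintro ⟨a, rfl⟩
    rw [← pow_mul, ← hq]
    exact ZMod.pow_card_sub_one_eq_one fun z => hx (by simp [z, left_ne_zero_of_mul pn])

theorem cb_iff (p : ℕ) {q l : ℕ} [Fact q.Prime] {L : Ideal (𝓞 Qb)} {ψ : GQ} (h : Ov l L)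
    (ne : q ≠ l) (f : Fb l L ψ) :
    (∃ a : ℕ, ∀ ζ : Qb, ζ ^ q = 1 → ψ ζ = ζ ^ a ^ p) ↔ ∃ a : ZMod q, (l : ZMod q) = a ^ p := by
  refine ⟨fun ⟨a, ha⟩ => ⟨a, ?_⟩, fun ⟨a, ha⟩ => ⟨a.val, fun ζ e => ?_⟩⟩
  · have := ha _ (zt_pow (p := q))
    rw [fb_root h ne f zt_pow, ← pw_nat l, ← pw_nat (a ^ p)] at this
    exact_mod_cast pw_inj this
  · rw [fb_root h ne f e, pow_eq_pow_mod l e, pow_eq_pow_mod (a.val ^ p) e]
    congr 1
    exact (ZMod.natCast_eq_natCast_iff _ _ _).1 (by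
      rw [ha, Nat.cast_pow, ZMod.natCast_zmod_val])

variable {p : ℕ} [hp : Fact p.Prime]

theorem ka_fb {q l n : ℕ} {Q : Ideal (𝓞 Qb)} {σ : GQ} (h : Ov q Q) (ne : q ≠ p)
    (hq : q = p * n + 1) (hl : (l : 𝓞 Qb) ∉ Q) (f : Fb q Q σ) :
    ka p (l : Qb) σ = 0 ↔ (l : 𝓞 Qb) ^ n - 1 ∈ Q := by
  let y : 𝓞 Qb := ⟨rt p l, IsIntegral.of_pow hp.1.pos (by
    rw [rt_pow]; exact (l : 𝓞 Qb).isIntegral_coe)⟩
  let ζ : 𝓞 Qb := ⟨zt p, (zt_prim p).isIntegral hp.1.pos⟩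
  have y3 : y ^ p = l := RingOfIntegers.ext (rt_pow p _)
  have hy : y ∉ Q := fun m => hl (y3 ▸ Ideal.pow_mem_of_mem Q m p hp.1.pos)
  have e1 : σ • y - y ^ q = (ζ ^ (ka p (l : Qb) σ).val - l ^ n) * y := by
    rw [sub_mul, hq, pow_succ, pow_mul, y3]
    exact congrArg (· - (l : 𝓞 Qb) ^ n * y) (RingOfIntegers.ext (ka_spec (map_natCast σ l)))
  have m := (h.2.1.mem_or_mem (e1 ▸ f y)).resolve_right hy
  refine ⟨fun z => ?_, fun k => pw_inj ?_⟩
  · rw [z, ZMod.val_zero, pow_zero] at m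
    simpa using Q.neg_mem m
  · rw [ZMod.val_zero, pow_zero]
    exact congrArg Subtype.val (P022E.GW.Unr.root_inj h.2.1 (p_notMem (p := p) h ne)
      (RingOfIntegers.ext (pw_pow (ka p (l : Qb) σ))) (one_pow p) (by simpa using Q.add_mem m k))

theorem ex_pow {N : ℕ} (h0 : N ≠ 0) (h : ∀ l : ℕ, l.Prime → p ∣ N.factorization l) :
    ∃ T, N = T ^ p := by
  refine ⟨∏ l ∈ N.primeFactors, l ^ (N.factorization l / p), ?_⟩
  rw [← Finset.prod_pow]
  refine (Nat.factorization_prod_pow_eq_self h0).symm.trans (Finset.prod_congr rfl fun l hl => ?_)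
  rw [← pow_mul, Nat.div_mul_cancel (h l (Nat.prime_of_mem_primeFactors hl))]

/-- `CBR` at any prime -/
theorem cbr0 (q l : ℕ) (Q L : Ideal (𝓞 Qb)) (φ ψ : GQ) (hQ : Ov q Q) (hL : Ov l L) (ne : q ≠ l)
    (h3 : q % p = 1) (f : Fb l L ψ) (ex : ∃ t, Inert Q t ∧ Fb q Q (φ * t)) :
    ka p l φ = 0 ↔ ∃ a : ℕ, ∀ ζ : Qb, ζ ^ q = 1 → ψ ζ = ζ ^ a ^ p := by
  obtain ⟨t, ht, fq⟩ := ex
  haveI : Fact q.Prime := ⟨hQ.1⟩
  haveI : Fact l.Prime := ⟨hL.1⟩
  have hq : q = p * (q / p) + 1 := by rw [← h3, Nat.div_add_mod]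
  have qp : q ≠ p := fun e => by rw [e, Nat.mod_self] at h3; exact zero_ne_one h3
  have hl : (l : 𝓞 Qb) ∉ Q := p_notMem hQ ne
  have l0 : (l : ZMod q) ≠ 0 := fun z =>
    ne ((Nat.prime_dvd_prime_iff_eq hQ.1 hL.1).1 ((ZMod.natCast_eq_zero_iff _ _).1 z))
  have k0 : ka p (l : Qb) t = 0 :=
    ka_int (p := p) hQ qp hl ht (map_natCast t l)
  have k1 := ka_coc (p := p) (b := (l : Qb)) (Nat.cast_ne_zero.2 hL.1.ne_zero) (map_natCast φ l)
    (map_natCast t l)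
  rw [k0, mul_zero, add_zero] at k1
  rw [← k1, ka_fb hQ qp hq hl fq, cb_iff p hL ne f,
    ← pow_iff (p := p) (n := q / p) (by omega) l0,
    show (l : 𝓞 Qb) ^ (q / p) - 1 = ((l ^ (q / p) - 1 : ℤ) : 𝓞 Qb) by push_cast; rfl, int_mem hQ,
    ← ZMod.intCast_zmod_eq_zero_iff_dvd]
  push_cast
  exact sub_eq_zero

/-- `PLS` at any odd prime -/
theorem pls0 (od : Odd p) (ι : Type) [Fintype ι] (q : ι → ℕ) (s : ι → GQ) (n : ℤ) (y : Qb)
    (inj : Function.Injective q) (hq : ∀ i, (q i).Prime ∧ oz p (s i) = 1 ∧ s i y = y) (n0 : n ≠ 0)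
    (hy : y ^ p = n) (hv : ∀ l : ℕ, l.Prime → (∀ i, l ≠ q i) → p ∣ padicValInt l n)
    (hm : ∀ m : ι → ZMod p, (∀ i, ∑ i', ka p (q i') (s i) * m i' = 0) → m = 0) :
    ∃ t : ℤ, n = t ^ p := by
  classical
  obtain ⟨r, hr⟩ : ∃ r, p = r + 1 := ⟨p - 1, by have := hp.1.pos; omega⟩
  have N0 : n.natAbs ≠ 0 := Int.natAbs_ne_zero.2 n0
  have P0 : ∀ i, q i ^ (r * n.natAbs.factorization (q i)) ≠ 0 := fun i =>
    pow_ne_zero _ (hq i).1.ne_zero
  have out : ∀ l : ℕ, l.Prime → (∀ i, l ≠ q i) → p ∣ n.natAbs.factorization l := fun l hl k => by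
    rw [Nat.factorization_def _ hl]; exact hv l hl k
  obtain ⟨T, hT⟩ := ex_pow (p := p) (N := n.natAbs * ∏ i, q i ^ (r * n.natAbs.factorization (q i)))
    (mul_ne_zero N0 (Finset.prod_ne_zero_iff.2 fun i _ => P0 i)) fun l hl => by
      rw [Nat.factorization_mul N0 (Finset.prod_ne_zero_iff.2 fun i _ => P0 i),
        Nat.factorization_prod fun i _ => P0 i, Finsupp.add_apply, Finsupp.finset_sum_apply]
      simp only [fun i k => Nat.Prime.factorization_pow (k := k) (hq i).1, Finsupp.single_apply]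
      by_cases c : ∃ i, l = q i
      · obtain ⟨i, rfl⟩ := c
        simp only [inj.eq_iff, Finset.sum_ite_eq', Finset.mem_univ, if_true]
        exact ⟨n.natAbs.factorization (q i), by rw [hr]; ring⟩
      · rw [Finset.sum_eq_zero fun i _ => if_neg fun e => c ⟨i, e.symm⟩, add_zero]
        exact out l hl fun i e => c ⟨i, e⟩
  have T0 : (T : Qb) ≠ 0 := Nat.cast_ne_zero.2 fun z => by
    rw [z, zero_pow hp.1.ne_zero] at hT
    exact mul_ne_zero N0 (Finset.prod_ne_zero_iff.2 fun i _ => P0 i) hT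
  obtain ⟨y', y3, fy⟩ : ∃ y' : Qb, y' ^ p = (n.natAbs : Qb) ∧ ∀ i, s i y' = y' := by
    rcases Int.natAbs_eq n with e | e
    · exact ⟨y, hy.trans ((congrArg Int.cast e).trans (Int.cast_natCast _)), fun i => (hq i).2.2⟩
    · refine ⟨-y, ?_, fun i => by rw [map_neg, (hq i).2.2]⟩
      have : (n : Qb) = -(n.natAbs : Qb) :=
        (congrArg Int.cast e).trans (by rw [Int.cast_neg, Int.cast_natCast])
      rw [od.neg_pow, hy, this, neg_neg]
  have r1 : (r : ZMod p) = -1 := by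
    have : ((r + 1 : ℕ) : ZMod p) = 0 := by rw [← hr]; exact ZMod.natCast_self p
    push_cast at this
    exact eq_neg_of_add_eq_zero_left this
  have z := hm (fun i => (r * n.natAbs.factorization (q i) : ℕ)) fun i => by
    have g := mem_Gz.2 (hq i).2.1
    have q0 : ∀ k, (q k : Qb) ≠ 0 := fun k => Nat.cast_ne_zero.2 (hq k).1.ne_zero
    have k1 := ka_pp (p := p) T0 g (map_natCast _ T)
    have e : (T : Qb) ^ p = n.natAbs * ∏ i, (q i : Qb) ^ (r * n.natAbs.factorization (q i)) := by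
      exact_mod_cast congrArg (Nat.cast : ℕ → Qb) hT.symm
    rw [e, ka_mul (Nat.cast_ne_zero.2 N0) (Finset.prod_ne_zero_iff.2 fun k _ => pow_ne_zero _ (q0 k))
      g (map_natCast _ _) (by simp), (ka_eq_zero (Nat.cast_ne_zero.2 N0) y3 g
        (map_natCast _ _)).2 (fy i), zero_add,
      ka_prod _ g fun k _ => ⟨pow_ne_zero _ (q0 k), by simp⟩] at k1
    rw [← k1]
    exact Finset.sum_congr rfl fun k _ => by rw [ka_pow (q0 k) g (map_natCast _ _), mul_comm]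
  obtain ⟨T', hT'⟩ := ex_pow (p := p) N0 fun l hl => by
    by_cases c : ∃ i, l = q i
    · obtain ⟨i, rfl⟩ := c
      have := congrFun z i
      simp only [Nat.cast_mul, r1, Pi.zero_apply, neg_mul, one_mul, neg_eq_zero] at this
      exact (ZMod.natCast_eq_zero_iff _ _).1 this
    · exact out l hl fun i e => c ⟨i, e⟩
  rcases Int.natAbs_eq n with e | e
  · exact ⟨T', by rw [e, hT']; push_cast; rfl⟩
  · exact ⟨-T', by rw [e, hT', od.neg_pow]; push_cast; rfl⟩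

end Vale.Agent.P014Z.Rp.Li
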