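import Vale.Agent.P014Z.Rp.Kil0
import Vale.Agent.P014Z.Rp.Cub0
import Vale.Agent.P014Z.Rp.Lin0

/-!
# P014Z: the small Selmer group is killed
-/

set_option autoImplicit false
set_option linter.all false

open NumberField Module IsDedekindDomain
open scoped Pointwise

noncomputable section

namespace Vale.Agent.P014Z.Rp.Kk

open Vale.Agent.P022 Vale.Agent.P022.H916 P004K
open P004R.Xt (not_dvd norm_below nm_eq)
open P004R.Fd (dec_smul ov_smul fb_smul)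
open Vale.Agent.P027M.S (Inert)
open Vale.Agent.P022D.W (dec)
open Vale.Agent.P022E.GW (Ov Fb)
open Vale.Agent.P022K.G2 (ka)
open P004S (inert_dec)
open Vale.Agent.P014U

variable [Pp] {K : Type} [Field K] [NumberField K] {j : K →+* Qb} {ι : Type} [Fintype ι]

/-- reciprocity for pairs of conjugate places -/
theorem art2 (r1 : RC1) (r2 : RC2) (iq : Iq K) {γ : GQ} (hγ : γ ∉ GK j) {l m m' : ι → ℕ}
    {c : ℕ} {a : 𝓞 K} {x : GQ → ZMod pp}
    {Q : ι → Ideal (𝓞 Qb)} {φ : ι → GQ} {r : ℕ} {I : Ideal (𝓞 K)} (c0 : 0 < c) (a0 : a ≠ 0)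
    (xa : ∀ g ∈ GK j, ∀ h ∈ GK j, x (g * h) = x g + x h) (xk : ∀ g ∈ Hc j (c ^ r), x g = 0)
    (sp : ∀ l P, Ov l P → l ∣ c → dec P ≤ GK j)
    (L : ∀ l P, Ov l P → l ∣ c → ∃ y : Qb, y ^ pp = j a ∧ ∀ g ∈ dec P, g y = y)
    (h : ∀ i, Ov (l i) (Q i) ∧ Fb (l i) (Q i) (φ i) ∧ ¬ l i ∣ c ∧
      ∀ Q', Ov (l i) Q' → dec Q' ≤ GK j)
    (e : Ideal.span {a} =
      I ^ pp * ((∏ i, below j (Q i) ^ m i) * ∏ i, below j (γ • Q i) ^ m' i)) :
    ∑ i, ((m i : ZMod pp) - m' i) * x (φ i) = 0 := by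
  have := Cu.art0 j r2 iq p0 (ZMod.natCast_self pp) c r x a I
    (ι ⊕ ι) (Sum.elim l l) (Sum.elim m m')
    (Sum.elim Q fun i => γ • Q i) (Sum.elim φ fun i => γ * φ i * γ⁻¹) c0 a0 xa xk sp L (by
      rintro (i | i)
      · exact ⟨(h i).1, (h i).2.2.2 _ (h i).1, (h i).2.1, (h i).2.2.1⟩
      · exact ⟨ov_smul (h i).1 γ, (h i).2.2.2 _ (ov_smul (h i).1 γ), fb_smul (h i).2.1 γ,
          (h i).2.2.1⟩) (by rw [Fintype.prod_sum_type]; exact e)
  rw [Fintype.sum_sum_type, ← Finset.sum_add_distrib] at this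
  refine (Finset.sum_congr rfl fun i _ => ?_).trans this
  simp only [Sum.elim_inl, Sum.elim_inr]
  rw [(cj r1 iq (pow_pos c0 r) xa xk hγ ((h i).2.2.2 _ (h i).1
    (mem_of_frob (h i).1.2.1 (h i).1.1.ne_zero (h i).2.1))).2]
  ring

/-- **killing** -/
theorem kil0 (r1 : RC1) (r2 : RC2) (iq : Iq K) (spl : ∀ P, Ov pp P → dec P ≤ GK j) [DecidableEq ι]
    {q : ι → ℕ} {Q : ι → Ideal (𝓞 Qb)} {φ : ι → GQ} {o : ι} {x x₀ : GQ → ZMod pp}
    (inj : Function.Injective q)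
    (pl : ∀ i, Ov (q i) (Q i) ∧ Fb (q i) (Q i) (φ i) ∧ q i % pp = 1 ∧
      ∀ Q', Ov (q i) Q' → dec Q' ≤ GK j ∧ ∃ t, Inert Q' t ∧ x t = 1)
    (xa : ∀ g ∈ GK j, ∀ h ∈ GK j, x (g * h) = x g + x h) (xk : ∀ g ∈ Hc j (∏ i, q i), x g = 0)
    (ya : ∀ g ∈ GK j, ∀ h ∈ GK j, x₀ (g * h) = x₀ g + x₀ h)
    (yk : ∀ g ∈ Hc j (∏ i ∈ Finset.univ.erase o, q i), x₀ g = 0) (y0 : x₀ (φ o) ≠ 0)
    (x9 : ∀ i ≠ o, ∃ (r : ℕ) (z : GQ → ZMod pp), (∀ g ∈ GK j, ∀ h ∈ GK j, z (g * h) = z g + z h) ∧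
      (∀ g ∈ Hc j (pp ^ r), z g = 0) ∧ z (φ i) ≠ 0 ∧ ∀ i' ≠ i, z (φ i') = 0)
    (det : ∀ (a : 𝓞 K) (y : Qb), a ≠ 0 → (∃ I : Ideal (𝓞 K), Ideal.span {a} = I ^ pp) →
      (∀ l P, Ov l P → l ∣ pp → ∃ y : Qb, y ^ pp = j a ∧ ∀ g ∈ dec P, g y = y) → y ^ pp = j a →
      (∀ i ≠ o, φ i y = y) → ∃ t : K, (a : K) = t ^ pp)
    {σ : ι → GQ} (s1 : ∀ i, σ i ∈ dec (Q i) ∧ x (σ i) = 0)
    (s2 : ∀ m : ι → ZMod pp, (∀ i, ∑ i', ka pp (q i') (σ i) * m i' = 0) → m = 0)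
    {P : Ideal (𝓞 Qb)} (hP : Ov pp P) {a : 𝓞 K} {y : Qb} (a0 : a ≠ 0) (hy : y ^ pp = j a)
    {I J : Ideal (𝓞 K)} {n : ℕ} (e : Ideal.span {a} = I ^ pp * J)
    (hJ : J ∣ Ideal.span {((∏ i, q i : ℕ) : 𝓞 K)} ^ n) (fP : ∀ g ∈ dec P, g y = y)
    (fQ : ∀ l R, Ov l R → l ∣ ∏ i, q i → ∀ g ∈ dec R, x g = 0 → g y = y) :
    ∀ g ∈ GK j, g y = y := by
  obtain ⟨γ, hγ⟩ := exists_not_mem j iq.two
  obtain ⟨ω, s, qd⟩ := P004F.Pt.ex_q j iq
  obtain ⟨N, hN⟩ := qd.nm a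
  have ov := fun i => (pl i).1
  have fb := fun i => (pl i).2.1
  have c0 : 0 < ∏ i, q i := Finset.prod_pos fun i _ => (ov i).1.pos
  have cd : ∀ i, q i ∣ ∏ i, q i := fun i => Finset.dvd_prod_of_mem _ (Finset.mem_univ i)
  have sp := fun i Q' o' => ((pl i).2.2.2 Q' o').1
  have fd : ∀ i, φ i ∈ dec (Q i) := fun i => mem_of_frob (ov i).2.1 (ov i).1.ne_zero (fb i)
  have nd : ∀ i i', q i ∣ q i' → i = i' := fun i i' d =>
    inj ((Nat.prime_dvd_prime_iff_eq (ov i).1 (ov i').1).1 d)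
  have a1 : j a ≠ 0 := by simpa using a0
  have nm : ∀ g ∉ GK j, j a * g (j a) = N := fun g m => by
    rw [P004F.Pt.cj_out qd m]
    simpa using congrArg (fun z : 𝓞 K => j z) hN
  obtain ⟨M, rfl⟩ := fac (Sum.elim (fun i => below j (Q i)) fun i => below j (γ • Q i)) J
    (fun z => a0 (by simpa [z] using e)) fun p hp d => by
      have m := Ideal.dvd_iff_le.1 (hp.dvd_of_dvd_pow (d.trans hJ))
        (Ideal.mem_span_singleton_self _)
      have pr := Ideal.isPrime_of_prime hp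
      obtain ⟨R, hR, rfl⟩ := exists_above j p pr
      rw [Nat.cast_prod] at m
      obtain ⟨i, -, k⟩ := Ideal.IsPrime.prod_mem_iff.1 m
      obtain ⟨t, rfl⟩ := P022E.GW.Tg.trans (ov i)
        (⟨(ov i).1, hR, (P004R.Gl.mem_below _).1 k⟩ : Ov (q i) R)
      by_cases z : t ∈ GK j
      · exact ⟨.inl i, P022K.GW.Pl.below_smul j z _⟩
      · refine ⟨.inr i, ?_⟩
        rw [show t = t * γ⁻¹ * γ by group, mul_smul]
        exact P022K.GW.Pl.below_smul j (mul_inv_mem j iq.two z hγ) _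
  rw [Fintype.prod_sum_type] at e
  simp only [Sum.elim_inl, Sum.elim_inr] at e
  have vl : ∀ l, N.natAbs.factorization l = pp * (Ideal.absNorm I).factorization l +
      ∑ i, if q i = l then M (.inl i) + M (.inr i) else 0 := fun l => by
    rw [← val _ (fun i => (ov i).1) (mt Ideal.absNorm_eq_zero_iff.1 fun z => a0 (by
      rwa [z, ← Ideal.zero_eq_bot, zero_pow p0, zero_mul, Ideal.zero_eq_bot,
        Ideal.span_singleton_eq_bot] at e)), ← nm_eq iq qd hN, e, map_mul, map_pow, map_mul, map_prod, map_prod,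
      ← Finset.prod_mul_distrib]
    refine congrArg (fun z => Nat.factorization (_ * z) l) (Finset.prod_congr rfl fun i _ => ?_)
    rw [map_pow, map_pow, norm_below iq (ov i) (fb i) (sp i _ (ov i) (fd i)),
      norm_below iq (ov_smul (ov i) γ) (fb_smul (fb i) γ)
        (cj r1 iq c0 xa xk hγ (sp i _ (ov i) (fd i))).1, pow_add]
  obtain ⟨t, rfl⟩ := Li.pls0 pp_odd ι q σ N (y * γ y) inj (fun i =>
    ⟨(ov i).1, dec_mu (ov i) (fb i) (pl i).2.2.1 (s1 i).1, by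
      have b := (cj r1 iq c0 xa xk (mt inv_mem_iff.1 hγ) (sp i _ (ov i) (s1 i).1)).2
      rw [inv_inv, (s1 i).2, neg_zero] at b
      rw [map_mul, fQ _ _ (ov i) (cd i) _ (s1 i).1 (s1 i).2, tw (fQ _ _ (ov_smul (ov i) γ⁻¹) (cd i)
        _ (dec_smul (by rw [smul_inv_smul]; exact (s1 i).1)) b)]⟩)
    (fun z => mul_ne_zero a1 ((map_ne_zero γ).2 a1) (by rw [nm γ hγ, z, Int.cast_zero]))
    (by rw [mul_pow, ← map_pow, hy, nm γ hγ]) (fun l hl b => by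
      rw [padicValInt, ← Nat.factorization_def _ hl, vl,
        Finset.sum_eq_zero fun i _ => if_neg (b i).symm, add_zero]
      exact dvd_mul_right _ _) s2
  have d3 : ∀ i, pp ∣ M (.inl i) + M (.inr i) := fun i => by
    have b := vl (q i)
    rw [Int.natAbs_pow, Nat.factorization_pow, Finsupp.smul_apply, smul_eq_mul,
      Finset.sum_eq_single i (fun i' _ k => if_neg fun z => k (inj z))
        fun k => absurd (Finset.mem_univ i) k, if_pos rfl] at b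
    exact (Nat.dvd_add_right (dvd_mul_right _ _)).1 (b ▸ dvd_mul_right _ _)
  have l3 : ∀ l P', Ov l P' → l ∣ pp → Ov pp P' := fun l P' o' d =>
    (Nat.prime_dvd_prime_iff_eq o'.1 pp_prime).1 d ▸ o'
  have L3 : ∀ l P', Ov l P' → l ∣ pp → ∃ y : Qb, y ^ pp = j a ∧ ∀ g ∈ dec P', g y = y :=
      fun l P' o' d => by
    obtain ⟨g, rfl⟩ := P022E.GW.Tg.trans hP (l3 l P' o' d)
    by_cases z : g ∈ GK j
    · exact ⟨g y, by rw [← map_pow, hy, z], fun u m => tw (fP _ (dec_smul m))⟩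
    · refine ⟨t / g y, ?_, fun u m => by rw [map_div₀, map_intCast, tw (fP _ (dec_smul m))]⟩
      rw [div_pow, ← map_pow, hy, div_eq_iff ((map_ne_zero g).2 a1), nm g z, Int.cast_pow]
  have d9 : ∀ i ≠ o, pp ∣ M (.inl i) ∧ pp ∣ M (.inr i) := fun i hi => by
    obtain ⟨r, z, X, X', z1, z2⟩ := x9 i hi
    have b := art2 r1 r2 iq hγ pp_prime.pos a0 X X'
      (fun l P' o' d => spl _ (l3 l P' o' d)) L3
      (fun i => ⟨ov i, fb i, not_dvd (ov i) (pl i).2.2.1, sp i⟩) e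
    rw [Finset.sum_eq_single i (fun i' _ k => by rw [z2 i' k, mul_zero])
      fun k => absurd (Finset.mem_univ i) k] at b
    exact both z1 b (d3 i)
  obtain ⟨A, hA⟩ := red (fun i => below j (Q i)) fun i hi => (d9 i hi).1
  obtain ⟨B, hB⟩ := red (fun i => below j (γ • Q i)) fun i hi => (d9 i hi).2
  have e1 : Ideal.span {a} = (I * A * B) ^ pp *
      (below j (Q o) ^ M (.inl o) * below j (γ • Q o) ^ M (.inr o)) := by
    rw [e, hA, hB]; ring
  have fx : ∀ i ≠ o, ∀ Q', Ov (q i) Q' → ∀ g ∈ dec Q', g y = y := fun i hi Q' o' g m => by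
    obtain ⟨b, u, iu, xu⟩ := (pl i).2.2.2 Q' o'
    have mu := inert_dec iu
    have uy : u ∈ MulAction.stabilizer GQ y :=
      unr o' (not_dvd o' (pl i).2.2.1) iu (b mu) a0 e1 (fun le => by
        have k := le (Ideal.mul_mem_mul
          (Ideal.pow_mem_pow ((P004R.Gl.mem_below _).2 (ov o).2.2) _)
          (Ideal.pow_mem_pow ((P004R.Gl.mem_below _).2 (ov_smul (ov o) γ).2.2) _))
        rw [← pow_add] at k
        exact P004R.Wr.ov_nat o' (fun d => hi (nd _ _ d)) ((P004R.Gl.mem_below _).1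
          ((P004R.Gl.below_pr j o'.2.1).mem_of_pow_mem _ k))) hy
    have k := fQ _ _ o' (cd i) _ (mul_mem m (pow_mem mu (-x g).val)) (by
      rw [xa _ (b m) _ (pow_mem (b mu) _), xpow xa (b mu), xu, ZMod.natCast_zmod_val]
      ring)
    rwa [AlgEquiv.mul_apply, show (u ^ (-x g).val) y = y from pow_mem uy _] at k
  have dv : ∀ l : ℕ, l.Prime → l ∣ ∏ i ∈ Finset.univ.erase o, q i → ∃ i ≠ o, l = q i :=
    fun l hl d => by
      obtain ⟨i, hi, k⟩ := (hl.prime.dvd_finset_prod_iff _).1 d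
      exact ⟨i, Finset.ne_of_mem_erase hi, (Nat.prime_dvd_prime_iff_eq hl (ov i).1).1 k⟩
  have b := art2 r1 r2 iq hγ (ι := Unit) (r := 1) (l := fun _ => q o) (Q := fun _ => Q o)
    (φ := fun _ => φ o) (m := fun _ => M (.inl o)) (m' := fun _ => M (.inr o)) (I := I * A * B)
    (Finset.prod_pos fun i _ => (ov i).1.pos) a0 ya (by rw [pow_one]; exact yk)
    (fun l P' o' d => by
      obtain ⟨i, -, rfl⟩ := dv l o'.1 d
      exact sp i _ o')
    (fun l P' o' d => by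
      obtain ⟨i, hi, rfl⟩ := dv l o'.1 d
      exact ⟨y, hy, fx i hi _ o'⟩)
    (fun _ => ⟨ov o, fb o, fun d => by
      obtain ⟨i, hi, k⟩ := dv _ (ov o).1 d
      exact hi (inj k).symm, sp o⟩)
    (by rw [Fintype.prod_unique, Fintype.prod_unique]; exact e1)
  rw [Fintype.sum_unique] at b
  obtain ⟨⟨k, hk⟩, k', hk'⟩ := both y0 b (d3 o)
  obtain ⟨w, hw⟩ := det a y a0 ⟨I * A * B * (below j (Q o) ^ k * below j (γ • Q o) ^ k'), by
    rw [e1, hk, hk']; ring⟩ L3 hy fun i hi => fx i hi _ (ov i) _ (fd i)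
  rw [hw, map_pow] at hy a1
  have w0 : j w ≠ 0 := fun z => a1 (by rw [z, zero_pow p0])
  have := mup hP (y := y / j w) (by rw [div_pow, hy, div_self a1]) fun g m => by
    rw [map_div₀, fP g m, spl P hP m]
  intro g m
  rw [(div_eq_one_iff_eq w0).1 this]
  exact m w

end Vale.Agent.P014Z.Rp.Kk
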