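import Vale.Agent.P014Z.Rp.St
import Vale.Agent.P014Z.Rp.Kil1

/-!
# P014Z: the row `KIL`
-/

set_option autoImplicit false
set_option linter.all false

namespace Vale.Agent.P014Z.Rp

open P004K P014U

variable [Pp]

/-- **killing** -/
theorem kil (r1 : RC1) (r2 : RC2) : KIL := by
  intro K _ _ j kd ι _ _ q Q φ o x x₀ h P hP a y a0 hy ⟨I, J, n, e, hJ⟩ fP fQ
  obtain ⟨σ, s1, s2⟩ := h.pls
  exact Kk.kil0 r1 r2 kd.iq kd.spl h.inj h.pl h.xe.add h.xe.ker h.x0.1.add h.x0.1.ker h.x0.2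
    (fun i hi => let ⟨z, X, b⟩ := h.x9 i hi; ⟨2, z, X.add, X.ker, b⟩)
    (fun a y a0 b L => h.det a y ⟨a0, b, L⟩) s1 s2 hP a0 hy e hJ fP fQ

end Vale.Agent.P014Z.Rp
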