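import Vale.Agent.P014U.G2.Dim
import Vale.Agent.P022E.GW.Kc

/-!
# P014Z: Kummer theory over a number field and valuations of a class which lifts (any prime)
-/

set_option autoImplicit false
set_option linter.all false

open NumberField IsDedekindDomain

noncomputable section

namespace Vale.Agent.P014Z.Rp

open Vale.Agent.P022 Vale.Agent.P022.C Vale.Agent.P022.H916
open Vale.Agent.P027M.S (Inert)
open Vale.Agent.P022D.W (dec phi_mem inP_le_dec)
open Vale.Agent.P022E.GW (Ov Fb)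
open Vale.Agent.P022K.G2

namespace Kv

/-- an ideal whose exponents outside `C` are multiples of `n` -/
theorem fac {R : Type} [CommRing R] [IsDedekindDomain R] {A : Ideal R} (A0 : A ≠ ⊥) (C : Ideal R)
    (n : ℕ) (h : ∀ v : HeightOneSpectrum R, ¬ v.asIdeal ∣ C →
      n ∣ (Associates.mk v.asIdeal).count (Associates.mk A).factors) :
    ∃ (I J : Ideal R) (m : ℕ), A = I ^ n * J ∧ J ∣ C ^ m := by
  classical
  set s := UniqueFactorizationMonoid.normalizedFactors A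
  refine ⟨∏ v ∈ s.toFinset with ¬ v ∣ C, v ^ (s.count v / n),
    ∏ v ∈ s.toFinset with v ∣ C, v ^ s.count v, ∑ v ∈ s.toFinset with v ∣ C, s.count v, ?_, ?_⟩
  · rw [← Finset.prod_pow, mul_comm, Finset.prod_congr rfl (g := fun v => v ^ s.count v)
      (s₁ := s.toFinset.filter fun v => ¬ v ∣ C), Finset.prod_filter_mul_prod_filter_not,
      ← Finset.prod_multiset_count, prod_normalizedFactors_eq_self A0]
    intro v m
    obtain ⟨m1, m2⟩ := Finset.mem_filter.1 m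
    have p := UniqueFactorizationMonoid.prime_of_normalized_factor v (Multiset.mem_toFinset.1 m1)
    have q : v.IsPrime := Ideal.isPrime_of_prime p
    have := h ⟨v, q, p.ne_zero⟩ m2
    rw [Ideal.count_associates_factors_eq A0 q p.ne_zero] at this
    rw [← pow_mul, Nat.div_mul_cancel (by convert this)]
  · rw [← Finset.prod_pow_eq_pow_sum]
    exact Finset.prod_dvd_prod_of_dvd _ _ fun v m => pow_dvd_pow_of_dvd (Finset.mem_filter.1 m).2 _

variable {K : Type} [Field K] [NumberField K] (j : K →+* Qb)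

/-- a place of `Qb` above `v` -/
theorem ex_pl (v : HeightOneSpectrum (𝓞 K)) : ∃ l P, Ov l P ∧ below j P = v.asIdeal := by
  obtain ⟨P, hP, hv⟩ := P022E.GW.Kc.ex_above j v
  have := v.isMaximal
  obtain ⟨l, hl⟩ := CharP.exists (𝓞 K ⧸ v.asIdeal)
  have : Finite (𝓞 K ⧸ v.asIdeal) := Ideal.finiteQuotientOfFreeOfNeBot _ v.ne_bot
  have := v.isPrime
  refine ⟨l, P, ⟨CharP.char_is_prime (𝓞 K ⧸ v.asIdeal) l, hP, ?_⟩, hv⟩
  have : (l : 𝓞 K) ∈ below j P := by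
    rw [hv, ← Ideal.Quotient.eq_zero_iff_mem, map_natCast, CharP.cast_eq_zero]
  rwa [below, Ideal.mem_comap, map_natCast] at this

variable {p : ℕ} [Fact p.Prime] {l : ℕ} {P : Ideal (𝓞 Qb)}

/-- a norm from the unramified extension, the roots of unity need not be in the field -/
theorem uns2 (h : Ov l P) {v : HeightOneSpectrum (𝓞 K)} (hv : below j P = v.asIdeal)
    {u : GQ → ZMod p} (hu : Ch (GK j ⊓ Gz p ⊓ dec P) u)
    (hI : ∀ g ∈ GK j ⊓ Gz p, Inert P g → u g = 0) (hs : ∃ σ ∈ GK j ⊓ Gz p ⊓ dec P, u σ ≠ 0)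
    {a : K} (a0 : a ≠ 0) (hb : cup u (ka p (j a)) ∈ B2 ∅ (GK j ⊓ Gz p ⊓ dec P) (tp p)) :
    (p : ℤ) ∣ ordv v a := by
  obtain ⟨M, _, _, _, _, jM, ρ, D, hM, hker⟩ := exists_fld j (GK j ⊓ Gz p)
    ((isOpen_GK j).inter Gz_open) inf_le_left fun g hg u hu =>
      ⟨(GK j).mul_mem (mul_mem hg hu.1) (inv_mem hg), Gz_normal.conj_mem u hu.2 g⟩
  let w := blw jM h
  have hz : GK jM ≤ Gz p := hM.le.trans inf_le_right
  rw [← D.comp] at hb
  rw [← hM] at hu hI hs hb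
  have k := P014U.G2.Dm.uns1 jM hz h (v := w) rfl hu hI hs
    ((map_ne_zero (algebraMap K M)).2 a0) hb
  haveI := H269.liesOver_dn v w ((D.below_comap P).trans hv)
  have he := Ideal.card_inertia_eq_ramificationIdxIn (G := M ≃ₐ[K] M) v.asIdeal w.asIdeal
  rw [Ideal.ramificationIdxIn_eq_ramificationIdx v.asIdeal w.asIdeal (M ≃ₐ[K] M),
    ← Ideal.ramificationIdx'_eq_ramificationIdx _ _ v.ne_bot] at he
  have e : ordv w (algebraMap K M a) = (v.asIdeal.ramificationIdx' w.asIdeal : ℕ) * ordv v a := by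
    rw [ordv, ordv, ← HeightOneSpectrum.valuation_liesOver M v w a, WithZero.log_pow]
    simp
  rw [e] at k
  refine ((Nat.prime_iff_prime_int.1 Fact.out).dvd_or_dvd k).resolve_left fun d => Gz_index (p := p) ?_
  have d1 := (he ▸ Int.natCast_dvd_natCast.1 d).trans (Subgroup.card_subgroup_dvd_card _)
  have e2 : ρ.ker = (Gz p).subgroupOf (GK j) := Subgroup.ext fun g =>
    (hker g).trans (and_iff_right g.2)
  rw [← Subgroup.card_top, ← MonoidHom.range_eq_top.2 D.surj, ← Subgroup.index_ker, e2] at d1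
  exact d1.trans (Subgroup.relIndex_dvd_index_of_normal _ _)

end Kv

/-- **Kummer theory over a number field** -/
theorem kuk0 (p : ℕ) [Fact p.Prime] (K : Type) [Field K] [NumberField K] (j : K →+* Qb)
    (z : GQ → ZMod p) (hz : ∀ g ∈ GK j, ∀ h ∈ GK j, z (g * h) = z g + oz p g * z h)
    (hW : ∃ W : Subgroup GQ, IsOpen (W : Set GQ) ∧ ∀ w ∈ GK j, w ∈ W → z w = 0) :
    ∃ (a : 𝓞 K) (y : Qb), a ≠ 0 ∧ y ^ p = j a ∧ ∀ g ∈ GK j, g y = zt p ^ (z g).val * y := by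
  obtain ⟨W, o, e⟩ := hW
  have hp : p.Prime := Fact.out
  obtain ⟨V, hV, lV⟩ := ex_lv' o
  obtain ⟨δ, d0, hd⟩ := P014U.G2.Gy.h90 (A := GK j) hV (f := fun g => zt p ^ (z g).val)
    (fun g _ => pow_ne_zero _ zt_ne)
    (fun g hg h hh => by rw [hz g hg h hh, pw_add, oz_pw])
    fun g hg w hw m => by rw [hz g hg w hw, e w hw (lV m), mul_zero, add_zero]
  have h1 : ∀ g ∈ GK j, g δ⁻¹ = zt p ^ (z g).val * δ⁻¹ := fun g hg => by
    have := (map_ne_zero g).2 d0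
    rw [map_inv₀]
    nth_rw 2 [← hd g hg]
    have := pow_ne_zero (z g).val (zt_ne (p := p))
    field_simp
  obtain ⟨b, hb⟩ := fixed j (x := δ⁻¹ ^ p) fun g => by
    rw [map_pow, h1 g g.2, mul_pow, pw_pow, one_mul]
  obtain ⟨n, n0, hn⟩ := ((IsFractionRing.isAlgebraic_iff ℤ ℚ K).2
    (Algebra.IsAlgebraic.isAlgebraic b)).exists_integral_multiple
  have i : IsIntegral ℤ ((n : K) ^ p * b) := by
    rw [← mul_pow_sub_one hp.ne_zero, mul_right_comm, ← zsmul_eq_mul]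
    exact hn.mul ((isIntegral_intCast n).pow _)
  have n1 : (n : Qb) ≠ 0 := Int.cast_ne_zero.2 n0
  have e1 : ((n : Qb) * δ⁻¹) ^ p = j (⟨_, i⟩ : 𝓞 K) := by
    show _ = j ((n : K) ^ p * b)
    rw [map_mul, map_pow, map_intCast, hb, mul_pow]
  refine ⟨⟨_, i⟩, n * δ⁻¹, fun c => ?_, e1, fun g hg => by
    rw [map_mul, map_intCast, h1 g hg, mul_left_comm]⟩
  rw [c] at e1
  exact pow_ne_zero p (mul_ne_zero n1 (inv_ne_zero d0)) (e1.trans (map_zero j))

/-- **the valuations of a class which lifts** -/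
theorem val0 (p : ℕ) [Fact p.Prime] (K : Type) [Field K] [NumberField K] (j : K →+* Qb) (c : ℕ)
    (a : 𝓞 K) (y : Qb) (x z z' : GQ → ZMod p) (a0 : a ≠ 0) (hy : y ^ p = j a)
    (hz : ∀ g ∈ GK j, g y = zt p ^ (z g).val * y)
    (hx : ∀ g ∈ GK j, ∀ h ∈ GK j, x (g * h) = x g + x h)
    (hz' : ∀ g ∈ GK j, ∀ h ∈ GK j, z' (g * h) = z' g + oz p g * z' h + x g * oz p g * z h)
    (hW : ∃ W : Subgroup GQ, IsOpen (W : Set GQ) ∧ ∀ w ∈ GK j, w ∈ W → x w = 0 ∧ z' w = 0)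
    (H : ∀ l Q, Ov l Q → ¬ l ∣ c → (l ≠ p ∧ ∀ g ∈ GK j, Inert Q g → z g = 0) ∨
      (dec Q ≤ GK j ∧ (∀ g, Inert Q g → x g = 0) ∧ ∃ φ, Fb l Q φ ∧ x φ ≠ 0)) :
    ∃ (I J : Ideal (𝓞 K)) (n : ℕ), Ideal.span {a} = I ^ p * J ∧
      J ∣ Ideal.span {(c : 𝓞 K)} ^ n := by
  obtain ⟨W, o, e⟩ := hW
  have hp : p.Prime := Fact.out
  have a1 : (a : K) ≠ 0 := RingOfIntegers.coe_ne_zero_iff.2 a0
  have a2 := (map_ne_zero j).2 a1
  have kz : ∀ g ∈ GK j, g ∈ Gz p → ka p (j a) g = z g := fun g hg m => ka_eq a2 hy m (hz g hg)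
  refine Kv.fac (mt Ideal.span_singleton_eq_bot.1 a0) _ p fun v hc => ?_
  obtain ⟨l, Q, h, hv⟩ := Kv.ex_pl j v
  suffices k : (p : ℤ) ∣ ordv v (a : K) by
    rw [ordv, HeightOneSpectrum.valuation_of_algebraMap, v.intValuation_if_neg a0,
      WithZero.log_exp, neg_neg] at k
    exact Int.natCast_dvd_natCast.1 k
  rcases H l Q h (fun ⟨m, hm⟩ => hc (Ideal.dvd_span_singleton.2 (by
      rw [hm, Nat.cast_mul]
      exact Ideal.mul_mem_right _ _ ((P022E.GW.Kc.nat_mem j hv l).2 h.2.2)))) with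
    ⟨hl, k⟩ | ⟨le, k, φ, f, f0⟩
  · exact dvd_ordv j h hv a1 fun g hg i =>
      ⟨inert_gz h hl i, (kz g hg (inert_gz h hl i)).trans (k g hg i)⟩
  obtain ⟨V, hV, lV⟩ := ex_lv' o
  obtain ⟨V', hV', lV'⟩ := ex_lv_fix y
  have m := phi_mem h.1 h.2.1 f
  have xp : ∀ n : ℕ, x (φ ^ n) = n * x φ := fun n => by
    induction n with
    | zero => simpa using hx 1 (one_mem _) 1 (one_mem _)
    | succ n ih => rw [pow_succ, hx _ (pow_mem (le m) n) _ (le m), ih]; push_cast; ring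
  refine Kv.uns2 j h hv (u := x) ⟨fun g hg s hs => hx g hg.1.1 s hs.1.1, V, hV, fun w hw n =>
    (e w hw.1.1 (lV n)).1⟩ (fun g _ => k g) ⟨φ ^ (p - 1), ⟨⟨pow_mem (le m) _, ?_⟩,
      pow_mem m _⟩, ?_⟩ a1 ⟨-z', ⟨V ⊓ V', hV.inf hV', fun g hg w hw n => ?_⟩, fun g hg s hs => ?_⟩
  · show om0 p (φ ^ (p - 1)) = 1
    rw [map_pow, ZMod.units_pow_card_sub_one_eq_one]
  · rw [xp, Nat.cast_sub hp.one_le, ZMod.natCast_self, Nat.cast_one, zero_sub]
    exact mul_ne_zero (neg_ne_zero.2 one_ne_zero) f0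
  · rw [Pi.neg_apply, Pi.neg_apply, hz' g hg.1.1 w hw.1.1, (e w hw.1.1 (lV n.1)).2,
      ← kz w hw.1.1 hw.1.2, (ka_eq_zero a2 hy hw.1.2 (hw.1.1 a)).2 (lV' w n.2)]
    simp
  · rw [cup, d1_apply, kz s hs.1.1 hs.1.2]
    simp only [Pi.neg_apply, hz' g hg.1.1 s hs.1.1, mem_Gz.1 hg.1.2, tr, Module.End.one_apply]
    ring

end Vale.Agent.P014Z.Rp
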