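import Vale.Agent.P014Z.Rp.St2
import Vale.Agent.P014Z.Rp.Kv0

/-!
# P014Z, a rational point of order `p`: rows `KUK` and `VAL`
-/

set_option autoImplicit false
set_option linter.all false

namespace Vale.Agent.P014Z.Rp

open P014U

variable [Pp]

/-- **row KUK** -/
theorem kuk : KUK := fun K _ _ j z => kuk0 pp K j z

/-- **row VAL** -/
theorem val : VAL := fun K _ _ j _ c a y x z z' _ => val0 pp K j c a y x z z'

end Vale.Agent.P014Z.Rp
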