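import Vale.Agent.P014Z.Rp.St
import Vale.Agent.P014Y.Rd.Kx

/-!
# P014Z, route R: Kummer classes over the cyclotomic tower (rows KI0, KX; helper4)
-/

set_option autoImplicit false
set_option linter.all false

noncomputable section

namespace Vale.Agent.P014Z.Rp

open Vale.Agent.P022 (Qb GQ GK)
open P004K P014U
open P014Y.Rd.Kx (fx_inv rt quo)

variable [Pp]

namespace Kx

variable {K : Type} [Field K] [NumberField K] {j : K →+* Qb}

/-- an element of `G_K` which inverts the roots of unity -/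
theorem ex_neg (h : Kd j) : ∃ s ∈ GK j, ∀ (n : ℕ) (ζ : Qb), ζ ^ pp ^ n = 1 → s ζ = ζ⁻¹ := by
  obtain ⟨a, a1, a2⟩ := h.pos
  obtain ⟨b, b1, b2⟩ := h.neg
  exact ⟨b * a⁻¹, P022.H916.mul_inv_mem j h.iq.two b1 a1, fun n ζ e => by
    rw [AlgEquiv.mul_apply, fx_inv (a2 n ζ e), b2 n ζ e]⟩

theorem half : ∃ m, pp = 2 * m + 1 := pp_prime.odd_of_ne_two Pp.odd

end Kx

open Kx

/-- **KI0** -/
theorem ki0 : KI0 := fun K _ _ j h a y n hy hf => by
  obtain ⟨s, s1, s2⟩ := ex_neg h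
  rcases eq_or_ne a 0 with rfl | a0
  · exact ⟨0, (zero_pow pp_prime.ne_zero).symm⟩
  have y0 : y ≠ 0 := fun e => a0 (j.injective (by
    rw [← hy, e, map_zero, zero_pow pp_prime.ne_zero]))
  obtain ⟨k, hk⟩ := P022.H916.fixed j (x := y * s y) fun ⟨g, hg⟩ => by
    have e := hf ((s * g)⁻¹ * (g * s)) (mul_mem (inv_mem (mul_mem s1 hg)) (mul_mem hg s1))
      fun ζ z => (s * g).injective (by
        rw [← AlgEquiv.mul_apply, mul_inv_cancel_left, AlgEquiv.mul_apply, AlgEquiv.mul_apply,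
          s2 n ζ z, s2 n _ (rt z), map_inv₀])
    apply_fun (s * g) at e
    rw [← AlgEquiv.mul_apply, mul_inv_cancel_left, AlgEquiv.mul_apply, AlgEquiv.mul_apply] at e
    obtain ⟨c, c1, c0, c2⟩ := quo (g := g) (n := pp) y0 (by rw [hy, hg])
    show g _ = _
    rw [map_mul, e, c2, map_mul, s2 1 c (by simpa using c1)]
    field_simp
  have k3 : k ^ pp = a ^ 2 := j.injective (by
    rw [map_pow, hk, mul_pow, ← map_pow, hy, s1, map_pow, pow_two])
  obtain ⟨m, hm⟩ := half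
  exact ⟨a / k ^ m, by
    rw [div_pow, ← pow_mul, mul_comm m, pow_mul, k3, ← pow_mul, hm, pow_succ,
      mul_div_cancel_left₀ _ (pow_ne_zero _ a0)]⟩

/-- **KX** -/
theorem kx (r1 : RC1) : KX := fun K _ _ j h A n c c0 g hg => by
  obtain ⟨s, s1, s2⟩ := ex_neg h
  obtain ⟨γ, g1, g2⟩ := h.pos
  have m := (r1 K j h.iq c c0).2.2.2.2.1 γ g1 g⁻¹ (inv_mem hg)
  obtain ⟨u, hu⟩ : ∃ u, u = γ * g⁻¹ * γ⁻¹ := ⟨_, rfl⟩
  rw [← hu] at m
  have u1 : u ∈ GK j := by simpa using mul_mem m.1 hg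
  have v1 := mul_mem u1 hg
  have v2 : ∀ ζ : Qb, ζ ^ pp ^ n = 1 → (u * g) ζ = ζ := fun ζ z => by
    rw [hu, AlgEquiv.mul_apply, AlgEquiv.mul_apply, fx_inv (g2 n _ (rt z)), AlgEquiv.mul_apply,
      ← AlgEquiv.mul_apply g⁻¹, inv_mul_cancel, AlgEquiv.one_apply, g2 n ζ z]
  have w1 := mul_mem v1 (mul_mem (mul_mem s1 v1) (inv_mem s1))
  obtain ⟨i, hi⟩ := half
  refine ⟨(u * g * (s * (u * g) * s⁻¹)) ^ (i + 1) ^ 2, pow_mem w1 _, fun y hy => ?_,
    fun x hx => ?_⟩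
  · refine (MulAction.stabilizer GQ y).pow_mem (?_ : (u * g * (s * (u * g) * s⁻¹)) y = y) _
    rcases eq_or_ne y 0 with rfl | y0
    · exact map_zero _
    have f : ∀ t ∈ GK j, t (y ^ pp ^ n) = y ^ pp ^ n := fun t ht => by
      rcases hy with e | ⟨a, -, e⟩
      · rw [e, map_one]
      · rw [← e, ht]
    obtain ⟨b, b1, b0, b2⟩ := quo y0 (f _ v1)
    obtain ⟨d, d1, d0, d2⟩ := quo y0 (f _ (inv_mem s1))
    have e : (s * (u * g) * s⁻¹) y = b⁻¹ * y := by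
      rw [AlgEquiv.mul_apply, AlgEquiv.mul_apply, d2, map_mul, v2 d d1, b2, mul_left_comm, ← d2,
        map_mul, s2 n b b1, ← AlgEquiv.mul_apply, mul_inv_cancel, AlgEquiv.one_apply]
    rw [AlgEquiv.mul_apply, e, map_mul, map_inv₀, v2 b b1, b2, inv_mul_cancel_left₀ b0]
  have x1 : x 1 = 0 := hx.ker 1 (one_mem _)
  have xi : ∀ t ∈ GK j, x t + x t⁻¹ = 0 := fun t ht => by
    rw [← hx.add t ht _ (inv_mem ht), mul_inv_cancel, x1]
  have xp : ∀ t ∈ GK j, ∀ k : ℕ, x (t ^ k) = k * x t := fun t ht k => by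
    induction k with
    | zero => simp [x1]
    | succ k ih => rw [pow_succ, hx.add _ (pow_mem ht k) t ht, ih]; push_cast; ring
  have xu := hx.ker _ m
  rw [hx.add _ u1 _ (inv_mem hg)] at xu
  rw [xp _ w1, hx.add _ v1 _ (mul_mem (mul_mem s1 v1) (inv_mem s1)),
    hx.add _ (mul_mem s1 v1) _ (inv_mem s1), hx.add _ s1 _ v1, hx.add _ u1 _ hg]
  have t3 : (2 * i + 1 : ZMod pp) = 0 := by
    have := congrArg (Nat.cast : ℕ → ZMod pp) hi
    rw [ZMod.natCast_self] at this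
    exact_mod_cast this.symm
  push_cast
  linear_combination (i + 1) ^ 2 * (2 * xu - 2 * xi g hg + xi s s1) + (2 * i + 3) * x g * t3

end Vale.Agent.P014Z.Rp
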