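import Vale.Agent.P014Z.Rp.Low

/-!
# P014Z, a rational point of order `p`: one level of the tower
-/

set_option autoImplicit false
set_option linter.all false

open NumberField
open scoped Pointwise PowerSeries

noncomputable section

namespace Vale.Agent.P014Z.Rp

open Vale.Agent.P022 P027H P027M.M P004K P014U
open Vale.Agent.P022D.W (dec phi_mem)
open Vale.Agent.P022E.GW (Ov Fb)
open Vale.Agent.P022K.G2 (Tv oz)

variable [Pp]

namespace Le

theorem cs_eq {S : Finset ℕ} {L : List ℕ} (nd : L.Nodup) (h : L.toFinset = S.erase pp) :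
    cs L = (S.erase pp).card + (S.filter fun p => p % pp = 1).card := by
  rw [cs, ← h, List.toFinset_card_of_nodup nd, ← List.toFinset_card_of_nodup (nd.filter _),
    List.toFinset_filter, h]
  congr 2
  ext p
  simp only [Finset.mem_filter, Finset.mem_erase, decide_eq_true_eq]
  exact ⟨fun k => ⟨k.1.2, k.2⟩, fun k => ⟨⟨fun z => by simp [z] at k, k.1⟩, k.2⟩⟩

theorem arith {a b l s t : ℕ} (h1 : pp ^ (l + 2 * s) ≤ b) (h2 : pp ^ (2 * t) * b ≤ pp ^ (2 * s) * a) :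
    pp ^ (2 * (l + (s + t))) ≤ a * b := by
  have h : pp ^ (2 * s) * pp ^ (l + 2 * t) ≤ pp ^ (2 * s) * a :=
    le_trans (le_of_eq_of_le (by ring) (Nat.mul_le_mul_left _ h1)) h2
  exact le_of_eq_of_le (by ring)
    (Nat.mul_le_mul (Nat.le_of_mul_le_mul_left h (pow_pos pp_pos _)) h1)

theorem hs_inv {U : Subgroup GQ} (nm : U.Normal) {s : 𝓞 Qb} (fx : ∀ g ∈ U, g • s = s) (φ g u : GQ)
    (hu : u ∈ U) : hs φ s (g * u) = hs φ s g := by
  have k : ∀ u ∈ U, u (s : Qb) = s := fun u hu => congrArg Subtype.val (fx u hu)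
  rw [hs, hs, show g * u * φ = g * φ * (φ⁻¹ * u * φ⁻¹⁻¹) by group, AlgEquiv.mul_apply g u,
    AlgEquiv.mul_apply (g * φ), k u hu, k _ (nm.conj_mem u hu _)]

theorem vn_24 {P : Ideal (𝓞 Qb)} (hP : P.IsPrime) {R : Finset GQ} {n l : ℕ} {e : GQ → ZMod n}
    {h h' : GQ → Qb} (k : ∀ g ∈ R, Zp P (24 * h g + h' g)) (v : Vn P R e h l) : Vn P R e h' l := by
  refine Lw.vn_congr hP (h := fun g => -24 * h g) (fun g hg => ?_) fun i hi => ?_
  · convert Lw.zp_int (-1) (k g hg) using 1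
    push_cast
    ring
  · convert Lw.zp_int (-24) (v i hi) using 1
    rw [Finset.mul_sum]
    refine Finset.sum_congr rfl fun g _ => ?_
    push_cast
    ring

end Le

open Lw Le

/-- **one level**: the order of the analytic element against the size of the Selmer group -/
theorem lev (r1' : P004K.RC1) (alg : ALG) (low : LOW) (shf : SHF) (mul : MUL) (gdr : GDR) :
    LEV := by
  classical
  intro p3 K _ _ j S k
  obtain ⟨C, hC⟩ := alg K j S k
  refine ⟨2 * C + 2, fun c M e y hk P φ hP sl => ?_⟩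
  have o3 := (hP pp y.thr).1
  have d3 := ((y.spl pp y.thr).2.2 _ o3).1
  have c0 : 0 < c := Nat.pos_of_ne_zero y.sq.ne_zero
  have m2 : 2 * M ≤ (pp - 1) * M := Nat.mul_le_mul_right _ (by have := two_lt; omega)
  have m3 : 3 * M ≤ pp * M := Nat.mul_le_mul_right _ two_lt
  have hC' := hC c M e y hk _ o3 sl
  obtain ⟨q, hq, qc⟩ := Nat.exists_prime_and_dvd y.one.ne'
  obtain ⟨Q, oQ⟩ := P004R.Mu.ex_pl hq
  have mq := Finset.mem_union_right S (Nat.mem_primeFactors.2 ⟨hq, qc, c0.ne'⟩)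
  have ml := fun (A : Type) [CommRing A] (ρ : (ZMod pp)⟦X⟧ →+* A) J (t : Tq ρ J) (J0 : 0 < J)
      (JM : J ≤ pp * M) b gb fv dt =>
    have g := gdr K j c M e S y A ρ J t JM
    mul A ρ J t J0 _ _ _ b _ g.1 gb fv dt o3 d3
      ⟨q, mq, (y.ram q Q oQ qc).1, Q, oQ, (g.2.2.1 q mq Q oQ).1, (g.2.2.1 q mq Q oQ).2.1⟩
  refine ⟨fun A _ ρ J t JM b gb fv dt => ?_, fun hM z us j1 L nd hL => ?_⟩
  · rcases J.eq_zero_or_pos with rfl | J0
    · have : Subsingleton A := subsingleton_of_zero_eq_one (by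
        rw [← map_one ρ]; exact ((t.ker 1).2 (by simp)).symm)
      exact ⟨inferInstance, (Finite.card_le_one_iff_subsingleton.2 inferInstance).trans
        (Nat.one_le_pow _ _ pp_pos)⟩
    obtain ⟨a1, a2, -⟩ := ml A ρ J t J0 JM b gb fv dt
    exact ⟨a1, a2.trans ((hC' A ρ J t JM).2.2.1.trans (Nat.pow_le_pow_right pp_pos (by omega)))⟩
  obtain ⟨f1, f2, le, rel, mono⟩ := hC' _ _ _ (tq (pp * M)) le_rfl
  have le' := (Nat.le_mul_of_pos_left _ Nat.card_pos).trans le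
  obtain ⟨-, op, nm, cm, -⟩ := r1' K j y.iq c c0
  obtain ⟨R, tv⟩ := P022K.G2.ex_tv (Γ := GK j) (U := Hc j c) fun k => P022K.G2.Plc.idx op
    (Subgroup.index_eq_zero_of_relIndex_eq_zero k)
  have lo := low p3 K j S c M e y _ _ o3 (hP pp y.thr).2 z us j1 R tv _ _ (tq (pp * M)) f2
    (le'.trans_lt (Nat.pow_lt_pow_right one_lt (by omega)))
  have bd : ∀ l, l + 1 ≤ (pp - 1) * M → Vn (P pp) R e (hs (φ pp) z) l → 2 * (l + cs L) ≤ C :=
    fun l hl v => (Nat.pow_le_pow_iff_right one_lt).1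
      ((cs_eq nd hL ▸ arith (lo l hl v) (rel (by omega))).trans le)
  have nC : ¬ Vn (P pp) R e (hs (φ pp) z) (C + 1) := fun v =>
    absurd (bd (C + 1) (by omega) v) (by omega)
  have ex : ∃ l, ¬ Vn (P pp) R e (hs (φ pp) z) (l + 1) := ⟨C, nC⟩
  have v : Vn (P pp) R e (hs (φ pp) z) (Nat.find ex) := fun i hi =>
    not_not.1 (Nat.find_min ex hi) i (Nat.lt_succ_self i)
  have nv := Nat.find_spec ex
  have lC : Nat.find ex ≤ C := Nat.find_min' ex nC
  generalize Nat.find ex = l at v nv lC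
  have l1 := bd l (by omega) v
  have iv := hs_inv nm us.fix (φ pp)
  refine ⟨l + cs L, fun R' tv' h hh w => nv fun i hi => ?_, fun A _ ρ J t J2 JM b gb fv dt => ?_⟩
  · obtain ⟨m, rfl⟩ := y.pow
    rw [← tv.sum_of R' id tv'.mem tv'.ex tv'.un _ fun g hg u hu hu' => by
      rw [iv g u hu', y.add g hg u hu, y.ker u hu', add_zero]]
    refine shf _ _ R' _ e _ _ φ L _ tv' inf_le_left cm y.add y.ker o3
      (fun g hg => ⟨j1 g hg, iv g⟩) (fun p hp => ?_) (by omega)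
      (by rw [Nat.add_right_comm]; exact vn_24 o3.2.1 hh w) i hi
    obtain ⟨p3, ps⟩ := Finset.mem_erase.1 (hL ▸ List.mem_toFinset.2 hp)
    obtain ⟨o, f⟩ := hP p ps
    obtain ⟨d, u⟩ := (y.spl p ps).2.2 _ o
    exact ⟨fun z => p3 ((Nat.prime_dvd_prime_iff_eq pp_prime o.1).1 z).symm,
      d (phi_mem o.1 o.2.1 f), u _ f⟩
  · obtain ⟨-, -, le2, rel2, -⟩ := hC' A ρ J t JM
    refine le_trans ?_ ((ml A ρ J t (by omega) JM b gb fv dt).2.2 C (by omega) le2)
    rw [cs_eq nd hL]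
    exact arith ((lo l (by omega) v).trans (mono A ρ J t (by omega) JM)) (rel2 (by omega))

end Vale.Agent.P014Z.Rp
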