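import Vale.Agent.P014Z.Rp.St2
import Vale.Agent.P014Z.Ra.Lex0

/-!
# P014Z, block Rp: row LEX (helper27)
-/

set_option autoImplicit false
set_option linter.all false

open NumberField PowerSeries

noncomputable section

namespace Vale.Agent.P014Z.Rp

open Vale.Agent.P022 Vale.Agent.P014U
open Ra.Lx (res card kill)

variable [Pp]

theorem lex : LEX := by
  intro Γ S α hα k
  obtain ⟨C, hC⟩ := res (.of hα.toGd hα.thr) k
  refine ⟨C, fun T R _ ρ J χ P hk h hG d => ?_⟩
  obtain ⟨f0, f3⟩ := hC T P hk fun l m => hG.pr l (Finset.mem_union_right _ m)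
  obtain ⟨a, b⟩ := card (T := S ∪ T) (P := P) h d
  refine ⟨a, fun i m => (b i m).trans ?_, fun i m z hz g => kill m (fun r l a a' Q o =>
    (hz l a a' Q o).elim fun y e => ⟨r * y, fun g hg => ?_⟩) g,
    fun m R' _ ρ' J' χ' h' l _ d' => ?_⟩
  · rw [pow_mul]
    exact Nat.pow_le_pow_left f3 i
  · show r * z.1.1 g 0 = _
    rw [e g hg, mul_left_comm]
  · obtain ⟨f, hf⟩ := Ra.Lx.lift (T := S ∪ T) (P := P) h' l d'
    have := (card (T := S ∪ T) (P := P) h' d').1
    exact (b 1 m).trans ((pow_one _).trans_le (Nat.card_le_card_of_injective f hf))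

end Vale.Agent.P014Z.Rp
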