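import Vale.Agent.P004R.Lfb

/-!
# P014Z: the series of a primitive ring class character (any order)
-/

set_option autoImplicit false
set_option linter.all false

open UpperHalfPlane NumberField Set

noncomputable section

namespace Vale.Agent.P014Z.Rp.Lb

open Vale.Agent.P022 (Qb GQ GK below)
open P027H P027M.M P004K P004K.Rc P004K.Gm
open Vale.Agent.P027M.S (Inert LI)
open Vale.Agent.P022K.G2 (Tv)
open Vale.Agent.P022E.GW (Ov)
open Vale.Agent.P004R (Ze)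
open Vale.Agent.P004R.Lb (TT hs_TT disc Sg Sg_mul ze_sum)

variable {K : Type} [Field K] [NumberField K] {j : K →+* Qb} {c : ℕ} {X : GQ → ℂ}
  {θ : Ideal (𝓞 K) → ℂ} {s : ℝ} {R : Finset GQ}

theorem li_eq (r2 : RC2) (iq : Iq K) (c0 : 0 < c) (z : ∀ I, ¬ Cop c I → θ I = 0)
    (e : ∀ I g, Cop c I → Ar j c I g → θ I = X g) (t : Tv (GK j) (Hc j c) R) (hs : 1 < s) :
    LI θ s = ∑ g ∈ R, X g * TT (Sg j c g) s := by
  obtain ⟨h1, -, -, h4, -⟩ := r2 K j iq c c0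
  have a (g : GQ) : HasSum ((Sg j c g).indicator fun I => (Ideal.absNorm I : ℝ) ^ (-s))
      (TT (Sg j c g) s) := hasSum_subtype_iff_indicator.1 (hs_TT hs (Sg j c g))
  have := hasSum_sum (s := R) fun g _ => (Complex.hasSum_ofReal.2 (a g)).mul_left (X g)
  rw [LI, (Subtype.val_injective (p := fun I : Ideal (𝓞 K) => I ≠ ⊥)).tsum_eq
    (f := fun I => θ I * (Ideal.absNorm I : ℂ) ^ (-(s : ℂ))) fun I hI =>
      ⟨⟨I, (not_not.1 fun a : ¬Cop c I => hI (by simp only [z I a, zero_mul])).1⟩, rfl⟩, ← this.tsum_eq]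
  refine tsum_congr fun I => ?_
  by_cases h : Cop c I
  · obtain ⟨g, a⟩ := h1 I h
    obtain ⟨r, hr, b⟩ := t.ex g a.1
    have m : I ∈ Sg j c r := ⟨h, (h4 I g r a).2 (by simpa using inv_mem b)⟩
    rw [Finset.sum_eq_single_of_mem r hr fun r' hr' ne => by
      rw [indicator_of_notMem fun m' => ne (t.un _ hr' _ hr ((h4 I _ _ m'.2).1 m.2))]
      simp, indicator_of_mem m, e I r h m.2, Complex.ofReal_cpow (Nat.cast_nonneg _)]
    simp
  · rw [z I h, zero_mul]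
    refine (Finset.sum_eq_zero fun g _ => ?_).symm
    rw [indicator_of_notMem fun m => h m.1]
    simp

theorem vanish (r1 : P004K.RC1) (r2 : RC2) (iq : Iq K) (sq : Squarefree c)
    (mul : ∀ g ∈ GK j, ∀ h ∈ GK j, X (g * h) = X g * X h)
    (ker : ∀ g ∈ GK j, ∀ u ∈ Hc j c, X (g * u) = X g)
    (ram : ∀ l P, Ov l P → l ∣ c → ∃ u ∈ GK j, Inert P u ∧ X u ≠ 1) (t : Tv (GK j) (Hc j c) R)
    {c' m : ℕ} (h : c' * m = c) (m1 : m ≠ 1) : ∑ g ∈ R, X g * TT (Sg j c' g) s = 0 := by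
  obtain ⟨l, hl, d⟩ := Nat.exists_prime_and_dvd m1
  have c0 := Nat.pos_of_ne_zero sq.ne_zero
  have p1 := Nat.pos_of_mul_pos_right (h ▸ c0 : 0 < c' * m)
  have p2 := Nat.pos_of_mul_pos_left (h ▸ c0 : 0 < c' * m)
  have hp : (Ideal.span {(l : ℤ)}).IsPrime :=
    (Ideal.span_singleton_prime (by exact_mod_cast hl.ne_zero)).2 (Nat.prime_iff_prime_int.1 hl)
  obtain ⟨P, h1, h2⟩ := Ideal.exists_ideal_over_prime_of_isIntegral_of_isDomain (S := 𝓞 Qb)
    (Ideal.span {(l : ℤ)}) (by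
      rw [(RingHom.injective_iff_ker_eq_bot _).1 (algebraMap ℤ (𝓞 Qb)).injective_int]
      exact bot_le)
  have h3 : (l : 𝓞 Qb) ∈ P := by
    have : (l : ℤ) ∈ P.comap (algebraMap ℤ (𝓞 Qb)) := h2 ▸ Ideal.mem_span_singleton_self _
    rwa [Ideal.mem_comap, map_natCast] at this
  obtain ⟨u, ug, hu, e1⟩ := ram l P ⟨hl, h1, h3⟩ (h ▸ d.mul_left _)
  have co : c'.Coprime l := (Nat.coprime_of_squarefree_mul (h ▸ sq)).coprime_dvd_right d
  have a := (r2 K j iq c' p1).2.2.2.2.2.2 P h1 (fun z => by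
    rw [z, Ideal.mem_bot] at h3
    exact hl.ne_zero (Nat.cast_eq_zero.1 h3)) (fun z => h1.ne_top (by
      obtain ⟨x, y, w⟩ := (Nat.isCoprime_iff_coprime.2 co).map (Int.castRingHom (𝓞 Qb))
      rw [Ideal.eq_top_iff_one, ← w]
      exact P.add_mem (P.mul_mem_left _ (by simpa using z)) (P.mul_mem_left _ (by simpa using h3))))
    u ug 0 fun x => by simpa using hu x
  have uc : u ∈ Hc j c' := ((r2 K j iq c' p1).2.2.2.2.1 _ u (by simpa using cop_top) a).2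
    ⟨1, 0, by simp⟩
  have nm := (r1 K j iq c c0).2.2.1
  have w := t.sum_mul' (fun g _ v hv => nm.conj_mem v hv g) ug
    (fun g => X g * TT (Sg j c' g) s) fun y hy v _ hv => by
      rw [ker y hy v hv, Sg_mul r2 iq p1 ((r1 K j iq c' p1).2.2.2.2.2 m p2 (h ▸ hv))]
  rw [Finset.sum_congr rfl (g := fun g => X u * (X g * TT (Sg j c' g) s)) fun g hg => by
    rw [mul g (t.mem g hg) u ug, Sg_mul r2 iq p1 uc]; ring, ← Finset.mul_sum] at w
  exact eq_zero_of_mul_eq_self_left e1 w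

/-- **the series of a primitive character is a sum of Epstein zeta functions** -/
theorem lfb0 (r1 : P004K.RC1) (r2 : RC2) (hI : IQ) (iq : Iq K) (up : Upm K) (sq : Squarefree c)
    (mul : ∀ g ∈ GK j, ∀ h ∈ GK j, X (g * h) = X g * X h)
    (ker : ∀ g ∈ GK j, ∀ u ∈ Hc j c, X (g * u) = X g)
    (ram : ∀ l P, Ov l P → l ∣ c → ∃ u ∈ GK j, Inert P u ∧ X u ≠ 1)
    (z : ∀ I, ¬ Cop c I → θ I = 0) (e : ∀ I g, Cop c I → Ar j c I g → θ I = X g)
    (t : Tv (GK j) (Hc j c) R) {τ : GQ → ℍ} (hτ : ∀ g ∈ R, jL (lat (τ g)) = io (g (jc j c)))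
    (hs : 1 < s) : LI θ s = 1 / 2 * ((c * √|(discr K : ℝ)| / 2) ^ (-s) : ℝ) *
      ∑ g ∈ R, X g * Ze (τ g) s := by
  obtain ⟨ω, w1, w2⟩ := hI K j iq
  obtain ⟨σ, q⟩ := ex_qd (J := JJ j) ((io_inj.comp j.injective).comp
    (RingOfIntegers.coe_injective (K := K))) w1 w2
  have c0 := Nat.pos_of_ne_zero sq.ne_zero
  have A := mul_pos (Nat.cast_pos.2 c0) q.im
  rw [li_eq r2 iq c0 z e t hs, disc q, mul_div_assoc, mul_div_cancel_left₀ _ two_ne_zero]
  have e1 : ∑ g ∈ R, X g * (Ze (τ g) s : ℂ) =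
      ∑ p ∈ c.divisorsAntidiagonal, (((c * (JJ j ω).im) ^ s * ((p.2 : ℝ) ^ 2) ^ (-s) * 2 : ℝ) : ℂ) *
        ∑ g ∈ R, X g * TT (Sg j p.1 g) s := by
    simp only [Finset.mul_sum]
    rw [Finset.sum_comm]
    refine Finset.sum_congr rfl fun g hg => ?_
    rw [ze_sum r2 iq up q c0 hs (t.mem g hg) (hτ g hg)]
    simp only [Finset.mul_sum, Complex.ofReal_sum, Complex.ofReal_mul]
    exact Finset.sum_congr rfl fun p _ => by ring
  rw [e1, Finset.sum_eq_single_of_mem (c, 1) (by simp [c0.ne']) fun p hp ne => by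
    have h := (Nat.mem_divisorsAntidiagonal.1 hp).1
    rw [vanish r1 r2 iq sq mul ker ram t h fun z => ne (Prod.ext (by rw [← h, z, mul_one]) z),
      mul_zero],
    ← mul_assoc, mul_assoc (1 / 2 : ℂ), ← Complex.ofReal_mul, ← mul_assoc, ← mul_assoc,
    ← Real.rpow_add A]
  simp

/-- the additive characters -/
theorem ze_mul {N : ℕ} (N0 : 0 < N) (k : ℕ) (a b : ZMod N) :
    ze N (k * (a + b).val) = ze N (k * a.val) * ze N (k * b.val) := by
  have : NeZero N := ⟨N0.ne'⟩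
  rw [(ze_eq (k' := k * a.val + k * b.val) N0).2 (by
    rw [← ZMod.intCast_zmod_eq_zero_iff_dvd]; simp [mul_add]), ze, ze, ze, ← Complex.exp_add]
  congr 1
  push_cast
  ring

theorem ze_ne {N k : ℕ} (N1 : 1 < N) (h : ¬ N ∣ k) : ze N (k * (1 : ZMod N).val) ≠ 1 := fun z => by
  have : Fact (1 < N) := ⟨N1⟩
  rw [ZMod.val_one, show (1 : ℂ) = ze N 0 by simp [ze], ze_eq (by omega)] at z
  exact h (Int.natCast_dvd_natCast.1 (by simpa using z))

open Classical in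
/-- the form for a character of order `N` -/
theorem lfb1 (r1 : P004K.RC1) (r2 : RC2) (hI : IQ) (iq : Iq K) (up : Upm K) (sq : Squarefree c)
    {N k : ℕ} {e : GQ → ZMod N} (N1 : 1 < N) (hk : ¬ N ∣ k)
    (add : ∀ g ∈ GK j, ∀ h ∈ GK j, e (g * h) = e g + e h) (ker : ∀ g ∈ Hc j c, e g = 0)
    (ram : ∀ l P, Ov l P → l ∣ c → ∃ u ∈ GK j, Inert P u ∧ e u = 1)
    (t : Tv (GK j) (Hc j c) R) {τ : GQ → ℍ} (hτ : ∀ g ∈ R, jL (lat (τ g)) = io (g (jc j c)))
    (hs : 1 < s) : LI (fun I => if h : Cop c I ∧ ∃ g, Ar j c I g then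
      ze N (k * (e h.2.choose).val) else 0) s = 1 / 2 * ((c * √|(discr K : ℝ)| / 2) ^ (-s) : ℝ) *
      ∑ g ∈ R, ze N (k * (e g).val) * Ze (τ g) s := by
  have kr : ∀ g ∈ GK j, ∀ u ∈ Hc j c, e (g * u) = e g := fun g m u n => by
    rw [add g m u n.1, ker u n, add_zero]
  refine lfb0 (X := fun g => ze N (k * (e g).val)) r1 r2 hI iq up sq
    (fun g m h n => by rw [add g m h n, ze_mul (by omega)]) (fun g m u n => by rw [kr g m u n])
    (fun l P o d => (ram l P o d).imp fun u h => ⟨h.1, h.2.1, by rw [h.2.2]; exact ze_ne N1 hk⟩)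
    (fun I h => dif_neg fun a => h a.1) (fun I g h a => ?_) t hτ hs
  have b : Cop c I ∧ ∃ g, Ar j c I g := ⟨h, g, a⟩
  rw [dif_pos b, ← mul_inv_cancel_left b.2.choose g, kr _ b.2.choose_spec.1 _
    (((r2 K j iq c (Nat.pos_of_ne_zero sq.ne_zero)).2.2.2.1 I _ _ b.2.choose_spec).1 a)]

end Vale.Agent.P014Z.Rp.Lb
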