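import Vale.Agent.P014Z.Rp.St
import Vale.Agent.P014Z.Rp.Lfb0

/-! # P014Z, block Rp, row LFB -/

set_option autoImplicit false
set_option linter.all false

namespace Vale.Agent.P014Z.Rp

open P004K P014U

variable [Pp]

/-- row LFB -/
theorem lfb (r1 : P004K.RC1) (r2 : RC2) (iq : IQ) : LFB := fun K _ _ j c M e L R t τ hτ k hk s hs => by
  obtain ⟨m, hm⟩ := L.pow
  refine Lb.lfb1 r1 r2 iq L.iq L.upm L.sq (hm ▸ one_lt_mul_of_lt_of_le pp_prime.one_lt
    (Nat.one_le_pow _ _ pp_prime.pos)) (fun d => hk ((dvd_mul_right _ _).trans d)) L.add L.ker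
    (fun l P o d => ?_) t hτ hs
  obtain ⟨-, le, u, hu, e1⟩ := L.ram l P o d
  exact ⟨u, le fun x => ⟨fun a => by simpa using P.sub_mem a (hu x),
    fun a => by simpa using P.add_mem (hu x) a⟩, hu, e1⟩

end Vale.Agent.P014Z.Rp
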