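import Vale.Agent.P014Z.Rp.St
import Vale.Agent.P014Z.Rp.Lin0

/-!
# P014Z, a rational point of order `p`: the rows `LIN`, `CBR`, `PLS` (helper28)
-/

set_option autoImplicit false
set_option linter.all false

namespace Vale.Agent.P014Z.Rp

open P014U

variable [Pp]

/-- **row `LIN`** -/
theorem lin : LIN := fun d D => Li.lin0 d D

/-- **row `CBR`** -/
theorem cbr : CBR := fun q l Q L φ ψ a b c d e _ f => Li.cbr0 q l Q L φ ψ a b c d e f

/-- **row `PLS`** -/
theorem pls : PLS := Li.pls0 pp_odd

end Vale.Agent.P014Z.Rp
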