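import Vale.Agent.P004R.Loc

/-!
# P014Z, route Rp: the local indices at an odd prime, without the words
-/

set_option autoImplicit false
set_option linter.all false

open NumberField Module Ideal Function

namespace Vale.Agent.P014Z.Rp.Lo

open P004R (ua CU up Ip Gp)
open P004R.Lo (idx_dvd tot_pow ip_mem ip_ne ip_ne' Fr st_pow dl dl_mul cop_up)
open P004R.Rg (ua_mul coe_ua)

variable {p : ℕ}

theorem relp {G : Type*} [CommGroup G] [Finite G] {N A : Subgroup G} {o : ℕ} (hp : p.Prime)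
    (ho : ¬ p ∣ o) (h : ∀ x ∈ A, x ^ o ∈ N) : ¬ p ∣ N.relIndex A := fun e => by
  have : Fact p.Prime := ⟨hp⟩
  obtain ⟨y, hy⟩ := exists_prime_orderOf_dvd_card' (G := A ⧸ N.subgroupOf A) p e
  obtain ⟨g, rfl⟩ := QuotientGroup.mk_surjective y
  refine ho (hy ▸ orderOf_dvd_of_pow_eq_one ?_)
  rw [← QuotientGroup.mk_pow]
  exact (QuotientGroup.eq_one_iff _).2 (h g g.2)

section ring

variable {R : Type} [CommRing R] [IsDedekindDomain R] {V V' : Ideal R}

theorem thr (e : V * V' = span {(p : R)}) : (p : R) ∈ V :=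
  (mul_le_left (I := V) (J := V')) (by rw [e]; exact mem_span_singleton_self _)

/-- roots of one modulo `V ^ 2` -/
theorem cb_one (hp : p.Prime) [hV : V.IsPrime] (e : V * V' = span {(p : R)})
    (c : V ⊔ V' = ⊤) {x : R} (h : x ^ p - 1 ∈ V ^ 2) : ∃ a : R, x - 1 - p * a ∈ V ^ 2 := by
  have y : x - 1 ∈ V := hV.mem_of_pow_mem p (by
    obtain ⟨r, hr⟩ := exists_add_pow_prime_eq hp (x - 1) 1
    rw [sub_add_cancel, one_pow] at hr
    convert sub_mem (pow_le_self two_ne_zero h) (V.mul_mem_right (r * (x - 1)) (thr e)) using 1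
    linear_combination -hr)
  have : V = span {(p : R)} ⊔ V ^ 2 := by
    rw [← e, sq, ← Ideal.mul_sup, sup_comm, c, mul_top]
  obtain ⟨_, ha, z, hz, k⟩ := Submodule.mem_sup.1 (this ▸ y)
  obtain ⟨a, rfl⟩ := mem_span_singleton'.1 ha
  exact ⟨a, by rwa [← k, mul_comm (p : R), add_sub_cancel_left]⟩

theorem cb_idx (hp : p.Prime) [Module.Free ℤ R] [Module.Finite ℤ R] [hV : V.IsPrime] (h0 : V ≠ ⊥)
    (e : V * V' = span {(p : R)}) (c : V ⊔ V' = ⊤) [Finite (R ⧸ V ^ 2)] :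
    (powMonoidHom p : (R ⧸ V ^ 2)ˣ →* _).range.index ≤ absNorm V := by
  have : Finite (R ⧸ V) := (absNorm_ne_zero_iff _).1 (absNorm_eq_zero_iff.not.2 h0)
  have k : ∀ g : (powMonoidHom p : (R ⧸ V ^ 2)ˣ →* _).ker, ∃ x a : R,
      Ideal.Quotient.mk (V ^ 2) x = g.1.1 ∧ x - 1 - p * a ∈ V ^ 2 := fun g => by
    obtain ⟨x, hx⟩ := Ideal.Quotient.mk_surjective g.1.1
    obtain ⟨a, ha⟩ := cb_one hp e c (x := x) (Ideal.Quotient.eq.1 (by
      rw [map_pow, hx, map_one, ← Units.val_pow_eq_pow_val]; exact congrArg Units.val g.2))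
    exact ⟨x, a, hx, ha⟩
  choose x a h1 h2 using k
  have inj : Injective fun g => Ideal.Quotient.mk V (a g) := fun g g' q => by
    refine Subtype.ext (Units.ext ?_)
    rw [← h1, ← h1]
    have u : p * (a g - a g') ∈ V ^ 2 := by
      rw [sq]
      exact mul_mem_mul (thr e) (Ideal.Quotient.eq.1 q)
    refine Ideal.Quotient.eq.2 ?_
    convert add_mem (sub_mem (h2 g) (h2 g')) u using 1
    ring
  rw [Subgroup.index_range]
  exact (Nat.card_le_card_of_injective _ inj).trans_eq rfl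

end ring

variable {F H : Type} [Field F] [NumberField F] [Field H] [NumberField H] [Algebra F H]
  {σ : H ≃ₐ[ℚ] H} {M l : ℕ} {w w' I J : Ideal (𝓞 F)} {x : 𝓞 H}

theorem dp_step {V : Ideal (𝓞 H)} (h2 : (p : 𝓞 H) ∈ V) (hV : ∀ x ∈ V, σ • x ∈ V) {u : (𝓞 H)ˣ}
    {z : 𝓞 H} (h : (u : 𝓞 H) - 1 - p * z ∈ V ^ 2) :
    (dl σ u : 𝓞 H) - 1 - p * (σ • z - z) ∈ V ^ 2 := by
  have a := st_pow hV 2 _ h
  rw [smul_sub, smul_sub, smul_one, smul_mul', ← dl_mul,
    show σ • (p : 𝓞 H) = p from map_natCast (MulSemiringAction.toRingHom _ (𝓞 H) σ) p] at a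
  rw [← unit_mul_mem_iff_mem _ u.isUnit]
  convert sub_mem (sub_mem a (mul_mem_left _ (1 + p * (σ • z - z)) h))
    (mul_mem_left _ (z * (σ • z - z)) (pow_mem_pow h2 2)) using 1
  ring

variable (p F σ M) in
/-- a cyclic pair of degree `p` -/
structure C0 : Prop where
  pr : p.Prime
  pos : 0 < M
  ord : σ ^ (p * M) = 1
  fix : ∀ x, (σ ^ M) x = x ↔ x ∈ Set.range (algebraMap F H)
  deg : finrank ℚ H = p * finrank ℚ F

variable (c : C0 p F σ M)
include c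

theorem fix_int {x : 𝓞 H} (h : (σ ^ M) x = x) : ∃ a : 𝓞 F, algebraMap (𝓞 F) (𝓞 H) a = x := by
  obtain ⟨y, hy⟩ := (c.fix _).1 h
  exact ⟨⟨y, (isIntegral_algebraMap_iff (algebraMap F H).injective).1 (hy ▸ x.isIntegral_coe)⟩,
    RingOfIntegers.ext hy⟩

theorem fix_unit {v : (𝓞 H)ˣ} (h : ua (σ ^ M) v = v) :
    v ∈ (Units.map (algebraMap (𝓞 F) (𝓞 H) : 𝓞 F →* 𝓞 H)).range := by
  obtain ⟨a, ha⟩ := fix_int c (x := v) (by rw [← coe_ua, h])
  obtain ⟨b, hb⟩ := fix_int c (x := (v⁻¹ : (𝓞 H)ˣ)) (by rw [← coe_ua, map_inv, h])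
  exact ⟨Units.mkOfMulEqOne a b (FaithfulSMul.algebraMap_injective (𝓞 F) (𝓞 H)
    (by rw [map_mul, ha, hb, map_one, v.mul_inv])), Units.ext ha⟩

theorem rk : finrank (𝓞 F) (𝓞 H) = p := by
  have a := finrank_mul_finrank ℚ F H
  rw [c.deg, IsFractionRing.finrank_eq (𝓞 F) F (𝓞 H) H] at a
  exact Nat.eq_of_mul_eq_mul_left finrank_pos (a.trans (mul_comm _ _))

theorem up_inj (h : up H I = up H J) : I = J := by
  have := congrArg (relNorm (𝓞 F)) h
  rwa [relNorm_algebraMap, relNorm_algebraMap, rk c, pow_left_inj c.pr.ne_zero] at this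

theorem cm : (up H I).comap (algebraMap (𝓞 F) (𝓞 H)) = I := up_inj c (map_comap_map _ _)

theorem nm_up : absNorm (up H I) = absNorm I ^ p := by rw [absNorm_algebraMap, rk c]

theorem ip_max {N : ℕ} (h : Ip σ N l w w') : w.IsMaximal :=
  have := h.pw
  IsPrime.isMaximal (cm c (I := w) ▸ comap_isPrime _ _) (ip_ne h)

theorem fr_smul {A : Ideal (𝓞 H)} (hA : ∀ x ∈ A, σ • x ∈ A) (h : Fr F A x) : Fr F A (σ • x) := by
  obtain ⟨a, ha⟩ := h
  obtain ⟨b, hb⟩ := fix_int c (x := σ • algebraMap (𝓞 F) (𝓞 H) a) (by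
    change (σ ^ M) (σ (algebraMap F H a)) = σ (algebraMap F H a)
    rw [← AlgEquiv.mul_apply, ← pow_succ, pow_succ', AlgEquiv.mul_apply, (c.fix _).2 ⟨_, rfl⟩])
  exact ⟨b, by rw [hb, ← smul_sub]; exact hA _ ha⟩

/-- the norm is a unit of `F` -/
theorem nrm (u : (𝓞 H)ˣ) : ∏ i ∈ Finset.range p, ua (σ ^ (M * i)) u ∈
    (Units.map (algebraMap (𝓞 F) (𝓞 H) : 𝓞 F →* 𝓞 H)).range := fix_unit c (by
  have a := Finset.prod_range_succ (fun i => ua (σ ^ (M * i)) u) p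
  rw [Finset.prod_range_succ', mul_comm M p, c.ord, mul_zero, pow_zero, mul_left_inj] at a
  rw [map_prod]
  refine Eq.trans (Finset.prod_congr rfl fun i _ => ?_) a
  rw [← ua_mul, ← pow_add, mul_add, mul_one, add_comm])

theorem cu_dl (u : (𝓞 H)ˣ) :
    u ^ p ∈ CU F σ (dl σ u) ∧ CU F σ u ≤ CU F σ (dl σ u) ⊔ Subgroup.zpowers u := by
  have k : ∀ i : ℕ, ua (σ ^ i) u / u ∈ CU F σ (dl σ u) := fun i => by
    induction i with
    | zero => exact (show ua (σ ^ 0) u / u = 1 from div_self' u) ▸ one_mem _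
    | succ i ih =>
      have := mul_mem (Subgroup.mem_sup_right (Subgroup.subset_closure ⟨i, rfl⟩) :
        ua (σ ^ i) (dl σ u) ∈ CU F σ (dl σ u)) ih
      rwa [dl, MonoidHom.div_apply, map_div, ← ua_mul, ← pow_succ, MonoidHom.id_apply,
        div_mul_div_cancel] at this
  refine ⟨?_, sup_le (le_sup_left.trans le_sup_left)
    ((Subgroup.closure_le _).2 (Set.range_subset_iff.2 fun i => ?_))⟩
  · have := div_mem (Subgroup.mem_sup_left (nrm c u) : _ ∈ CU F σ (dl σ u))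
      (prod_mem fun i (_ : i ∈ Finset.range p) => k (M * i))
    rwa [Finset.prod_div_distrib, div_div_cancel, Finset.prod_const, Finset.card_range] at this
  · exact div_mul_cancel (ua (σ ^ i) u) u ▸ Subgroup.mul_mem_sup (k i) (Subgroup.mem_zpowers u)

theorem gp_dvd : Nat.card (Gp F (up H I)) ∣ Nat.card (𝓞 F ⧸ I)ˣ := by
  refine (Subgroup.card_dvd_of_le (?_ : _ ≤ (Units.map (quotientMap (up H I)
    (algebraMap (𝓞 F) (𝓞 H)) le_comap_map : 𝓞 F ⧸ I →* 𝓞 H ⧸ up H I)).range)).trans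
      (Subgroup.card_range_dvd _)
  refine (Subgroup.closure_le _).2 fun g ⟨a, ha⟩ => ?_
  obtain ⟨b, hb⟩ := Ideal.Quotient.mk_surjective (g⁻¹ : (𝓞 H ⧸ up H I)ˣ).1
  have e : span {a} ⊔ I = ⊤ := up_inj c (by
    rw [up, up, Ideal.map_top, Ideal.map_sup, eq_top_iff_one]
    have : 1 - b * algebraMap _ _ a ∈ up H I :=
      Ideal.Quotient.eq.1 (by rw [map_mul, hb, ← ha, g.inv_mul, map_one])
    simpa using Submodule.add_mem_sup (mul_mem_left _ b
      (mem_map_of_mem (algebraMap (𝓞 F) (𝓞 H)) (mem_span_singleton_self a))) this)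
  obtain ⟨_, hx, y, hy, e⟩ := Submodule.mem_sup.1 ((eq_top_iff_one _).1 e)
  obtain ⟨x, rfl⟩ := mem_span_singleton'.1 hx
  exact ⟨Units.mkOfMulEqOne (Ideal.Quotient.mk I a) (Ideal.Quotient.mk I x) (Ideal.Quotient.eq.2
    (by rw [← e]; simpa [mul_comm] using hy)), Units.ext ha.symm⟩

theorem idx_it {G : Type} [CommGroup G] (N : Subgroup G) (π : (𝓞 H)ˣ →* G)
    (u : (𝓞 H)ˣ) (k : ℕ) : (N ⊔ (CU F σ ((dl σ)^[k] u)).map π).index ∣
      p ^ k * (N ⊔ (CU F σ u).map π).index := by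
  induction k with
  | zero => simp
  | succ k ih =>
    rw [iterate_succ_apply', pow_succ', mul_assoc]
    generalize (dl σ)^[k] u = t at ih
    refine (idx_dvd (x := π t) (Subgroup.mem_sup_right
      (Subgroup.mem_map.2 ⟨_, (cu_dl c t).1, map_pow π t p⟩))).trans
        (mul_dvd_mul_left _ ((Subgroup.index_dvd_of_le ?_).trans ih))
    rw [sup_assoc, ← MonoidHom.map_zpowers, ← Subgroup.map_sup]
    exact sup_le_sup_left (Subgroup.map_mono (cu_dl c t).2) _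

variable {v v' : Ideal (𝓞 F)} {N : ℕ} (P : Ip σ N p v v')
include P

theorem gp_idx : p ^ ((p - 1) * N) ∣ (Gp F (up H v ^ 2)).index := by
  have := ip_max c P
  have := P.pw.isMaximal (ip_ne' P)
  have tH := tot_pow (ip_ne' P) 1
  have tF := tot_pow (ip_ne P) 1
  have a := gp_dvd c (I := v ^ 2)
  rw [up, Ideal.map_pow] at a
  replace a := mul_dvd_mul_right a (Gp F (up H v ^ 2)).index
  have n : 1 < p ^ N := P.nm ▸ lt_of_le_of_ne (Nat.pos_of_ne_zero
    (absNorm_eq_zero_iff.not.2 (ip_ne P))) fun e => ‹v.IsMaximal›.ne_top (absNorm_eq_one_iff.1 e.symm)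
  rw [Subgroup.card_mul_index, tH, tF, nm_up c, P.nm, pow_one, pow_one] at a
  rw [mul_comm (p - 1), pow_mul]
  generalize p ^ N = q at a n
  obtain ⟨s, hs⟩ := Nat.sub_one_dvd_pow_sub_one q p
  rw [hs, ← pow_sub_one_mul c.pr.ne_zero q] at a
  exact (dvd_mul_left _ s).trans (Nat.dvd_of_mul_dvd_mul_left
    (show 0 < (q - 1) * q from mul_pos (by omega) (by omega)) (Dvd.dvd.trans (dvd_of_eq (by ring)) a))

theorem fr_md {u : (𝓞 H)ˣ} {r o : ℕ} {y : 𝓞 F} (hx : (u : 𝓞 H) ^ o - 1 - p * x ∈ up H v ^ 2)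
    (hy : (fun z : 𝓞 H => σ • z - z)^[r] x - algebraMap (𝓞 F) (𝓞 H) y ∈ up H v) (i : ℕ) :
    Fr F (up H v ^ 2) ((ua (σ ^ i) ((dl σ)^[r] u) : 𝓞 H) ^ o) := by
  have t : (p : 𝓞 H) ∈ up H v := by
    simpa using mem_map_of_mem (algebraMap _ (𝓞 H)) (ip_mem P)
  have dp : ∀ k, ((dl σ)^[k] (u ^ o) : (𝓞 H)ˣ) - 1 - (p : 𝓞 H) * (fun z : 𝓞 H => σ • z - z)^[k] x ∈
      up H v ^ 2 := fun k => by
    induction k with
    | zero => exact hx
    | succ k ih =>
      rw [iterate_succ_apply', iterate_succ_apply']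
      exact dp_step t P.st ih
  induction i with
  | zero =>
    refine (⟨1 + p * y, ?_⟩ : Fr F _ ((((dl σ)^[r] u : (𝓞 H)ˣ) : 𝓞 H) ^ o))
    have a := dp r
    rw [iterate_map_pow] at a
    have b := mul_mem_mul t hy
    rw [← sq] at b
    convert add_mem a b using 1
    simp only [map_add, map_mul, map_one, map_natCast, Units.val_pow_eq_pow_val]
    ring
  | succ i ih =>
    have := fr_smul c (st_pow P.st 2) ih
    rw [smul_pow'] at this
    rw [pow_succ' σ]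
    exact this

/-- **the local indices** -/
theorem core : (powMonoidHom p : (𝓞 H ⧸ up H v ^ 2)ˣ →* _).range.index ≤ p ^ (p * N) ∧
    ∀ (u : (𝓞 H)ˣ) (r o : ℕ) (x : 𝓞 H) (y : 𝓞 F), ¬ p ∣ o →
      (u : 𝓞 H) ^ o - 1 - p * x ∈ up H v ^ 2 →
      (fun z : 𝓞 H => σ • z - z)^[r] x - algebraMap (𝓞 F) (𝓞 H) y ∈ up H v →
      p ^ ((p - 1) * N) ∣ p ^ r * (Gp F (up H v ^ 2) ⊔ (CU F σ u).map
        (Units.map (Ideal.Quotient.mk (up H v ^ 2) : 𝓞 H →* 𝓞 H ⧸ up H v ^ 2))).index := by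
  have : Finite (𝓞 H ⧸ up H v ^ 2) := (absNorm_ne_zero_iff _).1 (absNorm_eq_zero_iff.not.2
    (pow_ne_zero _ (ip_ne' P)))
  have := P.pw
  have e2 : up H v * up H v' = span {(p : 𝓞 H)} := by
    rw [← Ideal.map_mul, P.mul, map_span, Set.image_singleton, map_natCast]
  refine ⟨(cb_idx c.pr (ip_ne' P) e2 (cop_up (isCoprime_iff_sup_eq.2 P.cop)).sup_eq).trans_eq
    (by rw [nm_up c, P.nm]; ring), fun u r o x y ho hx hy => ?_⟩
  have g := fr_md c P hx hy
  have gp := gp_idx c P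
  refine Dvd.dvd.trans ?_ (idx_it c _ _ u r)
  generalize (dl σ)^[r] u = t at g
  rw [← Subgroup.relIndex_mul_index le_sup_left] at gp
  refine (Nat.Coprime.pow_left _ ((Nat.Prime.coprime_iff_not_dvd c.pr).2
    (relp c.pr ho ?_))).dvd_of_dvd_mul_left gp
  change _ ≤ (Gp F (up H v ^ 2)).comap (powMonoidHom o)
  refine sup_le (fun z hz => pow_mem hz o) (Subgroup.map_le_iff_le_comap.2 (sup_le ?_
    ((Subgroup.closure_le _).2 (Set.range_subset_iff.2 fun i => ?_))))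
  · rintro _ ⟨a, rfl⟩
    refine pow_mem (Subgroup.subset_closure ?_) o
    exact ⟨a, rfl⟩
  · obtain ⟨a, ha⟩ := g i
    exact Subgroup.subset_closure ⟨a, Ideal.Quotient.eq.2 ha⟩

end Vale.Agent.P014Z.Rp.Lo
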