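import Vale.Agent.P014Z.Rp.St0
import Vale.Agent.P014Z.Rp.Loc0

/-! # P014Z, route Rp: row LOC -/

set_option autoImplicit false
set_option linter.all false

namespace Vale.Agent.P014Z.Rp

open NumberField P014U

variable [Pp]

theorem Cp.c0 {F H : Type} [Field F] [NumberField F] [Field H] [NumberField H] [Algebra F H]
    {σ : H ≃ₐ[ℚ] H} {M : ℕ} (c : Cp F σ M) : Lo.C0 pp F σ M :=
  ⟨pp_prime, c.pow.elim fun _ h => h ▸ pow_pos pp_prime.pos _, c.ord, c.fix,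
    by rw [c.deg, c.deg']; ring⟩

theorem loc : LOC := fun _ _ _ _ _ _ _ _ _ _ _ c P =>
  ⟨(Lo.core c.c0 P).1, fun u r ⟨o, x, y, a, b, d⟩ => (Lo.core c.c0 P).2 u r o x y a b d⟩

end Vale.Agent.P014Z.Rp
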