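import Vale.Agent.P014Z.Rp.St2
import Vale.Agent.P014Z.Ra.Loi0

/-!
# P014Z, block Rp: the local indices
-/

set_option autoImplicit false
set_option linter.all false

namespace Vale.Agent.P014Z.Rp

open Vale.Agent.P014U

variable [Pp]

theorem loi : LOI := fun R _ ρ J q Γ T χ P G h => by
  obtain ⟨a, b⟩ := Ra.Li.loi0 q (P014Y.Pr.Ge.of G.toGd G.thr) P
    (fun l m n Q o => ⟨(h l m n Q o).1, (h l m n Q o).2.imp And.right id⟩) (Y0 Γ T χ P)
    fun _ => Iff.rfl
  exact ⟨a, fun j ki fin => b j (fun x g => by simpa using ki x g) fin _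
    fun l m n s => absurd (Finset.mem_erase.2 ⟨n, m⟩) s⟩

end Vale.Agent.P014Z.Rp
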