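import Vale.Agent.P014Z.Ml.Wd
import Vale.Agent.P014Y.Rd.Mu

/-!
# P014Z: the socle of a rank one group (helper29)
-/

set_option autoImplicit false
set_option linter.all false

open NumberField PowerSeries

noncomputable section

namespace Vale.Agent.P014Z.Rp.Mu

open Vale.Agent.P022 Vale.Agent.P014U
open Vale.Agent.P022D.W (dec)
open Vale.Agent.P022K.G2 (In)
open Ml
open P014Y.Rd.Mu (co2)

variable [Pp]

/-- **if no residual class lifts modulo `T ^ 2`, then `T` kills the group** -/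
theorem soc {R : Type} [CommRing R] {ρ : (ZMod pp)⟦X⟧ →+* R} {J : ℕ} (tq : Tq ρ J)
    {α : GQ → ZMod pp} {n : ℕ} {e : GQ → ZMod n} {Γ : Subgroup GQ} {T : Finset ℕ}
    {P : Ideal (𝓞 Qb)} (H : ∀ z z' : GQ → ZMod pp,
      (∀ g ∈ Γ, ∀ h ∈ Γ, z (g * h) = z g + α g * z h ∧
        z' (g * h) = z' g + α g * z' h + ((e g).val : ZMod pp) * α g * z h) →
      (∃ W : Subgroup GQ, IsOpen (W : Set GQ) ∧ ∀ w ∈ W, z w = 0 ∧ z' w = 0) →
      (∀ g ∈ In T, z g = 0 ∧ z' g = 0) → (∀ g ∈ Γ, g ∈ dec P → z g = 0 ∧ z' g = 0) →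
      ∀ g ∈ Γ, z g = 0) (z : Zr Γ T (tw ρ α (ch ρ e)) P) (g : GQ) : tt ρ * z.1.1 g 0 = 0 := by
  obtain ⟨z1, z2, ⟨W, hW, z3⟩, z4, z5⟩ := z.2
  choose Z hZ using fun g => tq.sur (z.1.1 g 0)
  have co : ∀ g ∈ Γ, ∀ g' ∈ Γ, X ^ J ∣
      Z (g * g') - Z g - C (α g) * ((1 + X) ^ (e g).val * Z g') := fun g a g' b => by
    rw [← tq.ker, map_sub, map_sub, map_mul, map_mul, map_pow, map_add, map_one, hZ, hZ, hZ,
      z1 g a g' b]
    simp [P004F.Pr.ac, P004R.r1, tw, ch, mul_assoc]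
  have st : ∀ i, i + 2 ≤ J → (∀ g, X ^ i ∣ Z g) → ∀ g, X ^ (i + 1) ∣ Z g := fun i hi d => by
    choose V hV using d
    have dv : ∀ w : (ZMod pp)⟦X⟧, X ^ J ∣ X ^ i * w → coeff 0 w = 0 ∧ coeff 1 w = 0 := fun w k => by
      have := (pow_dvd_pow X hi).trans k
      rw [pow_add, mul_dvd_mul_iff_left (pow_ne_zero i X_ne_zero), X_pow_dvd_iff] at this
      exact ⟨this 0 (by norm_num), this 1 (by norm_num)⟩
    have v0 : ∀ g, z.1.1 g = 0 → coeff 0 (V g) = 0 ∧ coeff 1 (V g) = 0 := fun g k =>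
      dv _ (by rw [← hV, ← tq.ker, hZ, k]; rfl)
    have fin := H (fun g => coeff 0 (V g)) (fun g => coeff 1 (V g)) (fun g a g' b => by
        have := dv (V (g * g') - V g - C (α g) * ((1 + X) ^ (e g).val * V g')) (by
          have k := co g a g' b
          rw [hV, hV g, hV g'] at k
          exact k.trans (dvd_of_eq (by ring)))
        simp only [map_sub, coeff_C_mul, co2] at this
        exact ⟨by linear_combination this.1, by linear_combination this.2⟩)
      ⟨W, hW, fun w m => v0 w (z3 w m)⟩ (fun g m => v0 g (z4 g m)) fun g a m => v0 g (by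
        rw [z5 () g ⟨a, m⟩]; funext i; simp [P004F.Pr.ac])
    intro g
    rw [hV, pow_succ]
    refine mul_dvd_mul_left _ (X_dvd_iff.2 ?_)
    rw [← coeff_zero_eq_constantCoeff_apply]
    by_cases m : g ∈ Γ
    exacts [fin g m, (v0 g (z2 g m)).1]
  have al : ∀ i, i + 1 ≤ J → ∀ g, X ^ i ∣ Z g := fun i => by
    induction i with
    | zero => exact fun _ g => by rw [pow_zero]; exact one_dvd _
    | succ i ih => exact fun hi => st i hi (ih (by omega))
  rw [← hZ, ← map_mul, tq.ker]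
  rcases J with _ | J
  · rw [pow_zero]; exact one_dvd _
  · rw [pow_succ']; exact mul_dvd_mul_left _ (al J le_rfl g)

end Vale.Agent.P014Z.Rp.Mu
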