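import Vale.Agent.P014Z.Rp.St2
import Vale.Agent.P014Z.Rp.Mu0

/-!
# P014Z, a rational point of order `p`, row MU: no free part (helper29)
-/

set_option autoImplicit false
set_option linter.all false

open NumberField

noncomputable section

namespace Vale.Agent.P014Z.Rp

open Vale.Agent.P022 P004K P014U
open Vale.Agent.P027M.S (Inert)
open Vale.Agent.P022D.W (dec exists_phi)
open Vale.Agent.P022E.GW (Ov Fb)
open Vale.Agent.P022K.G2
open P014Y.Rd.Mu (dgz trv)

variable [Pp]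

/-- **no free part** -/
theorem mu (r1 : RC1) (r2 : RC2) (kuk : KUK) (val : VAL) : MU := by
  intro K _ _ j c M e S h P o sl R _ ρ J tq _ z g
  have c0 : 0 < c := zero_lt_one.trans h.one
  have p0 : pp ≠ 0 := Pp.prime.ne_zero
  haveI : NeZero (pp * M) := ⟨by obtain ⟨m, rfl⟩ := h.pow; positivity⟩
  have eb' : ∀ g, eb e g = ZMod.castHom (dvd_mul_right pp M) (ZMod pp) (e g) := fun g => by
    rw [eb, ZMod.natCast_val, ZMod.castHom_apply]
  have ax : ∀ g ∈ GK j, ∀ h ∈ GK j, eb e (g * h) = eb e g + eb e h := fun g a g' b => by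
    rw [eb', eb', eb', h.add g a g' b, map_add]
  have x0 : ∀ g ∈ Hc j c, eb e g = 0 := fun g a => by rw [eb', h.ker g a, map_zero]
  have oH := (r1 K j h.iq c c0).2.1
  rw [pow_one]
  refine Mu.soc tq (fun v v' v1 ⟨W, hW, v0⟩ z4 z5 => ?_) z g
  obtain ⟨a, y, a0, hy, ky⟩ := kuk K j v (fun g a g' b => (v1 g a g' b).1)
    ⟨W, hW, fun w _ m => (v0 w m).1⟩
  have y1 : ∀ g ∈ GK j, v g = 0 → g y = y := fun g m k => by
    rw [ky g m, k, ZMod.val_zero, pow_zero, one_mul]
  have I := val K j h.iq c a y (eb e) v v' c0 a0 hy ky ax (fun g a g' b => (v1 g a g' b).2)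
    ⟨W ⊓ Hc j c, hW.inter oH, fun w _ m => ⟨x0 w m.2, (v0 w m.1).2⟩⟩ fun l Q q n => by
      by_cases s : l ∈ S
      · obtain ⟨le, u⟩ := (h.spl l s).2.2 Q q
        obtain ⟨φ, f⟩ := exists_phi q.1 q.2.1 q.2.2
        refine .inr ⟨le, fun g i => x0 g ?_, φ, f, ?_⟩
        · obtain ⟨-, -, -, -, a, -, b⟩ := r2 K j h.iq c c0
          have l0 : (l : 𝓞 Qb) ≠ 0 := by exact_mod_cast q.1.ne_zero
          have d := b Q q.2.1 (fun k => l0 (by simpa [k] using q.2.2))
            (fun k => n (by exact_mod_cast P004S.ov_dvd q (a := c) (by exact_mod_cast k))) g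
            (le (P004R.inert_dec q.2.1 i)) 0 fun x => by rw [pow_zero, pow_one]; exact i x
          rw [pow_zero, Ideal.one_eq_top] at d
          exact (a _ g (P004R.cop_top c) d).2 ⟨1, 0, by simp⟩
        · rw [eb']
          exact ((u φ f).map _).ne_zero
      · exact .inl ⟨fun k => s (k ▸ h.thr), fun g _ i => (z4 g ⟨l, fun k => by
          rcases Finset.mem_union.1 (Finset.mem_coe.1 k) with k | k
          exacts [s k, n (Nat.dvd_of_mem_primeFactors k)], Q, q, i⟩).1⟩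
  have le := ((h.spl pp h.thr).2.2 P o).1
  have h2 : (2 : ZMod pp) ≠ 0 := fun k => Pp.odd ((Nat.prime_dvd_prime_iff_eq Pp.prime
    Nat.prime_two).1 ((ZMod.natCast_eq_zero_iff 2 pp).1 (by exact_mod_cast k)))
  have fin := sl a y a0 hy I (fun g m => y1 g (le m) (z5 g (le m) m).1) fun q Q u n g m k => by
    obtain ⟨q1, lq, t, i, t1⟩ := h.ram q Q u n
    have oz1 : ∀ g ∈ dec Q, oz pp g = 1 := fun g m => mem_Gz.1 ((dgz u q1).2 m)
    refine y1 g (lq m) ?_
    rw [trv (x := eb e) (z := v) (z' := v') h2 u q1 (fun g a g' b => ax g (lq a) g' (lq b))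
      (fun g a g' b => by rw [(v1 g (lq a) g' (lq b)).1, oz1 g a, one_mul])
      (fun g a g' b => by rw [(v1 g (lq a) g' (lq b)).2, oz1 g a, one_mul, mul_one]; rfl)
      (W := W ⊓ Hc j c) (hW.inter oH)
      (fun w a _ => ⟨x0 w a.2, v0 w a.1⟩) i (by rw [eb', t1, map_one]) m, k, zero_mul]
  intro g m
  have y0 : y ≠ 0 := fun k => a0 (by
    rw [k, zero_pow p0, eq_comm, map_eq_zero] at hy
    exact RingOfIntegers.ext hy)
  have := ky g m
  rw [fin g m, eq_comm, mul_eq_right₀ y0] at this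
  exact pw_inj (by rw [this, ZMod.val_zero, pow_zero])

end Vale.Agent.P014Z.Rp
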