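import Vale.Agent.P014Z.Rp.St
import Vale.Agent.P014Y.Rd.Ph1

/-! # P014Z, η = 1: the classes of the first primes -/

set_option autoImplicit false
set_option linter.all false

noncomputable section

namespace Vale.Agent.P014Z.Rp

open NumberField Module
open Vale.Agent.P022 (Qb GQ GK)
open Vale.Agent.P022K.G2 P014U
open P014Y.Rd.Ph (prod_cg Ng cj ex_gen)

variable [Pp]

namespace Ph

theorem down {B : Set Qb} {n : ℕ} {g : GQ} (hn : 0 < n) (h : Fx B (pp ^ n) g) : Fx B pp g := by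
  obtain ⟨n, rfl⟩ := Nat.exists_eq_add_of_le' hn
  intro y e
  obtain ⟨z, rfl⟩ := IsAlgClosed.exists_pow_nat_eq y (pow_pos pp_pos n)
  rw [map_pow, h z (by rwa [pow_succ, pow_mul])]

end Ph

open Ph

/-- **the classes of the first primes** -/
theorem ph1 (ki0 : KI0) (kx : KX) : PH1 := by
  intro K _ _ j kd d x a A xc sur a0 _ fa n hn g₀ m₀ f₀
  obtain ⟨h', h1, h2⟩ := ex_gen (Ng j {1} (pp ^ n)) fun g i => ka pp (j (a i)) g
  let h : Fin (d + 1) → GQ := Fin.cons (g₀ * (List.ofFn h').prod⁻¹) h'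
  have hm : ∀ i, h i ∈ Ng j {1} (pp ^ n) := Fin.cases (mul_mem ⟨m₀, f₀⟩ (inv_mem
    (list_prod_mem fun g m => by obtain ⟨i, rfl⟩ := List.mem_ofFn.1 m; exact h1 i))) h1
  have ex : ∀ i, ∃ k ∈ Ng j (insert 1 (j '' A)) (pp ^ n),
      ∀ i', x i' k = (if i' = i then 1 else 0) - x i' (h i) := fun i => by
    obtain ⟨u, u1, u2⟩ := sur fun i' => (if i' = i then 1 else 0) - x i' (h i)
    obtain ⟨k, k1, k2, k3⟩ := kx K j kd A n (pp ^ 2) (pow_pos pp_pos 2) u u1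
    exact ⟨k, ⟨k1, k2⟩, fun i' => (k3 _ (xc i')).trans (u2 i')⟩
  choose k k1 k2 using ex
  refine ⟨fun i => h i * k i, fun i => ⟨mul_mem (hm i).1 (k1 i).1, fun y e => ?_, fun i' => ?_⟩,
    fun φ hφ => ?_⟩
  · rw [AlgEquiv.mul_apply, (k1 i).2 y (.inl e), (hm i).2 y e]
  · rw [(xc i').add _ (hm i).1 _ (k1 i).1, k2, add_sub_cancel]
  have w : ∀ i, (h i)⁻¹ * φ i ∈ Ng j (insert 1 (j '' A)) (pp ^ n) := fun i => by
    have := mul_mem (k1 i) (show (h i * k i)⁻¹ * φ i ∈ Ng j _ _ from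
      ⟨mul_mem (inv_mem (mul_mem (hm i).1 (k1 i).1)) (hφ i).1, (hφ i).2⟩)
    rwa [mul_inv_rev, mul_assoc, mul_inv_cancel_left] at this
  refine ⟨?_, fun m y e fy => ki0 K j kd _ y n e fun g g1 g2 => ?_⟩
  · have := (prod_cg (cj j A (pp ^ n)) h φ fun i => ⟨(hm i).1, w i⟩).2.2
    rwa [List.ofFn_succ (f := h), List.prod_cons, show h 0 = g₀ * (List.ofFn h').prod⁻¹ from rfl,
      show (fun i => h (Fin.succ i)) = h' from rfl, inv_mul_cancel_right] at this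
  have j0 : ∀ i, j (a i) ≠ 0 := fun i => (map_ne_zero j).2 (RingOfIntegers.coe_ne_zero_iff.2 (a0 i))
  let l : (Fin d → ZMod pp) →ₗ[ZMod pp] ZMod pp := ∑ i, (m i : ZMod pp) • LinearMap.proj i
  simp only [map_prod, map_pow] at e
  have key : ∀ g ∈ GK j, Fx {1} pp g → (l (fun i => ka pp (j (a i)) g) = 0 ↔ g y = y) :=
      fun g g1 g2 => by
    have z : g ∈ Gz pp := mem_Gz'.2 (g2 _ zt_pow)
    rw [← ka_eq_zero (Finset.prod_ne_zero_iff.2 fun i _ => pow_ne_zero _ (j0 i)) e z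
      (by simp only [map_prod, map_pow, g1 _]), ka_prod _ z fun i _ =>
        ⟨pow_ne_zero _ (j0 i), by rw [map_pow, g1]⟩]
    simp only [l, LinearMap.sum_apply, LinearMap.smul_apply, LinearMap.proj_apply, smul_eq_mul,
      ka_pow (j0 _) z (g1 _)]
  refine (key g g1 (down hn g2)).1 (h2 l (fun i => ?_) g ⟨g1, g2⟩)
  obtain ⟨w1, w2⟩ := w i.succ
  replace w2 := down hn w2
  have w3 : Fx {1} pp ((h i.succ)⁻¹ * φ i.succ) := fun y e => w2 y (.inl e)
  have z : (fun i' => ka pp (j (a i')) ((h i.succ)⁻¹ * φ i.succ)) = 0 := funext fun i' =>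
    (ka_eq_zero (j0 i') (rt_pow pp _) (mem_Gz'.2 (w3 _ zt_pow)) (w1 _)).2
      (fa i' _ _ w1 (rt_pow pp _) w2)
  have t := (key _ w1 w3).1 (by rw [z, map_zero])
  refine (key _ (h1 i).1 (down hn (h1 i).2)).2 ?_
  rw [← t, ← AlgEquiv.mul_apply, show h' i = h i.succ from rfl, mul_inv_cancel_left, t, fy]

end Vale.Agent.P014Z.Rp
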