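import Vale.Agent.P014Z.Rp.St2
import Vale.Agent.P014Z.Qf.Val
import Vale.Agent.P014Z.Qf.Ser

/-! # P014Z, a rational point of order `p`: the row QF -/

set_option autoImplicit false
set_option linter.all false

open UpperHalfPlane NumberField CongruenceSubgroup PowerSeries
open scoped MatrixGroups Classical

noncomputable section

namespace Vale.Agent.P014Z.Rp

open Vale.Agent.P022 Vale.Agent.P022.H218.L3 Vale.Agent.P022.H231.L3 Vale.Agent.P022.H236.L3
  Vale.Agent.P022.H542.L3 P027H Vale.Agent.P027M.M P004K P004F.Qx P014U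
open P004Z.EF (Val)
open P004F.Qx.De (vv coe_vv cj_dn cj_V)
open P004R.Qf (sp_one)
open Qf (Cm Sr il)

variable [Pp]

namespace Qp

theorem dpl_eq (φ : ℕ → GQ) (h : GQ → Qb) (L : List ℕ) : dpl φ h L =
    Qf.dpl (fun l => 1 + l ^ (pp - 2)) (fun l => l ^ (pp - 2)) φ h L := by
  induction L with
  | nil => rfl
  | cons l L ih =>
    funext g
    simp only [dpl, Qf.dpl, ih]
    push_cast
    rfl

/-- the indicator of the numbers prime to `p` -/
def id1 (m : ℕ) : ZMod pp := if pp ∣ m then 0 else 1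

theorem cm_id1 : Cm id1 := fun a b => by
  simp only [id1, pp_prime.dvd_mul]
  by_cases h : pp ∣ a <;> by_cases k : pp ∣ b <;> simp [h, k]

theorem cm_inv : Cm fun d : ℕ => (d : ZMod pp)⁻¹ := fun a b => by
  simp only [Nat.cast_mul, mul_inv]

theorem cv_eq {n : ℕ} (h : ¬ pp ∣ n) :
    Qf.cv (fun d : ℕ => (d : ZMod pp)⁻¹) id1 n = ∑ d ∈ n.divisors, (d : ZMod pp)⁻¹ := by
  rw [Qf.cv, Nat.sum_divisorsAntidiagonal fun d m => (d : ZMod pp)⁻¹ * id1 m]
  refine Finset.sum_congr rfl fun d hd => ?_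
  rw [id1, if_neg fun k => h (k.trans (Nat.div_dvd_of_dvd (Nat.dvd_of_mem_divisors hd))), mul_one]

theorem sr {Z : PowerSeries ℤ} (hZ : ∀ n, ((coeff n Z : ℤ) : ZMod pp) =
    if pp ∣ n then 0 else -24 * ∑ d ∈ n.divisors, (d : ZMod pp)⁻¹) {a : ℕ → ℤ} {S : List ℕ}
    (nd : S.Nodup) (hp : ∀ p ∈ S, p.Prime) (h3 : pp ∈ S)
    (ha : ∀ n : ℕ, n.Coprime S.prod → (pp : ℤ) ∣ a n - ArithmeticFunction.sigma 1 n) :
    Sr (pp : ℤ) (-24) Z (fun l => 1 + l ^ (pp - 2)) (fun l => l ^ (pp - 2)) a S (S.erase pp) := by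
  have z1 : ((pp : ℕ) : ZMod pp)⁻¹ = 0 := by simp
  have z2 : id1 pp = 0 := if_pos dvd_rfl
  refine Qf.sr_of (Int.castRingHom (ZMod pp))
    (fun x h => (ZMod.intCast_zmod_eq_zero_iff_dvd x pp).1 h) cm_inv cm_id1 (fun n => ?_) hp
    (fun l h => List.mem_of_mem_erase h) (fun l h => ?_) (fun l h h' => ?_) fun n h => ?_
  · rw [eq_intCast, hZ]
    split_ifs with h
    · obtain ⟨m, rfl⟩ := h
      rw [Qf.cv_van cm_inv cm_id1 pp_prime z1 z2, mul_zero]
    · rw [cv_eq h]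
      simp
  · have n : ¬ pp ∣ l := fun e => (nd.mem_erase_iff.1 h).1
      ((Nat.prime_dvd_prime_iff_eq pp_prime (hp l (List.mem_of_mem_erase h))).1 e).symm
    have l0 : (l : ZMod pp) ≠ 0 := fun e => n ((ZMod.natCast_eq_zero_iff l pp).1 e)
    have e : (l : ZMod pp) ^ (pp - 2) = (l : ZMod pp)⁻¹ := by
      refine eq_inv_of_mul_eq_one_left ?_
      rw [← pow_succ, show pp - 2 + 1 = pp - 1 by have := two_lt; omega]
      exact ZMod.pow_card_sub_one_eq_one l0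
    rw [id1, if_neg n]
    push_cast
    rw [e]
    exact ⟨add_comm _ _, (mul_one _).symm⟩
  · obtain rfl : l = pp := by
      by_contra e
      exact h' (nd.mem_erase_iff.2 ⟨e, h⟩)
    exact ⟨z1, z2⟩
  · have n : ¬ pp ∣ n := pp_prime.coprime_iff_not_dvd.1 (h.coprime_dvd_right (List.dvd_prod h3)).symm
    have k := (ZMod.intCast_zmod_eq_zero_iff_dvd _ pp).2 (ha _ h)
    push_cast at k
    rw [cv_eq n, sub_eq_zero.1 k, ArithmeticFunction.sigma_one_apply, Nat.cast_sum, Finset.mul_sum,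
      ← Nat.sum_div_divisors _ fun d => (d : ZMod pp)]
    refine Finset.sum_congr rfl fun d hd => ?_
    obtain ⟨m, rfl⟩ := Nat.dvd_of_mem_divisors hd
    have d0 : (d : ZMod pp) ≠ 0 := fun e => n (((ZMod.natCast_eq_zero_iff d pp).1 e).mul_right m)
    rw [Nat.mul_div_cancel_left _ (Nat.pos_of_mem_divisors hd), Nat.cast_mul]
    field_simp

end Qp

open Qp in
/-- **QF** -/
theorem qf (mpc : MPC) (vex : VEX) (hg1 : HG1) (rc2 : P004K.RC2) (tr0 : TR0) (tau : TAU) : QF := by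
  intro N a S hN nd hp h3 ha u hu s hs hz hc P hP
  obtain ⟨W, hW, Z, w1, w2, w3, w4⟩ := tau
  have hT : ∀ l ∈ [pp, pp], l ∈ S := by simp [h3]
  have h1 : ∀ l ∈ [pp], l ∈ S := by simp [h3]
  obtain ⟨T, hT₀⟩ := Qf.val mpc vex hg1 rc2 tr0 hN hp h3 hu hs hz hc hP (Int.castRingHom (𝓞 Qb))
    (π := (pp : ℤ)) (by simpa using pp_ne) (by simpa using (hP pp h3).2) (by simp) hT
    (fun l h => List.mem_of_mem_erase h) (nd.erase pp) (sr w4 nd hp h3 ha) hW
    (by simpa [pow_two] using w2)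
    (by rw [RingHom.ext_int (Qf.ic _) (Int.castRingHom ℂ)]; exact w3)
  refine ⟨T, fun δ d1 d2 K _ _ j hK θ hθ I I' Q φ ch c c0 cp z us g hg => ?_⟩
  obtain ⟨k1, k2⟩ := hT₀ δ d1 d2 K j hK θ hθ I I' Q φ ch c c0 cp (Rp.hs (φ pp) z)
    (fun g hg σ τ τ' hσ hτ cj => by
      obtain ⟨k3, k4⟩ := Qf.hp_dn hg1 rc2 hK hp h3 hP ch c0 cp.coprime_mul_left_right one_pos
        (Nat.coprime_one_right c) sp_one (by simp) h1 h1 (τ := τ) (by simpa using hτ)
      obtain ⟨σ', hσ'⟩ := ex_ex (φ pp)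
      have k5 := k4 σ' (by simpa using hσ')
      simp only [il, List.prod_cons, List.prod_nil, List.map_cons, List.map_nil, mul_one, one_mul,
        Ideal.top_mul] at k3 k5 cj
      have e1 := us.val g hg σ τ τ' hσ k3 (cj_dn pp_pos pp_pos cj)
      have e2 := us.val _ (mul_mem hg (ch.mem pp h3)) _ τ _ (Qf.ex_mul' hσ hσ') k3
        (k5.trans (cj_V pp_pos pp_pos cj))
      rw [w1, Rp.hs, map_div₀, map_sub, map_div₀, map_pow, e1, e2, map_one, map_natCast]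
      rfl) g hg
  refine ⟨k1, fun σ τ τ' hσ hτ cj y hy => ?_⟩
  obtain ⟨b, t, b1, b2, e⟩ := k2 σ τ τ' hσ hτ cj y hy
  refine ⟨b, -t, b1, neg_mem b2, ?_⟩
  rw [dpl_eq]
  have e1 : (((Int.castRingHom (𝓞 Qb)) (-24) : 𝓞 Qb) : Qb) = -24 := by
    rw [eq_intCast]
    exact (map_intCast (algebraMap (𝓞 Qb) Qb) _).trans (by norm_num)
  rw [e1] at e
  exact Eq.trans (by linear_combination -e) (map_neg (algebraMap (𝓞 Qb) Qb) t).symm

end Vale.Agent.P014Z.Rp
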