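import Vale.Agent.P014Y.Rd.Reg

/-!
# P014Z, block Rp: the index of the group of units, any relative degree (helper39)
-/

set_option autoImplicit false
set_option linter.all false

open NumberField NumberField.InfinitePlace Module Matrix Set
open NumberField.Units (regulator torsion fundSystem rank)

namespace Vale.Agent.P014Z.Rp.Rg

open P027M.M
open P004R (ua CU)
open P004R.Rg (key ex_fund sum_shift pl pl_ap coe_ua ua_mul card_pl)
open P014Y.Rd.Rg (det_blk)

theorem card_fa (m M : ℕ) :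
    ((Finset.range ((m + 1) * M)).filter fun k => ¬ m + 1 ∣ k).card = m * M := by
  have a := Finset.card_filter_add_card_filter_not (s := Finset.range ((m + 1) * M))
    fun k => m + 1 ∣ k
  have b : ((Finset.range ((m + 1) * M)).filter fun k => m + 1 ∣ k) =
      (Finset.range M).image ((m + 1) * ·) := by
    ext k
    simp only [Finset.mem_filter, Finset.mem_range, Finset.mem_image]
    exact ⟨fun ⟨h, t, e⟩ => ⟨t, Nat.lt_of_mul_lt_mul_left (e ▸ h), e.symm⟩,
      fun ⟨t, h, e⟩ => e ▸ ⟨Nat.mul_lt_mul_of_pos_left h m.succ_pos, t, rfl⟩⟩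
  rw [b, Finset.card_image_of_injective _ (mul_right_injective₀ m.succ_ne_zero), Finset.card_range,
    Finset.card_range, add_mul, one_mul, add_comm] at a
  rw [add_mul, one_mul]
  exact add_right_cancel a

theorem sum_mod (f : ℕ → ℂ) (z : ℂ) (M m : ℕ) : ∑ j ∈ Finset.range (m * M), f (j % M) * z ^ j =
    (∑ t ∈ Finset.range m, (z ^ M) ^ t) * ∑ j ∈ Finset.range M, f j * z ^ j := by
  induction m with
  | zero => simp
  | succ m ih =>
    rw [add_mul, one_mul, Finset.sum_range_add, ih, Finset.sum_range_succ, add_mul,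
      Finset.mul_sum _ _ ((z ^ M) ^ m)]
    congr 1
    refine Finset.sum_congr rfl fun j hj => ?_
    rw [Nat.mul_add_mod_self_right, Nat.mod_eq_of_lt (Finset.mem_range.1 hj), pow_add, pow_mul']
    ring

/-- the determinant of the part of a circulant matrix which is not invariant -/
theorem det_circ {m M : ℕ} (M0 : 0 < M) {ζ : ℂ} (hζ : IsPrimitiveRoot ζ ((m + 1) * M)) {x : ℕ → ℝ}
    (h : ∀ n, x (n + (m + 1) * M) = x n) :
    |(of fun i j : Fin (m * M) => x (i + j) - x (i + (j % M + m * M))).det| =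
      ‖∏ k ∈ (Finset.range ((m + 1) * M)).filter fun k => ¬ m + 1 ∣ k,
        ∑ i ∈ Finset.range ((m + 1) * M), ζ ^ (k * i) * x i‖ := by
  have N0 : 0 < (m + 1) * M := by positivity
  have n1 : ‖ζ‖ = 1 := hζ.norm'_eq_one N0.ne'
  have zM : IsPrimitiveRoot (ζ ^ M) (m + 1) := hζ.pow N0 (mul_comm _ _)
  set φ := (Finset.equivFinOfCardEq (card_fa m M)).symm
  have φ1 := fun k => Finset.mem_filter.1 (φ k).2
  set V : Matrix (Fin (m * M)) (Fin (m * M)) ℂ :=
    (vandermonde fun k : Fin (m * M) => ζ ^ (φ k : ℕ))ᵀ with hV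
  have V0 : V.det ≠ 0 := by
    rw [hV, det_transpose, det_vandermonde_ne_zero_iff]
    exact fun k l e => φ.injective (Subtype.ext (hζ.pow_inj (Finset.mem_range.1 (φ1 k).1)
      (Finset.mem_range.1 (φ1 l).1) e))
  have E : (of fun i j : Fin (m * M) => x (i + j) - x (i + (j % M + m * M))).map
      Complex.ofRealHom * V = of fun i k : Fin (m * M) => (∑ i ∈ Finset.range ((m + 1) * M),
        ζ ^ (φ k * i) * x i) * V.map (starRingEnd ℂ) i k := by
    ext i k
    simp only [mul_apply, map_apply, of_apply, hV, transpose_apply, vandermonde_apply, ← pow_mul]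
    have d : ∑ t ∈ Finset.range (m + 1), ((ζ ^ (φ k : ℕ)) ^ M) ^ t = 0 := by
      have e : (ζ ^ (φ k : ℕ)) ^ M ≠ 1 := fun e =>
        (φ1 k).2 ((zM.pow_eq_one_iff_dvd _).1 (by rw [← pow_mul, mul_comm, pow_mul, e]))
      refine mul_right_cancel₀ (sub_ne_zero.2 e) ?_
      rw [geom_sum_mul, ← pow_mul, ← pow_mul, mul_comm M, mul_comm, pow_mul, hζ.pow_eq_one, one_pow,
        sub_self, zero_mul]
    generalize (φ k : ℕ) = a at d ⊢
    generalize (i : ℕ) = i
    have c : (starRingEnd ℂ) (ζ ^ (a * i : ℕ)) * ζ ^ (a * i : ℕ) = 1 := by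
      rw [Complex.conj_mul', norm_pow, n1]; simp
    have s := sum_shift (f := fun n => ζ ^ (a * n) * x n) (N := (m + 1) * M) (fun n => by
      rw [h, mul_add, pow_add, mul_comm _ ((m + 1) * M), pow_mul ζ ((m + 1) * M), hζ.pow_eq_one,
        one_pow, mul_one]) i
    have t := sum_mod (fun j => x (i + (j + m * M))) (ζ ^ a) M m
    rw [Finset.sum_range_succ] at d
    rw [eq_neg_of_add_eq_zero_left d] at t
    rw [← s, Fin.sum_univ_eq_sum_range fun j =>
      Complex.ofRealHom (x (i + j) - x (i + (j % M + m * M))) * ζ ^ (a * j), add_mul, one_mul,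
      Finset.sum_range_add]
    simp only [Complex.ofRealHom_eq_coe, Complex.ofReal_sub, sub_mul, Finset.sum_sub_distrib,
      pow_mul ζ a] at c ⊢
    rw [t, add_mul, neg_mul, sub_neg_eq_add, Finset.sum_mul, Finset.sum_mul, Finset.mul_sum]
    congr 1 <;> refine Finset.sum_congr rfl fun j _ => ?_
    · rw [pow_add]
      linear_combination (-((ζ ^ a) ^ j) * x (i + j)) * c
    · rw [pow_add, pow_add, add_comm (m * M), ← pow_mul (ζ ^ a) M m, mul_comm M m]
      linear_combination (-((ζ ^ a) ^ j) * (ζ ^ a) ^ (m * M) * x (i + (j + m * M))) * c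
  have D := congrArg (fun A => ‖det A‖) E
  simp only [det_mul, det_mul_row, norm_mul] at D
  rw [← RingHom.mapMatrix_apply, ← RingHom.mapMatrix_apply, ← RingHom.map_det, ← RingHom.map_det,
    Complex.norm_conj, mul_left_inj' (norm_ne_zero_iff.2 V0)] at D
  rw [← Finset.prod_coe_sort, ← φ.prod_comp, ← D]
  simp

variable (F : Type) {H : Type} [Field F] [NumberField F] [Field H] [NumberField H] [Algebra F H]
  (σ : H ≃ₐ[ℚ] H) (n M : ℕ)

/-- `σ` has order `n M`, `F` is the fixed field of `σ ^ M`, the fixed field of `σ` is imaginary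
quadratic -/
structure C0 : Prop where
  pos : 0 < M
  ord : σ ^ (n * M) = 1
  fix : ∀ x, (σ ^ M) x = x ↔ x ∈ Set.range (algebraMap F H)
  deg : finrank ℚ H = 2 * (n * M)
  deg' : finrank ℚ F = 2 * M
  cx : IsTotallyComplex F
  inf : ∀ w w' : InfinitePlace H, ∃ i : ℕ, ∀ x, w' x = w ((σ ^ i) x)
  tor : ∀ u ∈ torsion H, ua (σ ^ M) u = u

variable {F σ M} {m : ℕ} (c : C0 F σ (m + 1) M)
include c

theorem ex_pl (w w' : InfinitePlace H) : ∃ i < (m + 1) * M, pl σ w i = w' := by
  obtain ⟨i, h⟩ := c.inf w w'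
  refine ⟨i % ((m + 1) * M), Nat.mod_lt _ (mul_pos m.succ_pos c.pos),
    InfinitePlace.ext _ _ fun x => ?_⟩
  rw [h, pl_ap, ← pow_eq_pow_mod i c.ord]

theorem pl_F (w : InfinitePlace H) (i k : ℕ) (y : F) :
    pl σ w (i + k * M) (algebraMap F H y) = pl σ w i (algebraMap F H y) := by
  induction k with
  | zero => rw [zero_mul, add_zero]
  | succ k ih => rw [add_mul, one_mul, ← add_assoc, pl_ap, pow_add, AlgEquiv.mul_apply,
      (c.fix _).2 ⟨y, rfl⟩, ← pl_ap, ih]

theorem pl_m (w : InfinitePlace H) (i : ℕ) (y : F) :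
    pl σ w i (algebraMap F H y) = pl σ w (i % M) (algebraMap F H y) := by
  rw [← pl_F c w (i % M) (i / M), Nat.mod_add_div']

theorem bij_H (w : InfinitePlace H) : Function.Bijective
    (Sum.elim (fun j : Fin M => pl σ w (j + m * M)) fun j : Fin (m * M) => pl σ w j) := by
  have := c.cx
  have := isTotallyComplex_of_algebra F H
  refine (Fintype.bijective_iff_surjective_and_card _).2 ⟨fun w' => ?_, ?_⟩
  · obtain ⟨i, hi, rfl⟩ := ex_pl c w w'
    rw [add_mul, one_mul] at hi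
    rcases lt_or_ge i (m * M) with a | a
    · exact ⟨.inr ⟨i, a⟩, rfl⟩
    · exact ⟨.inl ⟨i - m * M, by omega⟩, by simp [Nat.sub_add_cancel a]⟩
  · rw [card_pl H c.deg]
    simp
    ring

theorem bij_F (w : InfinitePlace H) :
    Function.Bijective fun j : Fin M => (pl σ w j).comap (algebraMap F H) := by
  have := c.cx
  refine (Fintype.bijective_iff_surjective_and_card _).2 ⟨fun v => ?_, ?_⟩
  · obtain ⟨w', rfl⟩ := comap_surjective (K := H) v
    obtain ⟨i, -, rfl⟩ := ex_pl c w w'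
    exact ⟨⟨i % M, Nat.mod_lt _ c.pos⟩, InfinitePlace.ext _ _ fun y => (pl_m c w i y).symm⟩
  · rw [card_pl F c.deg', Fintype.card_fin]

theorem fix_int {x : 𝓞 H} (h : (σ ^ M) x = x) : ∃ a : 𝓞 F, algebraMap (𝓞 F) (𝓞 H) a = x := by
  obtain ⟨y, hy⟩ := (c.fix _).1 h
  exact ⟨⟨y, (isIntegral_algebraMap_iff (algebraMap F H).injective).1 (hy ▸ x.isIntegral_coe)⟩,
    RingOfIntegers.ext hy⟩

theorem fix_unit {v : (𝓞 H)ˣ} (h : ua (σ ^ M) v = v) :
    v ∈ (Units.map (algebraMap (𝓞 F) (𝓞 H) : 𝓞 F →* 𝓞 H)).range := by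
  obtain ⟨a, ha⟩ := fix_int c (x := v) (by rw [← coe_ua, h])
  obtain ⟨b, hb⟩ := fix_int c (x := (v⁻¹ : (𝓞 H)ˣ)) (by rw [← coe_ua, map_inv, h])
  exact ⟨Units.mkOfMulEqOne a b (FaithfulSMul.algebraMap_injective (𝓞 F) (𝓞 H)
    (by rw [map_mul, ha, hb, map_one, v.mul_inv])), Units.ext ha⟩

theorem cu_eq {U : Fin M → (𝓞 F)ˣ} (hU : Subgroup.closure (range U) ⊔ torsion F = ⊤)
    (u : (𝓞 H)ˣ) : Subgroup.closure (range (Sum.elim
      (fun i => Units.map (algebraMap (𝓞 F) (𝓞 H) : 𝓞 F →* 𝓞 H) (U i))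
        fun i : Fin (m * M) => ua (σ ^ (i : ℕ)) u)) ⊔ torsion H = CU F σ u := by
  refine le_antisymm (sup_le ((Subgroup.closure_le _).2 (range_subset_iff.2 ?_)) fun v hv =>
    Subgroup.mem_sup_left (fix_unit c (c.tor v hv))) ?_
  · rintro (i | i)
    · exact Subgroup.mem_sup_left ⟨_, rfl⟩
    · exact Subgroup.mem_sup_right (Subgroup.subset_closure ⟨_, rfl⟩)
  generalize hG : Subgroup.closure _ ⊔ torsion H = G
  have a : (Units.map (algebraMap (𝓞 F) (𝓞 H) : 𝓞 F →* 𝓞 H)).range ≤ G := by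
    rw [MonoidHom.range_eq_map, ← hU, Subgroup.map_sup, MonoidHom.map_closure, ← hG]
    refine sup_le_sup (Subgroup.closure_mono ?_) ?_
    · rintro _ ⟨_, ⟨i, rfl⟩, rfl⟩
      exact ⟨.inl i, rfl⟩
    · rintro _ ⟨v, hv, rfl⟩
      exact MonoidHom.isOfFinOrder _ hv
  refine sup_le a ((Subgroup.closure_le _).2 (range_subset_iff.2 fun i => ?_))
  induction i using Nat.strong_induction_on with
  | _ i ih =>
  rcases lt_or_ge i (m * M) with b | b
  · exact hG ▸ Subgroup.mem_sup_left (Subgroup.subset_closure ⟨.inr ⟨i, b⟩, rfl⟩)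
  · obtain ⟨j, rfl⟩ := Nat.exists_eq_add_of_le b
    refine (G.mul_mem_cancel_left (prod_mem fun t (ht : t ∈ Finset.range m) => ih (t * M + j)
      (Nat.add_lt_add_right (Nat.mul_lt_mul_of_pos_right (Finset.mem_range.1 ht) c.pos) j))).1
      (a (fix_unit c ?_))
    rw [← Finset.prod_range_succ fun t => ua (σ ^ (t * M + j)) u, map_prod]
    refine mul_right_cancel (b := ua (σ ^ (0 * M + j)) u) ?_
    simp only [← ua_mul, ← pow_add, show ∀ t, M + (t * M + j) = (t + 1) * M + j from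
      fun t => by ring]
    rw [← Finset.prod_range_succ' fun t => ua (σ ^ (t * M + j)) u, Finset.prod_range_succ,
      pow_add σ ((m + 1) * M), c.ord, one_mul, zero_mul, zero_add]

omit c in
/-- **the index of the group generated by the units of `F` and the conjugates of `u`** -/
theorem reg0 {n : ℕ} (n0 : 0 < n) (c : C0 F σ n M) (w : InfinitePlace H) (u : (𝓞 H)ˣ) :
    n * (CU F σ u).index * regulator H = regulator F *
      ‖∏ k ∈ (Finset.range (n * M)).filter fun k => ¬ n ∣ k, ∑ i ∈ Finset.range (n * M),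
        ze (n * M) (k * i) * (2 * Real.log (w ((σ ^ i) (u : 𝓞 H))) : ℝ)‖ := by
  obtain ⟨m, rfl⟩ := Nat.exists_eq_add_one_of_ne_zero n0.ne'
  have := c.cx
  have := isTotallyComplex_of_algebra F H
  have M0 := c.pos
  obtain ⟨U, U0, hU⟩ := ex_fund F (Equiv.ofBijective _ (bij_F c w)) ⟨0, M0⟩
  have a := key F (Equiv.ofBijective _ (bij_F c w)) _ U U0
  have b := key H (Equiv.ofBijective _ (bij_H c w)) (.inl ⟨0, M0⟩) (Sum.elim
    (fun i => Units.map (algebraMap (𝓞 F) (𝓞 H) : 𝓞 F →* 𝓞 H) (U i))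
      fun i : Fin (m * M) => ua (σ ^ (i : ℕ)) u) (by simp [U0])
  have d := det_circ M0 (Complex.isPrimitiveRoot_exp ((m + 1) * M) (by positivity))
    (x := fun n => 2 * Real.log (w ((σ ^ n) (u : 𝓞 H)))) fun n => by rw [pow_add, c.ord, mul_one]
  rw [hU, c.deg', Subgroup.index_top] at a
  rw [cu_eq c hU, c.deg] at b
  generalize hL : (of fun i j : Fin M => _ : Matrix _ _ ℝ) = L at a
  generalize hA : (of fun i j : Fin M ⊕ Fin (m * M) => _ : Matrix _ _ ℝ) = A at b
  have e : A = fromBlocks L (L.submatrix id fun j : Fin (m * M) => ⟨j % M, Nat.mod_lt _ M0⟩)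
      (of fun (i : Fin (m * M)) (j : Fin M) =>
        2 * Real.log (w ((σ ^ (i + (j + m * M) : ℕ)) (u : 𝓞 H))))
      (of fun i j : Fin (m * M) => 2 * Real.log (w ((σ ^ (i + j : ℕ)) (u : 𝓞 H)))) := by
    rw [← hA, ← hL]
    ext (i | i) (j | j)
    · simp only [of_apply, fromBlocks_apply₁₁, IsTotallyComplex.mult_eq, Sum.inl.injEq]
      exact congrArg (fun t => ite _ _ (_ * Real.log t)) (pl_F c w j m (U i : 𝓞 F))
    · simp only [of_apply, fromBlocks_apply₁₂, IsTotallyComplex.mult_eq, Sum.inl.injEq,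
        submatrix_apply]
      exact congrArg (fun t => ite _ _ (_ * Real.log t)) (pl_m c w j (U i : 𝓞 F))
    · simp only [of_apply, fromBlocks_apply₂₁, IsTotallyComplex.mult_eq, reduceCtorEq, if_false,
        add_comm (i : ℕ), pow_add σ (j + m * M)]; rfl
    · simp only [of_apply, fromBlocks_apply₂₂, IsTotallyComplex.mult_eq, reduceCtorEq, if_false]
      rw [add_comm, pow_add]; rfl
  have f : ∀ k : ℕ, ∑ i ∈ Finset.range ((m + 1) * M), ze ((m + 1) * M) (k * i) *
      (2 * Real.log (w ((σ ^ i) (u : 𝓞 H))) : ℝ) = ∑ i ∈ Finset.range ((m + 1) * M),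
      Complex.exp (2 * Real.pi * Complex.I / ((m + 1) * M : ℕ)) ^ (k * i) *
        (2 * Real.log (w ((σ ^ i) (u : 𝓞 H))) : ℝ) := fun k => Finset.sum_congr rfl fun i _ => by
    rw [ze, ← Complex.exp_nat_mul]
    congr 2; push_cast; ring
  rw [e, det_blk, abs_mul, ← a] at b
  simp only [f]
  rw [← d]
  refine mul_left_cancel₀ (show (2 * M : ℝ) ≠ 0 by positivity) ?_
  push_cast at b ⊢
  calc _ = 2 * ((m + 1) * M) * ((CU F σ u).index * regulator H : ℝ) := by ring
    _ = _ := by rw [b, one_mul, mul_assoc]; rfl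

end Vale.Agent.P014Z.Rp.Rg
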