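import Vale.Agent.P014Z.Rp.St0
import Vale.Agent.P014Z.Rp.Reg0

/-!
# P014Z, a rational point of order `p`: the index of the group of units
-/

set_option autoImplicit false
set_option linter.all false

namespace Vale.Agent.P014Z.Rp

open P014U

variable [Pp]

/-- **row REG** -/
theorem reg : REG := fun F H _ _ _ _ _ σ M c w u =>
  Rg.reg0 pp_prime.pos ⟨c.pow.elim fun m h => h ▸ pow_pos pp_prime.pos _, c.ord, c.fix, c.deg, c.deg',
    c.cx, c.inf, fun v h => by
      rcases c.tor v h with rfl | rfl
      exacts [map_one _, Units.ext (NumberField.RingOfIntegers.ext (by simp [P004R.Rg.coe_ua]))]⟩ w u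

end Vale.Agent.P014Z.Rp
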