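import Vale.Agent.P014Z.Rp.St2
import Vale.Agent.P014Z.Lk.Shf1
import Vale.Agent.P014Z.Lk.Csg0

/-!
# P014Z, block RP: the cost of the depletion, Eisenstein congruences (rows SHF, CSG)
-/

set_option autoImplicit false
set_option linter.all false

noncomputable section

namespace Vale.Agent.P014Z.Rp

open Vale.Agent.P022 P014U

variable [Pp]

theorem dpl_eq (φ : ℕ → GQ) (h : GQ → Qb) (L : List ℕ) :
    dpl φ h L = Qf.dpl (fun l => 1 + l ^ (pp - 2)) (fun l => l ^ (pp - 2)) φ h L := by
  induction L with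
  | nil => rfl
  | cons l L ih => exact funext fun g => by simp only [dpl, Qf.dpl, ih]; push_cast; rfl

theorem cs_eq (L : List ℕ) : cs L = (L.map fun q => 1 + if q % pp = 1 then 1 else 0).sum := by
  induction L with
  | nil => rfl
  | cons l L ih =>
    rw [List.map_cons, List.sum_cons, ← ih]
    simp only [cs, List.filter_cons, List.length_cons, decide_eq_true_eq]
    split_ifs <;> simp <;> ring

/-- **row SHF** -/
theorem shf : SHF := fun Γ U R m e P h φ L l T hU hc ha h0 o hh hL hl H => by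
  rw [cs_eq] at hl H
  refine Lk.shfz (pow_succ' pp m).symm o T hU hc ha h0 hh (a := fun _ => 1)
    (b := fun l => l ^ (pp - 2)) (fun q k => ⟨(hL q k).2.1, by simp, by simp,
      fun _ => ⟨one_pos, (hL q k).2.2⟩, fun d => ⟨?_, (hL q k).2.2⟩⟩) hl (dpl_eq φ h L ▸ H)
  have e := (ZMod.intCast_zmod_eq_zero_iff_dvd _ pp).2 d
  have f := ZMod.pow_card_sub_one_eq_one (mt (ZMod.natCast_eq_zero_iff q pp).1 (hL q k).1)
  push_cast at e
  rw [show pp - 1 = pp - 2 + 1 by have := pp_prime.two_le; omega, pow_succ, sub_eq_zero.1 e,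
    one_mul, ← Nat.cast_one, ZMod.natCast_eq_natCast_iff', Nat.mod_eq_of_lt pp_prime.one_lt] at f
  rw [if_pos f]
  exact one_pos

/-- **row CSG** -/
theorem csg : CSG := fun N G a S rn h hS n hn => by
  have := Lk.csg0 (A := ℤ) (χ := fun n => n) (χ' := fun _ => 1) ⟨rfl, fun _ _ => Nat.cast_mul _ _⟩
    ⟨rfl, by simp⟩ rn (π := pp) (M := S.prod) (fun l hl k =>
      have := h l hl fun m => k (List.dvd_prod m)
      ⟨this.1, by simpa [add_comm] using this.2, by simp⟩) n hn
  rwa [Lk.cv, Nat.sum_divisorsAntidiagonal fun x _ => (x : ℤ) * 1, Int.cast_id,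
    show ∑ x ∈ n.divisors, (x : ℤ) * 1 = ArithmeticFunction.sigma 1 n by
      simp [ArithmeticFunction.sigma_one_apply]] at this

end Vale.Agent.P014Z.Rp
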