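import Vale.Agent.P014Z.Sh.Kit
import Vale.Agent.P004R.Shp

/-!
# P014Z, route Rp: Kummer theory and the lemma of Shapiro at an odd prime, without the words
-/

set_option autoImplicit false
set_option linter.all false

open NumberField IsDedekindDomain
open scoped Pointwise

noncomputable section

namespace Vale.Agent.P014Z.Rp.Sp

open Vale.Agent.P022 (Qb GQ GK below)
open Vale.Agent.P027M.S (Inert)
open Vale.Agent.P022D.W (dec)
open Vale.Agent.P022E.GW (Ov)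
open Vale.Agent.P022E.GW.Kc (ex_below)
open Vale.Agent.P022K.G2
open P004R (Z0 r1)
open P004R.Sp (ex_sec tw_mem)
open Sh

variable {p : ℕ} [Fact p.Prime]

section pol

open Polynomial

variable {N : ℕ} [NeZero N] {R : Type} [CommRing R] {ρ : PowerSeries (ZMod p) →+* R}
  (hρ : ∀ x, ρ x = 0 ↔ PowerSeries.X ^ N ∣ x)
include hρ

theorem indep (c : ZMod N → ZMod p)
    (h : ∑ i : ZMod N, (1 + ρ PowerSeries.X) ^ i.val * ρ (PowerSeries.C (c i)) = 0) : c 0 = 0 := by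
  have k : X ^ N ∣ ∑ i : ZMod N, (1 + X) ^ i.val * C (c i) := X_pow_dvd_iff.2 fun d hd => by
    rw [← coeff_coe]
    refine PowerSeries.X_pow_dvd_iff.1 ((hρ _).1 ?_) d hd
    rw [← coeToPowerSeries.ringHom_apply, ← h]
    simp [map_sum]
  have := congrArg (eval (-1)) (eq_zero_of_dvd_of_degree_lt k (by
    rw [degree_X_pow]
    refine (degree_sum_le _ _).trans_lt ((Finset.sup_lt_iff (WithBot.bot_lt_coe _)).2 fun i _ => ?_)
    refine lt_of_le_of_lt ?_ (Nat.cast_lt.2 i.val_lt)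
    compute_degree!))
  rw [eval_finsetSum, Finset.sum_eq_single 0 (fun i _ h => by simp [h]) (by simp)] at this
  simpa using this

theorem t_add {m : ℕ} (hN : N = p ^ m) (a b : ZMod N) : (1 + ρ PowerSeries.X) ^ (a + b).val =
    (1 + ρ PowerSeries.X) ^ a.val * (1 + ρ PowerSeries.X) ^ b.val := by
  have : CharP (PowerSeries (ZMod p)) p := charP_of_injective_ringHom PowerSeries.C_injective p
  rw [← pow_add, ZMod.val_add, ← pow_eq_pow_mod]
  rw [← map_one ρ, ← map_add, ← map_pow, hN, add_pow_char_pow, one_pow, map_add,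
    (hρ (_ ^ _)).2 (by rw [← hN]), add_zero]

end pol

variable {H : Type} [Field H] [NumberField H] (j : H →+* Qb)

variable (p) in
/-- powers modulo `𝔪` whose ideal is a power outside `J` -/
def Ad0 (𝔪 J : Ideal (𝓞 H)) (x : 𝓞 H) : Prop :=
  (∃ y : 𝓞 H, Ideal.span {y} ⊔ 𝔪 = ⊤ ∧ x - y ^ p ∈ 𝔪) ∧
    ∃ (A B : Ideal (𝓞 H)) (n : ℕ), Ideal.span {x} = A ^ p * B ∧ B ∣ J ^ n

theorem ad_ne {𝔪 J : Ideal (𝓞 H)} {a : 𝓞 H} (h : Ad0 p 𝔪 J a) {v : Ideal (𝓞 H)} (hv : v.IsPrime)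
    (hm : 𝔪 ≤ v) : a ≠ 0 := by
  rintro rfl
  obtain ⟨⟨y, y1, y2⟩, -⟩ := h
  rw [zero_sub, neg_mem_iff] at y2
  exact hv.ne_top (top_le_iff.1 (y1.ge.trans (sup_le
    ((Ideal.span_singleton_le_iff_mem _).2 (hv.mem_of_pow_mem p (hm y2))) hm)))

theorem loc (h2 : p ≠ 2) {P : Ideal (𝓞 Qb)} (hP : Ov p P) {v v' : Ideal (𝓞 H)}
    (hv : below j P = v) (hm : v * v' = Ideal.span {(p : 𝓞 H)}) (hc : v ⊔ v' = ⊤) {k : ℕ}
    (hk : 2 ≤ k) {J : Ideal (𝓞 H)} {a : 𝓞 H} (h : Ad0 p (v ^ k) J a) :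
    ∃ β : Qb, β ^ p = j a ∧ ∀ g ∈ GK j, g ∈ dec P → g β = β := by
  obtain ⟨⟨y, y1, y2⟩, -⟩ := h
  have pv : v.IsPrime := hv ▸ Ideal.IsPrime.comap _ (hK := hP.2.1)
  obtain ⟨s, s1, s2⟩ : ∃ s ∈ v', s ∉ v := SetLike.not_le_iff_exists.1 fun k =>
    pv.ne_top (by rw [← hc, sup_eq_left.2 k])
  obtain ⟨w, hw⟩ : (p : 𝓞 H) ^ 2 ∣ s ^ 2 * (a - y ^ p) := by
    rw [← Ideal.mem_span_singleton, ← Ideal.span_singleton_pow, ← hm, mul_pow, mul_comm (v ^ 2)]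
    exact Ideal.mul_mem_mul (Ideal.pow_mem_pow s1 2) (Ideal.pow_le_pow_right hk y2)
  have y3 : y ∉ v := fun m => pv.ne_top (top_le_iff.1 (y1.ge.trans (sup_le
    ((Ideal.span_singleton_le_iff_mem _).2 m) (Ideal.pow_le_self (by omega)))))
  have f : ∀ g ∈ GK j, ∀ x : 𝓞 H,
      g • RingOfIntegers.mapRingHom j x = RingOfIntegers.mapRingHom j x :=
    fun g hg x => RingOfIntegers.ext (hg x)
  obtain ⟨β, e, hβ⟩ := ex_nr (p := p) hP.2.1 (a := RingOfIntegers.mapRingHom j a)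
    (y := RingOfIntegers.mapRingHom j y) (dv_sq h2 hP.2.1 hP.2.2
      (d := RingOfIntegers.mapRingHom j (s ^ 2)) (w := RingOfIntegers.mapRingHom j w)
      (fun m => s2 (pv.mem_of_pow_mem 2 (hv.le m))) (by
        rw [← map_pow, ← map_sub, ← map_mul, hw, map_mul, map_pow, map_natCast]))
  refine ⟨β, congrArg Subtype.val e, fun g hg hd => congrArg Subtype.val
    (nr_eq (p := p) hP.2.1 (γ := g • β) (fun m => y3 (hv.le m)) ?_ hβ ?_)⟩
  · rw [← smul_pow', e, f g hg]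
  · simpa only [smul_sub, f g hg] using hβ.smul hd

theorem unr {l : ℕ} {Q : Ideal (𝓞 Qb)} (hQ : Ov l Q) (h3 : l ≠ p) {𝔪 J : Ideal (𝓞 H)} {a : 𝓞 H}
    (h : Ad0 p 𝔪 J a) (h0 : a ≠ 0) (hJ : ¬ J ≤ below j Q) {g : GQ} (hg : g ∈ GK j)
    (hi : Inert Q g) {β : Qb} (hβ : β ^ p = j a) : g β = β := by
  obtain ⟨-, A, B, n, e, d⟩ := h
  obtain ⟨v, hv, -⟩ := ex_below j hQ.1.ne_zero hQ.2.1 hQ.2.2
  have a0 := RingOfIntegers.coe_ne_zero_iff.2 h0
  refine (ka_eq_zero ((map_ne_zero j).2 a0) hβ (inert_gz hQ h3 hi) (hg _)).1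
    (ka_of_dvd j hQ h3 hv a0 ?_ hg hi)
  have s0 : Ideal.span {a} ≠ 0 := by simpa using h0
  have f := FiniteMultiplicity.of_prime_left v.prime s0
  rw [P027M.S.Cls.ordv_of (n := multiplicity v.asIdeal (Ideal.span {a})) (by
    rw [← v.intValuation_eq_exp_neg_multiplicity h0, HeightOneSpectrum.valuation_of_algebraMap])]
  have A0 : A ≠ 0 := fun k => s0 (by
    rw [e, k, zero_pow (Fact.out : p.Prime).ne_zero, zero_mul])
  rw [e] at f ⊢
  rw [multiplicity_mul v.prime f, (multiplicity_eq_zero (b := B)).2 fun k => hJ ?_, add_zero,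
    FiniteMultiplicity.multiplicity_pow v.prime (FiniteMultiplicity.of_prime_left v.prime A0)]
  · exact ⟨_, Nat.cast_mul _ _⟩
  · exact hv ▸ Ideal.le_of_dvd (v.prime.dvd_of_dvd_pow (k.trans d))

/-- **the induced cocycles** -/
theorem core (h2 : p ≠ 2) {Γ : Subgroup GQ} {N m : ℕ} (hN : N = p ^ m) {e : GQ → ZMod N}
    (he : ∀ g ∈ Γ, ∀ h ∈ Γ, e (g * h) = e g + e h) (gH : ∀ g, g ∈ GK j ↔ g ∈ Γ ∧ e g = 0)
    {P : Ideal (𝓞 Qb)} (hP : Ov p P) (hd : dec P ≤ Γ) {φ : GQ} (h1 : φ ∈ dec P)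
    (hu : IsUnit (e φ)) {v v' : Ideal (𝓞 H)} (hv : below j P = v)
    (hm : v * v' = Ideal.span {(p : 𝓞 H)}) (hc : v ⊔ v' = ⊤) {k : ℕ} (hk : 2 ≤ k) {T : Finset ℕ}
    (h3 : p ∈ T) (hT : ∀ g ∈ Γ, g ∈ In T → e g = 0) {A : Ideal (𝓞 H)}
    (hA : ∀ Q : Ideal (𝓞 H), Q.IsPrime → A ≤ Q → ∃ l ∈ T, l.Prime ∧ (l : 𝓞 H) ∈ Q)
    {R : Type} [CommRing R] {ρ : PowerSeries (ZMod p) →+* R}
    (hρ : ∀ x, ρ x = 0 ↔ PowerSeries.X ^ N ∣ x) :
    ∃ κ : 𝓞 H → Z0 Γ T (r1 fun g => ρ (PowerSeries.C (oz p g)) *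
      (1 + ρ PowerSeries.X) ^ (e g).val) P, ∀ a b, Ad0 p (v ^ k) A a → Ad0 p (v ^ k) A b →
      κ a = κ b → ∃ y : H, (a : H) = y ^ p * b := by
  classical
  have : NeZero N := ⟨hN ▸ pow_ne_zero m (Fact.out : p.Prime).ne_zero⟩
  obtain ⟨s, s0, hs⟩ := ex_sec he (hd h1) h1 hu
  have hs' : ∀ i, s i ∈ Γ ∧ e (s i) = i := fun i => ⟨(hs i).1, (hs i).2.2⟩
  have pv : v.IsPrime := hv ▸ Ideal.IsPrime.comap _ (hK := hP.2.1)
  have n0 : ∀ a, Ad0 p (v ^ k) A a → a ≠ 0 := fun a ha => ad_ne ha pv (Ideal.pow_le_self (by omega))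
  have tm : ∀ g ∈ Γ, ∀ i, (s (i + e g))⁻¹ * g * s i ∈ GK j := fun g hg i =>
    (gH _).2 (tw_mem he hs' hg i)
  have mv : ∀ (g : GQ) i (x : Qb), ((s (i + e g))⁻¹ * g * s i) x = x → g (s i x) = s (i + e g) x :=
    fun g i x h => by
      conv_rhs => rw [← h, ← AlgEquiv.mul_apply, ← mul_assoc, mul_inv_cancel_left]
      rfl
  choose β hβ fβ using fun (a : 𝓞 H) (ha : Ad0 p (v ^ k) A a) => loc j h2 hP hv hm hc hk ha
  have b0 : ∀ a ha, β a ha ≠ 0 := fun a ha =>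
    root_ne ((map_ne_zero j).2 (RingOfIntegers.coe_ne_zero_iff.2 (n0 a ha))) (hβ a ha)
  have fm : ∀ a ha, Fm p Γ e fun i => s i (β a ha) := fun a ha =>
    ⟨fun i => (map_ne_zero _).2 (b0 a ha), fun g hg i => by
      rw [← map_pow, ← map_pow, ← map_pow, hβ]
      exact mv g i _ (tm g hg i _)⟩
  have key := fun a ha => zz_mem (ι := ρ.comp PowerSeries.C) (P := P) (T := T)
    (t := fun i => (1 + ρ PowerSeries.X) ^ i.val) (fm a ha) he (t_add hρ hN)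
    (P022.H916.isOpen_GK j) (fun w hw => ((gH w).1 hw).2) (fun g hg hi i => mv g i _ (by
      have k := tm g hg i
      rw [hT g hg hi, add_zero] at k ⊢
      obtain ⟨l, hl, Q, hQ, hi⟩ := hi
      have q : Ov l ((s i)⁻¹ • Q) := ⟨hQ.1, haveI := hQ.2.1; inferInstance, by
        rw [mem_smul, inv_inv,
          show s i • (l : 𝓞 Qb) = l from map_natCast (MulSemiringAction.toRingHom GQ (𝓞 Qb) _) l]
        exact hQ.2.2⟩
      refine unr j q (fun k => hl (k ▸ h3)) ha (n0 a ha) (fun k => hl ?_) k (fun x => ?_) (hβ a ha)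
      · obtain ⟨l', l1, l2, l3⟩ := hA _ (Ideal.IsPrime.comap _ (hK := q.2.1)) k
        rw [Ideal.mem_comap, map_natCast] at l3
        exact (Nat.prime_dvd_prime_iff_eq hQ.1 l2).1 (by
          exact_mod_cast P004S.ov_dvd q (a := l') (by exact_mod_cast l3)) ▸ l1
      · rw [mem_smul, inv_inv, smul_sub, mul_smul, mul_smul, smul_inv_smul]
        exact hi _))
    fun g hg m i => mv g i _ (fβ a ha _ (tm g hg i) ((dec P).mul_mem ((dec P).mul_mem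
        ((dec P).inv_mem (hs _).2.1) m) (hs _).2.1))
  refine ⟨fun a => if h : Ad0 p (v ^ k) A a then ⟨_, key a h⟩ else 0, fun a b ha hb h => ?_⟩
  simp only [dif_pos ha, dif_pos hb] at h
  obtain ⟨y, hy⟩ := P022.H916.fixed j (x := β a ha / β b hb) fun ⟨g, hg⟩ => by
    have f := congrFun (congrFun (congrArg (fun x => x.1.1) h) g) 0
    simp only [if_pos ((gH g).1 hg).1] at f
    have k := zz_rec (n := fun i => if i = 0 then 1 else 0) (fm a ha) (fm b hb)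
      (fun c hc => by simpa using indep hρ c hc) ((gH g).1 hg).1 ((gH g).1 hg).2 f
    simpa [s0] using k
  refine ⟨y, j.injective ?_⟩
  rw [map_mul, map_pow, hy, div_pow, ← hβ a ha, ← hβ b hb,
    div_mul_cancel₀ _ (pow_ne_zero _ (b0 b hb))]

end Vale.Agent.P014Z.Rp.Sp
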