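import Vale.Agent.P014Z.Rp.St2
import Vale.Agent.P014Z.Rp.Shp0

/-!
# P014Z, route Rp, row SHP
-/

set_option autoImplicit false
set_option linter.all false

open NumberField

namespace Vale.Agent.P014Z.Rp

open Vale.Agent.P022 (Qb GQ GK below)
open Vale.Agent.P014U

variable [Pp]

/-- **Kummer theory and the lemma of Shapiro** -/
theorem shp (rc2 : P004K.RC2) : SHP := by
  intro K _ _ j c M e L F H _ _ _ _ _ jH φ σ f _ P hP hφ hd v v' ip hv T h3 hT A hA R _ ρ hρ
  obtain ⟨m, hm⟩ := L.pow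
  refine Sp.core jH pp_ne_two (m := m + 2) (by rw [hm]; ring) L.add f.gH hP hd (fun x => ?_) f.gen
    hv.symm (v' := up H v') ?_ ?_ le_rfl h3 (fun g hg hi => L.ker g ?_) hA hρ.ker
  · rw [← hP.2.1.pow_mem_iff_mem (r := x) pp pp_pos, ← P.add_mem_iff_right (b := x ^ pp) (hφ x),
      sub_add_cancel]
  · rw [← Ideal.map_mul, ip.mul, Ideal.map_span, Set.image_singleton, map_natCast]
  · rw [← Ideal.map_sup, ip.cop, Ideal.map_top]
  · obtain ⟨l, hl, Q, hQ, hi⟩ := hi
    obtain ⟨-, -, -, r4, -, -, r7⟩ := rc2 K j L.iq c (Nat.pos_of_ne_zero L.sq.ne_zero)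
    have k := r7 Q hQ.2.1 (fun k => hQ.1.ne_zero (Nat.cast_eq_zero.1 (k.le hQ.2.2)))
      fun k => hl (hT l hQ.1 (by exact_mod_cast P004S.ov_dvd hQ (a := c) (by exact_mod_cast k)))
    simpa using (r4 _ 1 g (k 1 (GK j).one_mem 0 fun x => by simp)).1
      (k g hg 0 fun x => by simpa using hi x)

end Vale.Agent.P014Z.Rp
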