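import Vale.Agent.P014Z.Rp.St0
import Vale.Agent.P014Z.Su.Dep0
import Vale.Agent.P014T.Sg.Ff
import Vale.Agent.P004Z.Fin.Typ
import Vale.Agent.P004R.Klf
import Vale.Agent.P004R.Qf0
import Vale.Agent.P004K.Lt

/-! # P014Z, route R: the modular unit `Δ(τ) / Δ(p τ)` -/

set_option autoImplicit false
set_option linter.all false

open UpperHalfPlane CongruenceSubgroup ModularForm PowerSeries
open scoped MatrixGroups Real

noncomputable section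

namespace Vale.Agent.P014Z.Rp.Du

open Vale.Agent.P022 H236 H236.L3 H218.L3 H231.L3 H542.L3 P027H P027M.M P004K P014U P014T.Sg
open P004Z
open P004Z.Fin (su mo den Nv su_ne su_RR sv sv_RR nv_su val_RR su_mul Dl_ne)
open P004Z.EF (Val RatS)
open P014Z.Su.Dp

/-- holomorphic functions with expansions at all cusps are modular functions -/
theorem rr_mf {O : ValuationSubring ℂ} {f : ℍ → ℂ} (h : f ∈ Fin.RR O) {Γ : Subgroup SL(2, ℤ)}
    (hΓ : Nv Γ f) : inc f h.1 ∈ H218.L3.MF Γ := by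
  obtain ⟨N, hN, b⟩ := h.2.1
  have : NeZero N := ⟨hN.ne'⟩
  have := Fintype.ofFinite (SL(2, ℤ) ⧸ Gamma N)
  have e : ∀ γ : SL(2, ℤ), ∃ k : ℕ, ∀ l : ℕ, k ≤ l →
      IsBoundedAtImInfty ((fun τ => f (γ • τ)) * discriminant ^ l) := fun γ => by
    obtain ⟨n, hn, s, -, m, F, -, a⟩ := h.2.2 γ
    refine ⟨m.natAbs, fun l hl => Exq.bdd hn.ne' (a.mul ((exq_disc hn).pow l)) ?_⟩
    have : l ≤ l * n := Nat.le_mul_of_pos_right l hn
    rw [mul_zero, add_zero]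
    omega
  choose k e using e
  obtain ⟨l, hl⟩ : ∃ l, ∀ q : SL(2, ℤ) ⧸ Gamma N, k q.out⁻¹ ≤ l :=
    ⟨_, fun q => Finset.single_le_sum (f := fun q : SL(2, ℤ) ⧸ Gamma N => k q.out⁻¹)
      (fun _ _ => Nat.zero_le _) (Finset.mem_univ q)⟩
  have D := isMF_disc.pow l
  have s : ∀ γ : SL(2, ℤ), (f * discriminant ^ l) ∣[(l * 12 : ℤ)] γ =
      (fun τ => f (γ • τ)) * discriminant ^ l := fun γ => by
    rw [← zero_add (l * 12 : ℤ), mul_slash_SL2, D.slash γ trivial,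
      (funext fun τ => by rw [SL_slash_apply, neg_zero, zpow_zero, mul_one] :
        f ∣[(0 : ℤ)] γ = fun τ => f (γ • τ))]
  have D0 : discriminant ^ l ≠ 0 := fun e =>
    pow_ne_zero l (discriminant_ne_zero UpperHalfPlane.I) (congrFun e _)
  refine ⟨_, f * discriminant ^ l, _, ⟨mul_mem h.1 D.hol, fun γ m => by
    rw [s, funext (hΓ γ m)], fun γ => ?_⟩, D.mono le_top, D0, by
      rw [inc_mul h.1 D.hol, mul_div_cancel_right₀ _ (inc_ne_zero _ D0)]⟩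
  obtain ⟨δ, hδ⟩ := QuotientGroup.mk_out_eq_mul (Gamma N) γ⁻¹
  have := e _ l (hl (QuotientGroup.mk γ⁻¹))
  rw [hδ, mul_inv_rev, inv_inv] at this
  simp only [mul_smul, b _ (inv_mem δ.2)] at this
  rwa [s]

theorem int_val {f : ℍ → ℂ} (h : ∀ O, f ∈ Fin.RR O) {τ : ℍ} (hj : IsIntegral ℤ (jL (lat τ))) :
    IsIntegral ℤ (f τ) := by
  have : Algebra.IsIntegral ℤ (Subring.closure (∅ : Set ℂ)) := ⟨fun x => by
    obtain ⟨x, hx⟩ := x
    obtain ⟨n, rfl⟩ := Subring.mem_bot.1 (Subring.closure_empty (R := ℂ) ▸ hx)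
    exact isIntegral_algebraMap (R := ℤ) (x := n)⟩
  have k := iInf_valuationSubring_superset (s := (∅ : Set ℂ))
  have h0 : jf τ ∈ (integralClosure (Subring.closure (∅ : Set ℂ)) ℂ).toSubring :=
    (jL_lat τ ▸ hj).tower_top
  have h1 : f τ ∈ (integralClosure (Subring.closure (∅ : Set ℂ)) ℂ).toSubring := by
    rw [← k, Subring.mem_iInf] at h0 ⊢
    exact fun V => val_RR (h _) (h0 V)
  exact isIntegral_trans (A := Subring.closure (∅ : Set ℂ)) _ h1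

theorem su_dg (q : ℕ) (τ : ℍ) : su (Fin.dg q) τ = discriminant τ / discriminant (mo (Fin.dg q) τ) := by
  simp [su, den, Fin.dg]

theorem mo_dg {q : ℕ} (hq : 0 < q) (τ : ℍ) : ofComplex (q * τ) = mo (Fin.dg q) τ := by
  rw [← Fin.dg_coe hq, ofComplex_apply]

theorem cc (A : ℤ⟦X⟧) : constantCoeff (toCi A) = ((constantCoeff A : ℤ) : ℂ) := by
  rw [← coeff_zero_eq_constantCoeff_apply, coeff_map, coeff_zero_eq_constantCoeff_apply]
  rfl

theorem rat_ls (m : ℤ) (A : ℤ⟦X⟧) : RatS (ls m (toCi A)) := fun n => by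
  rcases lt_or_ge n m with h | h
  · exact ⟨0, by rw [coeff_ls_of_lt _ _ h, Rat.cast_zero]⟩
  · obtain ⟨k, rfl⟩ : ∃ k : ℕ, n = m + k := ⟨(n - m).toNat, by omega⟩
    exact ⟨(coeff k A : ℤ), by rw [coeff_ls, coeff_map, Rat.cast_intCast, eq_intCast]⟩

theorem exq_inv {m : ℤ} {A B : ℤ⟦X⟧} {f : ℍ → ℂ} (h : Exq 1 m (toCi A) f) (e : A * B = 1) :
    Exq 1 (-m) (toCi B) fun τ => (f τ)⁻¹ := by
  have e' : toCi A * toCi B = 1 := by rw [← map_mul, e, map_one]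
  have n : constantCoeff (toCi A) ≠ 0 := left_ne_zero_of_mul_eq_one (by rw [← map_mul, e', map_one])
  rw [show toCi B = (toCi A)⁻¹ from (eq_inv_iff_mul_eq_one n).2 ((mul_comm _ _).trans e')]
  exact (h.inv one_ne_zero n).2

theorem exq_dg {q : ℕ} (hq : 0 < q) {m : ℤ} {A : ℤ⟦X⟧} {f : ℍ → ℂ} (h : Exq 1 m (toCi A) f) :
    Exq 1 (q * m) (toCi (expand q hq.ne' A)) fun τ => f (mo (Fin.dg q) τ) := by
  rw [toCi, map_expand]
  exact h.mulTau hq.ne' (Fin.dg_coe hq)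

theorem exq_D : Exq 1 1 (toCi (pf 1 1 1 ^ 24)) discriminant := by
  have := exq_disc (N := 1) one_pos
  rw [show P014T.Sg.ee (0 : ℚ) = 1 by simp [P014T.Sg.ee], map_one, one_mul] at this
  rw [toCi, map_pow, pf_map, map_one]
  exact this

variable [Pp]

theorem Dq_eq : Dq = su (Fin.dg pp) := funext fun τ => by
  have : (2 * π : ℂ) ^ 12 ≠ 0 := pow_ne_zero _ (mul_ne_zero two_ne_zero
    (Complex.ofReal_ne_zero.2 Real.pi_ne_zero))
  rw [Dq, P004R.Kl.DL_eq, P004R.Kl.DL_eq, mul_div_mul_left _ _ this, su_dg, mo_dg pp_pos]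

theorem Dq_ne (τ : ℍ) : Dq τ ≠ 0 := Dq_eq ▸ su_ne (Fin.dg_pos pp_pos) τ

theorem Dq_hol : Dq ∈ Hol := Dq_eq ▸ (su_RR (O := ⊤) (Fin.dg_pos pp_pos)).1

theorem su_mem {q : ℕ} (hq : 0 < q) :
    inc _ (su_RR (O := ⊤) (Fin.dg_pos hq)).1 ∈ H218.L3.MF (Gamma0 q) :=
  rr_mf (O := ⊤) (su_RR (Fin.dg_pos hq)) (nv_su hq)

theorem Dq_mem : inc Dq Dq_hol ∈ H218.L3.MF (Gamma0 pp) := inc_congr _ Dq_eq ▸ su_mem pp_pos

theorem Dq_int {τ : ℍ} (hj : IsIntegral ℤ (jL (lat τ))) :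
    IsIntegral ℤ (Dq τ) ∧ IsIntegral ℤ (pp ^ 12 / Dq τ) :=
  Dq_eq ▸ ⟨int_val (fun _ => su_RR (Fin.dg_pos pp_pos)) hj, int_val (fun _ => sv_RR pp_pos) hj⟩

/-- the expansion -/
theorem exq_Dq : ∃ A B : ℤ⟦X⟧, A * B = 1 ∧ Exq 1 (1 + -(pp * 1)) (toCi A) Dq ∧
    Dw pp A (expand pp pp_ne A) (24 * (wf pp 1 1 1 - expand pp pp_ne (wf pp 1 1 1))) := by
  obtain ⟨Q, hQ⟩ : ∃ Q, pf (1 : ℤ) 1 1 ^ 24 * Q = 1 := IsUnit.exists_right_inv (IsUnit.pow _
    (isUnit_iff_constantCoeff.2 (by rw [pf_zero, if_neg one_ne_zero]; exact isUnit_one)))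
  have h := (dw_pf pp_prime pp_ne_two (1 : ℤ) one_pos le_rfl).pow 24
  rw [one_pow, ← ex_pf pp_ne _ _ one_pos, ← map_pow] at h
  have v : ∀ {A B : ℤ⟦X⟧}, A * B = 1 → expand pp pp_ne A * expand pp pp_ne B = 1 := fun e => by
    rw [← map_mul, e, map_one]
  refine ⟨pf 1 1 1 ^ 24 * expand pp pp_ne Q, Q * expand pp pp_ne (pf 1 1 1 ^ 24), by
    linear_combination (expand pp pp_ne (pf 1 1 1 ^ 24) * expand pp pp_ne Q) * hQ + v hQ, ?_, ?_⟩
  · rw [toCi, map_mul, Dq_eq, funext (su_dg pp)]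
    exact exq_D.mul (exq_inv (exq_dg pp_pos exq_D) (v hQ))
  · have k := h.map (expand pp pp_ne : ℤ⟦X⟧ →ₐ[ℤ] ℤ⟦X⟧).toRingHom
    simp only [AlgHom.toRingHom_eq_coe, RingHom.coe_coe] at k
    have := h.mul (k.inv (v hQ) (v (v hQ)))
    rw [map_mul, map_natCast, Nat.cast_ofNat] at this
    rwa [map_mul, mul_sub, sub_eq_add_neg]

/-- **the values at conjugate points are conjugate** -/
theorem Dq_cj (tr : TR0) {σ : ℂ ≃+* ℂ} {τ τ' : ℍ} (h : Cj0 σ pp τ τ') : Dq τ' = σ (Dq τ) := by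
  obtain ⟨A, -, -, e, -⟩ := exq_Dq
  exact P004R.Qf.val_uniq (P004R.Qf.val_inc τ' Dq_hol) (tr σ pp τ τ' pp_pos h _ Dq_mem _
    (e.exL.exM_inc Dq_hol) (rat_ls _ A) _ (P004R.Qf.val_inc τ Dq_hol))

/-- `(D(τ) ^ p / D(p τ) - 1) / p` -/
def Wq (τ : ℍ) : ℂ := (Dq τ ^ pp / Dq (ofComplex (pp * τ)) - 1) / pp

theorem Dq_dg (τ : ℍ) : Dq (ofComplex (pp * τ)) = su (Fin.dg (pp ^ 2)) τ / Dq τ := by
  have e : Fin.dg (pp ^ 2) = Fin.dg pp * Fin.dg pp := by simp [Fin.dg, sq]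
  rw [eq_div_iff (Dq_ne τ), e, su_mul (Fin.dg_pos pp_pos) (Fin.dg_pos pp_pos), Dq_eq, mo_dg pp_pos]

theorem Wq_eq : Wq = (fun _ => (pp : ℂ)⁻¹) * (Dq ^ (pp + 1) * (su (Fin.dg (pp ^ 2)))⁻¹ + fun _ => -1) :=
  funext fun τ => by
    simp only [Wq, Dq_dg, Pi.mul_apply, Pi.add_apply, Pi.pow_apply, Pi.inv_apply]
    rw [div_div_eq_mul_div]
    ring

theorem inv_hol {f : ℍ → ℂ} (h : f ∈ Hol) (n : ∀ τ, f τ ≠ 0) : f⁻¹ ∈ Hol := by
  have := MDifferentiable.div H236.L3.one_mem h n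
  rwa [show (fun _ => (1 : ℂ)) = (1 : ℍ → ℂ) from rfl, one_div] at this

theorem inc_inv {f : ℍ → ℂ} (h : f ∈ Hol) (n : ∀ τ, f τ ≠ 0) :
    inc f⁻¹ (inv_hol h n) = (inc f h)⁻¹ := by
  refine eq_inv_of_mul_eq_one_left ?_
  rw [← inc_mul, ← inc_one]
  exact inc_congr _ (funext fun τ => inv_mul_cancel₀ (n τ))

theorem Wq_hol : Wq ∈ Hol := Wq_eq ▸ mul_mem (Hol.algebraMap_mem _) (add_mem (mul_mem
  (pow_mem Dq_hol _) (inv_hol (su_RR (O := ⊤) (Fin.dg_pos (pow_pos pp_pos 2))).1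
    (su_ne (Fin.dg_pos (pow_pos pp_pos 2))))) (Hol.algebraMap_mem _))

theorem Wq_mem : inc Wq Wq_hol ∈ H218.L3.MF (Gamma0 (pp ^ 2)) := by
  have p2 := pow_pos pp_pos 2
  have h := (su_RR (O := ⊤) (Fin.dg_pos p2)).1
  have n := su_ne (Fin.dg_pos p2)
  have e : inc (Dq ^ (pp + 1)) (pow_mem Dq_hol _) = inc Dq Dq_hol ^ (pp + 1) :=
    map_pow (algebraMap Hol Mer) ⟨Dq, Dq_hol⟩ _
  rw [inc_congr _ Wq_eq, inc_mul (Bdd.const _).1 (add_mem (mul_mem (pow_mem Dq_hol _) (inv_hol h n))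
    (Bdd.const _).1), inc_add (mul_mem (pow_mem Dq_hol _) (inv_hol h n)) (Bdd.const _).1,
    inc_mul (pow_mem Dq_hol _) (inv_hol h n), inc_const, inc_const, inc_inv h n, e]
  refine mul_mem (IntermediateField.algebraMap_mem _ _) (add_mem (mul_mem (pow_mem (MF_mono
    (fun γ m => ?_) Dq_mem) _) (inv_mem (su_mem p2))) (IntermediateField.algebraMap_mem _ _))
  rw [Gamma0_mem, ZMod.intCast_zmod_eq_zero_iff_dvd] at m ⊢
  exact (Int.natCast_dvd_natCast.2 (dvd_pow_self _ two_ne_zero)).trans m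

theorem cw_cast (d : ℕ) : ((cw pp d : ℤ) : ZMod pp) = -(d : ZMod pp)⁻¹ := by
  by_cases h : pp ∣ d
  · rw [cw_dvd h, (ZMod.natCast_eq_zero_iff _ _).2 h, inv_zero, neg_zero, Int.cast_zero]
  · have := (ZMod.intCast_zmod_eq_zero_iff_dvd _ _).2 (cw_mul pp_prime h)
    push_cast at this
    rw [← neg_eq_iff_eq_neg]
    exact eq_inv_of_mul_eq_one_right (by linear_combination -this)

theorem wf_cast (n : ℕ) :
    ((coeff n (wf pp (1 : ℤ) 1 1) : ℤ) : ZMod pp) = -∑ d ∈ n.divisors, (d : ZMod pp)⁻¹ := by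
  rw [wf, coeff_mk, Finset.filter_true_of_mem fun _ _ => by simp only [Nat.mod_one]]
  simp only [Int.cast_sum, one_pow, mul_one, Int.cast_id, cw_cast]
  rw [Nat.sum_divisorsAntidiagonal' fun _ d => -(d : ZMod pp)⁻¹, Finset.sum_neg_distrib]

theorem sum_pp {n : ℕ} (h : pp ∣ n) :
    ∑ d ∈ (n / pp).divisors, (d : ZMod pp)⁻¹ = ∑ d ∈ n.divisors, (d : ZMod pp)⁻¹ := by
  obtain ⟨m, rfl⟩ := h
  rw [Nat.mul_div_cancel_left _ pp_pos]
  rcases eq_or_ne m 0 with rfl | m0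
  · simp
  refine Finset.sum_subset (Nat.divisors_subset_of_dvd (mul_ne_zero pp_ne m0) (dvd_mul_left _ _))
    fun d a b => ?_
  rw [(ZMod.natCast_eq_zero_iff _ _).2 (by_contra fun k => b (Nat.mem_divisors.2
    ⟨(pp_prime.coprime_iff_not_dvd.2 k).symm.dvd_of_dvd_mul_left (Nat.dvd_of_mem_divisors a),
      m0⟩)), inv_zero]

/-- **the expansion of `Wq`** -/
theorem exq_Wq : ∃ W : ℤ⟦X⟧, ExM 1 (ls 0 (toCi W)) (inc Wq Wq_hol) ∧ ∀ n, ((coeff n W : ℤ) : ZMod pp) =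
    if pp ∣ n then 0 else -24 * ∑ d ∈ n.divisors, (d : ZMod pp)⁻¹ := by
  obtain ⟨A, B, e, x, r, h⟩ := exq_Dq
  have v : expand pp pp_ne A * expand pp pp_ne B = 1 := by rw [← map_mul, e, map_one]
  have p0 : (pp : ℂ) ≠ 0 := Nat.cast_ne_zero.2 pp_ne
  generalize hw : wf pp (1 : ℤ) 1 1 = w at h
  refine ⟨24 * (w - expand pp pp_ne w) + pp * r, ExL.exM_inc _ ?_, fun n => ?_⟩
  · have y := (x.pow pp).mul (exq_inv (exq_dg pp_pos x) v)
    rw [add_neg_cancel, toCi, toCi, ← map_pow, ← map_mul, h, mul_right_comm, v, one_mul] at y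
    have z := (y.exL.add (ExL.const 1 (-1))).smul (pp : ℂ)⁻¹
    rw [← ls_C, ← ls_C, ls_add, ls_mul, add_zero] at z
    convert z using 2
    · have : C (pp : ℂ)⁻¹ * (pp : ℂ⟦X⟧) = 1 := by
        rw [← map_natCast (C (R := ℂ)), ← map_mul, inv_mul_cancel₀ p0, map_one]
      generalize 24 * (w - expand pp pp_ne w) = u
      simp only [toCi, map_add, map_mul, map_pow, map_natCast, map_one, map_neg]
      linear_combination -(toCi u + pp * toCi r) * this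
    · funext τ
      simp only [Wq, mo_dg pp_pos, Pi.smul_apply, Pi.add_apply, smul_eq_mul]
      ring
  · have c : ∀ (k : ℕ) (s : ℤ⟦X⟧), coeff n ((k : ℤ⟦X⟧) * s) = k * coeff n s := fun k s => by
      rw [← coeff_C_mul, map_natCast]
    have c' := c 24
    rw [Nat.cast_ofNat] at c'
    rw [map_add, c, c', map_sub, coeff_expand, ← hw]
    push_cast [apply_ite ((↑) : ℤ → ZMod pp), wf_cast, ZMod.natCast_self]
    split_ifs with k
    · rw [sum_pp k]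
      ring
    · ring

end Vale.Agent.P014Z.Rp.Du
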