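import Vale.Agent.P014Z.Rp.St2
import Vale.Agent.P014Z.Rp.Dq

/-! # P014Z, route R: the row TAU -/

set_option autoImplicit false
set_option linter.all false

namespace Vale.Agent.P014Z.Rp

open P014U

variable [Pp]

/-- **TAU** -/
theorem tau : TAU :=
  let ⟨Z, h, k⟩ := Du.exq_Wq
  ⟨Du.Wq, Du.Wq_hol, Z, fun _ => rfl, Du.Wq_mem, h, k⟩

end Vale.Agent.P014Z.Rp
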