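import Vale.Agent.P014Z.Rp.St4
import Vale.Agent.P014Y.Rd.Tw1

/-!
# P014Z, a rational point of order `p`: the first step of the tower
-/

set_option autoImplicit false
set_option linter.all false

open NumberField

noncomputable section

namespace Vale.Agent.P014Z.Rp

open Vale.Agent.P022 (Qb GQ GK below IsFrob)
open P004K P014U
open Vale.Agent.P022D.W (dec)
open Vale.Agent.P022E.GW (Ov Fb)
open Vale.Agent.P014Y.Rd.T1 (ex_pr spl hc_open ng_open)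
open Vale.Agent.P014Y.Rd.Ph (Ng)

variable [Pp]

theorem T1.down {B : Set Qb} {n : ℕ} {g : GQ} (hn : 0 < n) (h : Fx B (pp ^ n) g) : Fx B pp g := by
  obtain ⟨n, rfl⟩ := Nat.exists_eq_add_of_le' hn
  intro y e
  obtain ⟨z, rfl⟩ := IsAlgClosed.exists_pow_nat_eq y (pow_pos pp_pos n)
  rw [map_pow, h z (by rwa [pow_succ, pow_mul])]

/-- **TW1** -/
theorem tw1 (cls : CLS) (ph1 : PH1) (ki : KI) (ext : EXT) : TW1 := by
  intro K _ _ j kd γ hγ B P A bs ga S U Gq nq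
  classical
  obtain ⟨d, x, a, x1, x2, a1, a2⟩ := cls K j kd
  obtain ⟨h, h1, h2, h3, m, h4⟩ := nq.ex A ga.ne _ (hc_open (j := j) (pp ^ 2))
  refine ⟨d, m, fun n => ?_⟩
  have e : pp * pp ^ (n + 1) = pp ^ (n + 2) := (pow_succ' pp (n + 1)).symm
  obtain ⟨ζ, hζ⟩ := HasEnoughRootsOfUnity.exists_primitiveRoot Qb (pp * pp ^ (n + 1))
  obtain ⟨g₀, g1, g2, g3⟩ := ki K j kd γ hγ B P bs _ _ ζ 1 e hζ
  obtain ⟨g, p1, p2⟩ := ph1 K j kd d x a A x1 x2 (fun i => (a1 i).1) ga.ne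
    (fun i y g m k => (a1 i).2.elim fun I s => ga.cub _ I y g m (a1 i).1 s k) (n + 2)
    (Nat.succ_pos _) g₀ g1 (e ▸ g2)
  choose k _ k2 using fun i => h4 (g i) (T1.down (Nat.succ_pos _) (p1 i).2.1)
  let V := U m ⊓ Hc j (pp ^ 2) ⊓ Ng j (insert 1 (j '' A)) (pp ^ (n + 2))
  have oV : IsOpen (V : Set GQ) :=
    ((nq.opn m).1.inter (hc_open (pp ^ 2))).inter (ng_open A (by have := pp_pos; positivity))
  obtain ⟨q, Q, φ, i1, i2⟩ := ex_pr (fun i => (fun y => (g i * h ^ k i)⁻¹ * y) ⁻¹' V)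
    (fun i => ⟨oV.preimage (continuous_const.mul continuous_id), g i * h ^ k i, by
      simp [one_mem]⟩) (B ∪ (discr K).natAbs.primeFactors)
  have w : ∀ i, (g i)⁻¹ * φ i = h ^ k i * ((g i * h ^ k i)⁻¹ * φ i) := fun i => by group
  have w1 : ∀ i, (g i)⁻¹ * φ i ∈ Ng j (insert 1 (j '' A)) (pp ^ (n + 2)) := fun i =>
    w i ▸ mul_mem (pow_mem (show h ∈ Ng j _ _ from ⟨h1, h3 _⟩) _) (i2 i).2.2.2.2
  have w2 : ∀ i, (g i)⁻¹ * φ i ∈ Hc j (pp ^ 2) := fun i =>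
    w i ▸ mul_mem (pow_mem h2 _) (i2 i).2.2.2.1.2
  have f1 : ∀ i, φ i ∈ GK j := fun i => by simpa using mul_mem (p1 i).1 (w1 i).1
  have f2 : ∀ i, Fx {1} (pp * pp ^ (n + 1)) (φ i) := fun i y z => by
    rw [← mul_inv_cancel_left (g i) (φ i), AlgEquiv.mul_apply, (w1 i).2 y (.inl (e ▸ z)),
      (p1 i).2.1 y (e ▸ z)]
  have sp : ∀ i Q', Ov (q i) Q' → dec Q' ≤ GK j := fun i Q' o =>
    spl kd.iq (i2 i).2.1 (i2 i).2.2.1 (fun z => (i2 i).1 (Finset.mem_union_right _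
      (Nat.mem_primeFactors.2 ⟨o.1, Int.natCast_dvd.1 z, Int.natAbs_ne_zero.2 (discr_ne_zero K)⟩)))
      (f1 i) o
  have nb : ∀ i, q i ∉ B := fun i z => (i2 i).1 (Finset.mem_union_left _ z)
  obtain ⟨r1, r2⟩ := p2 φ fun i => ⟨f1 i, (w1 i).2⟩
  have pm : (List.ofFn φ).prod ∈ GK j := list_prod_mem fun y z => by
    obtain ⟨i, rfl⟩ := List.mem_ofFn.1 z
    exact f1 i
  have r3 := ga.stb _ ζ g₀ g1 _ (mul_mem (inv_mem g1) pm) 1 (by have := pp_pos; positivity) (e ▸ r1) g3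
  rw [mul_inv_cancel_left] at r3
  obtain ⟨ε, e1, e2, e3, e4, -⟩ := ext K j kd γ hγ B P bs _ _ ζ 1 e hζ _ q Q φ i1
    (fun i => ⟨(i2 i).2.1, sp i _ (i2 i).2.1, (i2 i).2.2.1, nb i, f2 i⟩) r3
  have xv : ∀ i i', x i (φ i') = if i = i' then 1 else 0 := fun i i' => by
    rw [← mul_inv_cancel_left (g i') (φ i'), (x1 i).add _ (p1 i').1 _ (w1 i').1,
      (x1 i).ker _ (w2 i'), add_zero, (p1 i').2.2]
  refine ⟨q, Q, φ, ε, ⟨i1, fun i => ⟨(i2 i).2.1, (i2 i).2.2.1, nb i, f2 i, ?_, fun Q' o =>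
    ⟨sp i Q' o, e3 i Q' o⟩⟩, e1, e2, e4⟩, fun i => ⟨x i, x1 i, by simp [xv], fun i' z => by
      rw [xv, if_neg z.symm]⟩, fun b y z hy f => ?_⟩
  · have := nq.stb m _ _ (i2 i).2.2.2.1.1 (k2 i)
    rwa [mul_inv_cancel_left] at this
  obtain ⟨μ, t, ht⟩ := a2 b z
  have b0 : (b : K) ≠ 0 := RingOfIntegers.coe_ne_zero_iff.2 z.1
  have y0 : y ≠ 0 := fun c => b0 ((map_eq_zero j).1 (by rw [← hy, c, zero_pow pp_ne]))
  obtain ⟨s, hs⟩ := r2 μ (j t / y) (by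
    rw [div_pow, hy, ← map_pow, ← ht, ← map_div₀, mul_div_cancel_left₀ _ b0])
    fun i => by rw [map_div₀, f1 i, f i]
  have s0 : s ^ pp ≠ 0 := hs ▸ Finset.prod_ne_zero_iff.2 fun i _ =>
    pow_ne_zero _ (RingOfIntegers.coe_ne_zero_iff.2 (a1 i).1)
  exact ⟨t / s, by rw [div_pow, ← ht, hs, mul_div_cancel_right₀ _ s0]⟩

end Vale.Agent.P014Z.Rp
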