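import Vale.Agent.P014Z.Rp.St4
import Vale.Agent.P014Y.Rd.Twr

/-!
# P014Z, a rational point of order `p`: the tower from its two steps (helper80)
-/

set_option autoImplicit false
set_option linter.all false

open NumberField
open scoped Pointwise

noncomputable section

namespace Vale.Agent.P014Z.Rp

open Vale.Agent.P022 (Qb GQ GK below IsFrob)
open P004K P014U
open Vale.Agent.P027M.S (Inert)
open Vale.Agent.P022D.W (dec)
open Vale.Agent.P022E.GW (Ov Fb)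
open P014Y.Rd.Tw (dvd_sub fb_smul fb_dec ex_i)

variable [Pp]

namespace Tw

variable {K : Type} [Field K] [NumberField K] {j : K →+* Qb} {c M : ℕ} {e : GQ → ZMod (pp * M)}
  {g t : GQ}

theorem cj (h : Ly j c M e) (m : g ∈ GK j) (m' : t ∈ GK j) : e (g * t * g⁻¹) = e t := by
  have a := h.add _ m _ (inv_mem m)
  rw [mul_inv_cancel, h.ker 1 (one_mem _)] at a
  rw [h.add _ (mul_mem m m') _ (inv_mem m), h.add _ m _ m', add_right_comm, ← a, zero_add]

theorem cj' (h : Ly j c M e) (r : RC1) (m : g ∉ GK j) (m' : t ∈ GK j) :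
    e (g * t * g⁻¹) = -e t := by
  have a := (r K j h.iq c (Nat.pos_of_ne_zero h.sq.ne_zero)).2.2.2.2.1 g m t m'
  have b : g * t * g⁻¹ ∈ GK j := by simpa using (GK j).mul_mem a.1 (inv_mem m')
  have d := h.ker _ a
  rw [h.add _ b _ m'] at d
  exact eq_neg_of_add_eq_zero_left d

end Tw

open Tw in
theorem twr (r1 : RC1) (bsx : BSX) (gen : GEN) (tw1 : TW1) (tw2 : TW2) (kil : KIL) : TWR := by
  classical
  intro K _ _ j S U Gq kd h2 h3 hS nq
  choose! P₀ hP₀ using fun p (hp : p ∈ S) => P004R.Cb.ex_ov (hS p hp).1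
  obtain ⟨B, P, sb, -, bs⟩ := bsx K j kd.iq S P₀ h3 fun p hp =>
    ⟨hP₀ p hp, (hS p hp).2 _ (hP₀ p hp)⟩
  obtain ⟨γ, hγ, -⟩ := kd.pos
  obtain ⟨A, a1, a2, a3, a4, a5⟩ := gen K j kd γ hγ B P bs
  have ga : Ga j γ B P A := ⟨a1, a2, a3, a4, a5⟩
  obtain ⟨d, m, h1⟩ := tw1 K j kd γ hγ B P A bs ga S U Gq nq
  obtain ⟨m', h2'⟩ := tw2 K j kd γ hγ B P A bs ga S U Gq sb nq
  refine ⟨d + 2, max m m', fun n => ?_⟩
  obtain ⟨q₁, Q₁, φ₁, e₁, p1⟩ := h1 n
  obtain ⟨q, Q, φ, e, p0, kl⟩ := h2' _ n d q₁ Q₁ φ₁ e₁ p1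
  have hq : ∀ i, (q i).Prime := fun i => (p0.pl i).1.1
  have ly : Ly j (∏ i, q i) (pp ^ (n + 1)) e :=
    { iq := kd.iq
      upm := kd.upm
      pow := ⟨n, rfl⟩
      sq := Finset.squarefree_prod_of_pairwise_isCoprime
        (fun i _ i' _ ne => Nat.coprime_iff_isRelPrime.1
          ((Nat.coprime_primes (hq i) (hq i')).2 fun a => ne (p0.inj a)))
        fun i _ => (hq i).squarefree
      one := (hq none).one_lt.trans_le (Nat.le_of_dvd (Finset.prod_pos fun i _ => (hq i).pos)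
        (Finset.dvd_prod_of_mem _ (Finset.mem_univ _)))
      add := p0.add
      ker := p0.ker
      ram := fun l L o dv => by
        obtain ⟨i, rfl⟩ := ex_i hq o.1 dv
        exact ⟨(kl.pl i).2.2.1, (p0.pl i).2.2.2.2.2 L o⟩ }
  refine ⟨∏ i, q i, e, ⟨ly, h2, h3, fun p hp => ⟨(hS p hp).1, fun dv => ?_, fun L o =>
    ⟨(hS p hp).2 L o, fun ψ f => ?_⟩⟩⟩, kil K j kd _ q Q φ none _ _ kl, ?_, fun l hl dv => ?_⟩
  · obtain ⟨i, rfl⟩ := ex_i hq (hS p hp).1 dv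
    exact (p0.pl i).2.2.1 (sb hp)
  · obtain ⟨g, hg⟩ := P022E.GW.Tg.trans o (bs.ov p (sb hp)).1
    have v := p0.val p (sb hp) _ (hg ▸ fb_smul f g)
    have k := (hS p hp).2 L o (fb_dec o f)
    by_cases hg' : g ∈ GK j
    · rw [cj ly hg' k] at v
      exact v ▸ isUnit_one
    · rw [cj' ly r1 hg' k, neg_eq_iff_eq_neg] at v
      exact v ▸ isUnit_one.neg
  · refine (Finset.card_le_card (t := Finset.univ.image q) fun l hl => ?_).trans
      (Finset.card_image_le.trans (by simp))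
    obtain ⟨i, rfl⟩ := ex_i hq (Nat.prime_of_mem_primeFactors hl) (Nat.dvd_of_mem_primeFactors hl)
    exact Finset.mem_image_of_mem _ (Finset.mem_univ _)
  · obtain ⟨i, rfl⟩ := ex_i hq hl dv
    obtain ⟨o, f, nb, fx, gq, -⟩ := p0.pl i
    refine ⟨(show pp ^ n ∣ pp * pp ^ (n + 1) from ⟨pp ^ 2, by ring⟩).trans (dvd_sub o (fun a => nb ?_) f fx),
      fun g hg => ?_⟩
    · rw [← pow_succ'] at a
      rw [(Nat.prime_dvd_prime_iff_eq hl pp_prime).1 (hl.dvd_of_dvd_pow a)]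
      exact bs.thr
    · obtain ⟨x, s, hs, rfl⟩ := P004R.Wr.fb_cj o f hg
      obtain ⟨-, nr, un⟩ := nq.opn (max m m')
      refine nq.cj _ _ x ?_
      rw [show s * φ i = φ i * ((φ i)⁻¹ * s * (φ i)⁻¹⁻¹) by group]
      exact nq.stb _ _ _ (nr.conj_mem _ (un _ _ o (fun a => nb (sb a)) s hs) _)
        (gq.elim (nq.mono _ _ _ (le_max_left _ _)) (nq.mono _ _ _ (le_max_right _ _)))

end Vale.Agent.P014Z.Rp
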