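import Vale.Agent.P014Z.Rp.St
import Vale.Agent.P014Z.Rp.Dq
import Vale.Agent.P014Y.Rd.Uni
import Vale.Agent.P004R.Qf

/-!
# P014Z, route R: the row UNI (the elliptic unit on `X₀(p)`)
-/

set_option autoImplicit false
set_option linter.all false

open UpperHalfPlane NumberField
open scoped Pointwise

noncomputable section

namespace Vale.Agent.P014Z.Rp

open Vale.Agent.P022 P027H P027M.M P004K P014U
open Vale.Agent.P022D.W (dec phi_mem phi_pow)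
open Vale.Agent.P022E.GW (Ov Fb)
open P004R.Ui (assoc gl_eq not_mem)
open P004R.Ve (DL_ne DL_hom)
open P014Y.Rd.Ui (cn compl)

variable [Pp]

namespace Ui

variable {Λ Λ₁ : Submodule ℤ ℂ} {τ : ℍ}

theorem coe_pp (τ : ℍ) : ((ofComplex (pp * τ) : ℍ) : ℂ) = pp * τ := by
  rw [ofComplex_apply_of_im_pos (by simpa using mul_pos (Nat.cast_pos.2 pp_pos) τ.im_pos)]

theorem dq_at (h : At pp Λ Λ₁ τ) : Dq τ * DL Λ₁ = pp ^ 12 * DL Λ ∧
    jL (lat (ofComplex (pp * τ))) = jL Λ₁ ∧ DL Λ₁ ≠ 0 := by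
  obtain ⟨ω, hω, rfl⟩ := Hg.at_iff.1 h
  have hh := Hg.hom_ov pp_pos hω (coe_pp τ)
  refine ⟨?_, (jL_hom hh (isLat _)).symm, DL_ne (hh.isLat (isLat _))⟩
  have := DL_ne (isLat (ofComplex (pp * τ)))
  have := hω.1
  have : (pp : ℂ) ≠ 0 := Nat.cast_ne_zero.2 pp_ne
  rw [Dq, DL_hom hh, DL_hom hω]
  field_simp

theorem gl_pp (τ : ℍ) :
    Real.log ‖Dq τ‖ = Gl τ - Gl (ofComplex (pp * τ)) + 6 * Real.log pp := by
  have e : (ofComplex (pp * τ) : ℍ).im = pp * τ.im := by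
    rw [← coe_im, coe_pp]
    simp
  have n1 := norm_ne_zero_iff.2 (DL_ne (isLat τ))
  have n2 := norm_ne_zero_iff.2 (DL_ne (isLat (ofComplex (pp * τ))))
  have n3 := τ.im_pos.ne'
  have n4 : (pp : ℝ) ≠ 0 := Nat.cast_ne_zero.2 pp_ne
  rw [Dq, P004R.Gl, P004R.Gl, e, norm_div, Real.log_div n1 n2, Real.log_mul (by positivity) n1,
    Real.log_mul (by positivity) n2, mul_pow, Real.log_mul (by positivity) (by positivity),
    Real.log_pow pp]
  push_cast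
  ring

end Ui

open Ui

/-- **UNI** -/
theorem uni (tr : TR0) (hI : IQ) (hH : HG1) (hC : CJ0) (h1 : P004K.RC1) (h2 : P004K.RC2)
    (hN : P004K.INT) (hJ : JH) : UNI := by
  intro K _ _ j c q hc co P φ hP hd hφ
  have co' := pp_prime.coprime_iff_not_dvd.2 co
  have pz : (pp : ℤ) ≠ 0 := Nat.cast_ne_zero.2 pp_ne
  obtain ⟨nm, hn⟩ := cn q hP hd hφ
  obtain ⟨ω, B⟩ := Hg.bs hI q j
  obtain ⟨η, hη, B⟩ := B.ex hn
  obtain ⟨t, n, e⟩ := B.sq
  obtain ⟨cj, Q⟩ := Rc.ex_qd B.inj B.bas B.im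
  have m2 : ((pp : ℤ) : 𝓞 K) ∈ below j P := (hn.1 pp).2 dvd_rfl
  have mi : ∀ i : ℕ, (((pp : ℤ) ^ i : ℤ) : 𝓞 K) ∈ below j P ^ i := fun i => by
    rw [Int.cast_pow]
    exact Ideal.pow_mem_pow m2 i
  have c2 : IsCoprime (pp : ℤ) c := Nat.isCoprime_iff_coprime.2 co'
  have cp : ∀ i : ℕ, Cop c (below j P ^ i) := fun i => by
    obtain ⟨u, v, k⟩ := c2.pow_left (m := i)
    refine Rc.cop_of (u := u * ((pp : ℤ) ^ i : ℤ)) (b := v) (fun a => ?_)
      (Ideal.mul_mem_left _ _ (mi i))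
      (by rw [mul_comm _ (v : 𝓞 K)]; exact_mod_cast congrArg (Int.cast : ℤ → 𝓞 K) k)
    have := mi i
    rw [a, Ideal.mem_bot, Int.cast_eq_zero] at this
    exact pow_ne_zero i pz this
  have hg : φ ∈ GK j := hd (phi_mem hP.1 hP.2.1 hφ)
  obtain ⟨r1, r2, -⟩ := h1 K j q c hc
  obtain ⟨-, -, -, -, r5, -, r7⟩ := h2 K j q c hc
  have ar : ∀ i : ℕ, Ar j c (below j P ^ i) (φ ^ i) := fun i =>
    r7 P hP.2.1 (fun a => by
      have := hP.2.2
      rw [a, Ideal.mem_bot] at this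
      exact pp_ne (Nat.cast_eq_zero.1 this)) (fun a => co
        (Int.natCast_dvd_natCast.1 (H20.dvd_of_mem hP.1 hP.2.1 hP.2.2 (by exact_mod_cast a))))
      _ (pow_mem hg i) i (by rw [nm]; exact phi_pow hP.1 hP.2.1 hφ i)
  obtain ⟨⟨τ, hτ⟩, -, g3, g4, -⟩ := hH K j q pp c (below j P) pp_pos hc co'.symm hn
  have j1 : jL (lat τ) = io (jc j c) := (Hg.At.j hτ).symm.trans r1.symm
  have j2 : jL (lat (ofComplex (pp * τ))) = io (φ (jc j c)) := by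
    have := (ar 1).2
    rw [pow_one, pow_one] at this
    rw [this, (dq_at hτ).2.1]
  obtain ⟨i1, i2⟩ := Du.Dq_int (let ⟨l, a, b⟩ := g3 τ hτ; hN τ l a b)
  obtain ⟨s, hs⟩ := ex_io (i1.isAlgebraic.extendScalars (algebraMap ℤ ℚ).injective_int)
  have s0 : s ≠ 0 := fun a => Du.Dq_ne τ (by rw [← hs, a, map_zero])
  have ii : ∀ x : Qb, IsIntegral ℤ (io x) → IsIntegral ℤ x := fun x =>
    (isIntegral_algHom_iff (io.restrictScalars ℤ) P004K.io_inj).1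
  have i3 : IsIntegral ℤ (pp ^ 12 / s) := ii _ (by rwa [map_div₀, map_pow, map_natCast, hs])
  obtain ⟨S, rfl⟩ : ∃ S : 𝓞 Qb, (S : Qb) = s := ⟨⟨s, ii _ (hs ▸ i1)⟩, rfl⟩
  obtain ⟨T, hT⟩ : ∃ T : 𝓞 Qb, S * T = pp ^ 12 := ⟨⟨_, i3⟩, RingOfIntegers.ext (by
    rw [RingOfIntegers.coe_eq_algebraMap ((pp : 𝓞 Qb) ^ 12), map_pow, map_natCast]
    exact mul_div_cancel₀ _ s0)⟩
  have cv : ∀ g σ τ', Ex σ g → Cj0 σ pp τ τ' → io (g S) = Dq τ' := fun g σ τ' a b => by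
    rw [Du.Dq_cj tr b, ← hs, a]
  have lt : ∀ i : ℕ, IsLat (st (JJ j) (below j P ^ i) (Oc (JJ j) c)) := fun i =>
    Rc.lat_st (B.lat hc) (pow_ne_zero i pz) (mi i)
  have tel : ∀ f : ℕ, JJ (RingHom.id Qb) (∏ i ∈ Finset.range f, φ ^ i • S) *
      DL (st (JJ j) (below j P ^ f) (Oc (JJ j) c)) = (pp ^ 12) ^ f * DL (Oc (JJ j) c) := fun f => by
    induction f with
    | zero => simp [Rc.st_top]
    | succ f ih =>
      obtain ⟨σ, a⟩ := ex_ex (φ ^ f)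
      obtain ⟨τ', b⟩ := (hC σ pp pp_pos).1 τ
      obtain ⟨ψ, p⟩ := Hg.tp_of_j hJ (σ := σ) (B.lat hc) (lt f)
        (by rw [Hg.ar_j h1 q hc a, (ar f).2])
      have k := (dq_at ((Hg.st_cj pp_pos hτ p (a.JJ (pow_mem hg f))).2 b)).1
      rw [Hg.st_mul Hg.kl_Oc m2 (mi f) c2 c2.pow_left, ← pow_succ', ← cv _ _ _ a b] at k
      rw [Finset.prod_range_succ, map_mul]
      change _ * io ((φ ^ f) S) * _ = _
      rw [mul_assoc, k, mul_left_comm, ih]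
      ring
  have := H916.isGalois_Qb
  have := (Hc j c).quotient_finite_of_isOpen r2
  obtain ⟨f, f0, -, hf⟩ := Subgroup.exists_pow_mem_of_index_ne_zero
    (Hc j c).index_ne_zero_of_finite φ
  obtain ⟨k, a, hπ⟩ := (r5 _ _ (cp f) (ar f)).1 hf
  have rc : Rc.Rc c (k + c * a) := ⟨k, a, rfl⟩
  generalize (k + c * a : 𝓞 K) = π at hπ rc
  have p0 : π ≠ 0 := fun a => (cp f).1 (by rw [hπ, a, Ideal.span_singleton_eq_bot])
  obtain ⟨π', pπ, cop⟩ := compl hP.1 hn B.bas hη e (not_mem q hP.2.1 hd B.bas hη e) p0 hπ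
  have hh := Q.st_span (Q.kl_Oc hc) rc (hπ ▸ cp f)
  set F := RingOfIntegers.mapRingHom j with hF
  have F0 : ∀ x, x ≠ 0 → F x ≠ 0 := fun x a b => Q.J_ne a (by
    change io (F x : Qb) = 0
    rw [b]; simp)
  have pq : F π ^ 12 * F π' ^ 12 = (pp ^ 12) ^ f := by
    rw [← mul_pow, ← map_mul, pπ, map_pow, map_natCast, pow_right_comm]
  have d1 : ∏ i ∈ Finset.range f, φ ^ i • S = F π' ^ 12 := by
    refine mul_left_cancel₀ (pow_ne_zero 12 (F0 π p0)) (Eq.trans ?_ pq.symm)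
    have inj : Function.Injective (JJ (RingHom.id Qb)) := fun _ _ a =>
      RingOfIntegers.ext (P004K.io_inj a)
    refine inj ?_
    have k := tel f
    have := hh.1
    rw [hπ, DL_hom hh, ← mul_assoc, mul_left_inj' (DL_ne (hπ ▸ lt f))] at k
    simp only [map_mul, map_pow, map_natCast, k]
    change JJ j π ^ 12 * _ = _
    field_simp
  have sm : ∀ g : GQ, g • (pp ^ 12 : 𝓞 Qb) = pp ^ 12 := fun g =>
    (map_pow (MulSemiringAction.toRingHom GQ (𝓞 Qb) g) _ 12).trans (by rw [map_natCast])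
  have d2 : ∏ i ∈ Finset.range f, φ ^ i • T = F π ^ 12 := by
    refine mul_right_cancel₀ (pow_ne_zero 12 (F0 π' fun a => ?_)) (Eq.trans ?_ pq.symm)
    · rw [a, mul_zero] at pπ
      exact pow_ne_zero f (Nat.cast_ne_zero.2 pp_ne) pπ.symm
    · rw [← d1, ← Finset.prod_mul_distrib]
      simp only [← smul_mul', mul_comm T, hT, sm, Finset.prod_const, Finset.card_range]
  have dv : ∀ g ∈ GK j, ∀ (x : 𝓞 Qb) (y : 𝓞 K), ∏ i ∈ Finset.range f, φ ^ i • x = F y ^ 12 →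
      g • x ∣ F y ^ 12 := fun g hg x y e => by
    have k := Finset.dvd_prod_of_mem (fun i => φ ^ i • x) (Finset.mem_range.2 f0)
    rw [e, pow_zero, one_smul] at k
    have := map_dvd (MulSemiringAction.toRingHom GQ (𝓞 Qb) g) k
    rwa [map_pow, MulSemiringAction.toRingHom_apply, MulSemiringAction.toRingHom_apply, hF,
      H20.smul_map, H20.mem_GK.1 hg] at this
  have cq : IsCoprime (F π' ^ 12) (F π ^ 12) := (cop.symm.map F).pow
  refine ⟨S, fun g hg => ?_, fun g hg => ⟨fun a => ?_, ?_⟩, fun g _ τ₁ τ₂ a1 a2 => ?_,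
    fun g _ σ τ₁ τ₂ a b b' => ?_⟩
  · obtain ⟨σ, a⟩ := ex_ex g
    exact RingOfIntegers.ext (P004K.io_inj ((cv g σ τ a ((g4 τ σ g hg.1 hτ a).1 hg)).trans hs.symm))
  · obtain ⟨u, v, k⟩ := cq
    have b : π ∈ below j P := Ideal.pow_le_self f0.ne' (hπ ▸ Ideal.mem_span_singleton_self π)
    exact hP.2.1.ne_top ((Ideal.eq_top_iff_one _).2 (k ▸ P.add_mem (P.mul_mem_left _
      (P.mem_of_dvd (dv g hg _ _ d1) a)) (P.mul_mem_left _ (P.pow_mem_of_mem b 12 (by norm_num)))))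
  · refine assoc (a' := g • T) (b' := T) ?_ cq (dv g hg _ _ d1) (dv g hg _ _ d2)
      (by simpa using dv 1 (one_mem _) _ _ d1) (by simpa using dv 1 (one_mem _) _ _ d2)
    rw [← smul_mul', hT, sm]
  · obtain ⟨σ, a⟩ := ex_ex g
    obtain ⟨τ', b⟩ := (hC σ pp pp_pos).1 τ
    have k1 : jL (lat τ₁) = jL (lat τ') := by rw [a1, b.choose_spec.1.jL, j1, a]
    have k2 : jL (lat τ₂) = jL (lat (ofComplex (pp * τ'))) := by
      rw [a2, AlgEquiv.mul_apply, ← a, ← j2, jL_lat, jL_lat,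
        P004R.Qf.j_cj tr pp_pos dvd_rfl b (coe_pp τ) (coe_pp τ')]
    rw [cv g σ τ' a b, gl_eq hJ k1, gl_eq hJ k2, gl_pp]
  · rw [Du.Dq_cj tr b', mul_right_cancel₀ (dq_at b).2.2 ((dq_at b).1.trans (dq_at hτ).1.symm), ← hs, a]

end Vale.Agent.P014Z.Rp
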