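import Vale.Agent.P014Z.Rp.Abs
import Vale.Agent.P014Z.Rp.Adj
import Vale.Agent.P014Z.Rp.Alg
import Vale.Agent.P014Z.Rp.Art
import Vale.Agent.P014Z.Rp.Bsx
import Vale.Agent.P014Z.Rp.Cls
import Vale.Agent.P014Z.Rp.Cnf
import Vale.Agent.P014Z.Rp.Dpt
import Vale.Agent.P014Z.Rp.Du
import Vale.Agent.P014Z.Rp.Du1
import Vale.Agent.P014Z.Rp.Ext
import Vale.Agent.P014Z.Rp.Fac
import Vale.Agent.P014Z.Rp.Fld
import Vale.Agent.P014Z.Rp.Gdr
import Vale.Agent.P014Z.Rp.Gen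
import Vale.Agent.P014Z.Rp.Ins1
import Vale.Agent.P014Z.Rp.Ki
import Vale.Agent.P014Z.Rp.Kil
import Vale.Agent.P014Z.Rp.Kuk
import Vale.Agent.P014Z.Rp.Kx
import Vale.Agent.P014Z.Rp.Lev
import Vale.Agent.P014Z.Rp.Lex
import Vale.Agent.P014Z.Rp.Lfa
import Vale.Agent.P014Z.Rp.Lfb
import Vale.Agent.P014Z.Rp.Lin
import Vale.Agent.P014Z.Rp.Loc
import Vale.Agent.P014Z.Rp.Loi
import Vale.Agent.P014Z.Rp.Low
import Vale.Agent.P014Z.Rp.Mu
import Vale.Agent.P014Z.Rp.Mul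
import Vale.Agent.P014Z.Rp.Ph1
import Vale.Agent.P014Z.Rp.Qf
import Vale.Agent.P014Z.Rp.Reg
import Vale.Agent.P014Z.Rp.Shf
import Vale.Agent.P014Z.Rp.Shp
import Vale.Agent.P014Z.Rp.Tau
import Vale.Agent.P014Z.Rp.Top
import Vale.Agent.P014Z.Rp.Tw1
import Vale.Agent.P014Z.Rp.Tw2
import Vale.Agent.P014Z.Rp.Twr
import Vale.Agent.P014Z.Rp.Uni
import Vale.Agent.P004K.Rc.All
import Vale.Agent.P004K.Hg.At
import Vale.Agent.P004K.Tr
import Vale.Agent.P004F.Qx.Exp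
import Vale.Agent.P004F.Qx.Dep
import Vale.Agent.P004F.Qx.Vex

/-! # P014Z, block Rp: the rows together -/

set_option autoImplicit false

namespace Vale.Agent.P014Z.Rp

open P004K P004F P014U

variable [Pp]

theorem lev_all : LEV :=
  have g := gdr x_rc1 x_rc2
  lev x_rc1 (alg g lex (mu x_rc1 x_rc2 kuk val) loi (du du1))
    (low (fld x_rc1 x_rc2) (cnf reg (lfa x_rc2) (lfb x_rc1 x_rc2 Rc.iq) x_rc1) (ins abs loc)
      (dpt x_rc1) (shp x_rc2)) shf mul g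

theorem twr_all : TWR :=
  have e := ext x_rc1 x_rc2 x_rc3
  twr x_rc1 bsx gen (tw1 (cls x_rc1 x_rc2 cub) (ph1 ki0 (kx x_rc1)) ki e)
    (tw2 x_rc1 x_rc2 e (adj x_rc1) lin cbr) (kil x_rc1 x_rc2)

/-- **the anchor for a rational point of order `p`**, no hypothesis -/
theorem redp_all : REDP :=
  have h := hg1 Rc.iq jh x_rc1 cj0
  redp h cj0 (Qx.qexp Qx.vex h (Qx.dep_row h x_rc2))
    (uni tr0 Rc.iq h cj0 x_rc1 x_rc2 int_row jh) (qf Qx.mpc Qx.vex h x_rc2 tr0 tau) csg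
    twr_all lev_all fac

end Vale.Agent.P014Z.Rp
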