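import Vale.Agent.P014Z.Rp.St2
import Vale.Agent.P014Y.F.Defs

/-!
# P014Z, a rational point of order `p`: one level, the link with the frame, the export
-/

set_option autoImplicit false
set_option linter.all false

open NumberField Matrix
open scoped Pointwise PowerSeries

noncomputable section

namespace Vale.Agent.P014Z.Rp

open Vale.Agent.P022 (Qb GQ GK IsFrob)
open P004K P014U
open Vale.Agent.P022D.W (dec)
open Vale.Agent.P022E.GW (Ov Fb)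
open Vale.Agent.P022K.G2 (Tv oz)
open Vale.Agent.P014Y.F (Crv Fld)

variable [Pp]

/-- **the two rank one groups** -/
def ALG : Prop := ∀ (K : Type) [Field K] [NumberField K] (j : K →+* Qb) (S : Finset ℕ) (k : ℕ),
  ∃ B : ℕ, ∀ (c M : ℕ) (e : GQ → ZMod (pp * M)), Lv j c M e S → c.primeFactors.card ≤ k →
  ∀ P, Ov pp P → Sl j c (eb e) P → ∀ (R : Type) [CommRing R] (ρ : (ZMod pp)⟦X⟧ →+* R) J, Tq ρ J →
  J ≤ pp * M → Finite (Zr (GK j) (S ∪ c.primeFactors) (ch ρ e) P) ∧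
    Finite (Zr (GK j) (S ∪ c.primeFactors) (tw ρ (ch ρ e)) P) ∧
    Nat.card (Zr (GK j) (S ∪ c.primeFactors) (ch ρ e) P) *
      Nat.card (Zr (GK j) (S ∪ c.primeFactors) (tw ρ (ch ρ e)) P) ≤ pp ^ B ∧
    (2 ≤ J → pp ^ (2 * (S.filter fun p => p % pp = 1).card) *
      Nat.card (Zr (GK j) (S ∪ c.primeFactors) (tw ρ (ch ρ e)) P) ≤
      pp ^ (2 * (S.erase pp).card) * Nat.card (Zr (GK j) (S ∪ c.primeFactors) (ch ρ e) P)) ∧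
    ∀ (R' : Type) [CommRing R'] (ρ' : (ZMod pp)⟦X⟧ →+* R') J', Tq ρ' J' → 0 < J' → J' ≤ pp * M →
      Nat.card (Zr (GK j) (S ∪ c.primeFactors) (tw ρ (ch ρ e)) P) ≤
        Nat.card (Zr (GK j) (S ∪ c.primeFactors) (tw ρ' (ch ρ' e)) P)

/-- **the lower bound on the Kummer side** -/
def LOW : Prop := pp ≠ 3 → ∀ (K : Type) [Field K] [NumberField K] (j : K →+* Qb) (S : Finset ℕ) (c M : ℕ)
  (e : GQ → ZMod (pp * M)), Lv j c M e S → ∀ P φ, Ov pp P → Fb pp P φ → ∀ z, Us j c P φ z →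
  (∀ g ∈ GK j, P004K.Ip P (hs φ z g)) → ∀ R, Tv (GK j) (Hc j c) R →
  ∀ (A : Type) [CommRing A] (ρ : (ZMod pp)⟦X⟧ →+* A), Tq ρ (pp * M) →
  Finite (Zr (GK j) (S ∪ c.primeFactors) (tw ρ (ch ρ e)) P) →
  Nat.card (Zr (GK j) (S ∪ c.primeFactors) (tw ρ (ch ρ e)) P) < pp ^ M →
  ∀ l, l + 1 ≤ (pp - 1) * M → Vn P R e (hs φ z) l →
    pp ^ (l + 2 * (S.erase pp).card) ≤ Nat.card (Zr (GK j) (S ∪ c.primeFactors) (tw ρ (ch ρ e)) P)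

/-- **one level** -/
def LEV : Prop := pp ≠ 3 → ∀ (K : Type) [Field K] [NumberField K] (j : K →+* Qb) (S : Finset ℕ) (k : ℕ),
  ∃ B : ℕ, ∀ (c M : ℕ) (e : GQ → ZMod (pp * M)), Lv j c M e S → c.primeFactors.card ≤ k →
  ∀ (P : ℕ → Ideal (𝓞 Qb)) (φ : ℕ → GQ), (∀ p ∈ S, Ov p (P p) ∧ Fb p (P p) (φ p)) →
  Sl j c (eb e) (P pp) →
  (∀ (A : Type) [CommRing A] (ρ : (ZMod pp)⟦X⟧ →+* A) J, Tq ρ J → J ≤ pp * M →
    ∀ b : GQ → Matrix (Fin 2) (Fin 2) (ZMod pp), G3 (GK j) (S ∪ c.primeFactors) b → Fv (GK j) b →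
    (∀ g ∈ GK j, (b g).det = oz pp g) →
    Finite (Z0 (GK j) (S ∪ c.primeFactors) (r2 ρ (ch ρ e) b) (P pp)) ∧
    Nat.card (Z0 (GK j) (S ∪ c.primeFactors) (r2 ρ (ch ρ e) b) (P pp)) ≤ pp ^ B) ∧
  (B < M → ∀ z, Us j c (P pp) (φ pp) z → (∀ g ∈ GK j, P004K.Ip (P pp) (hs (φ pp) z g)) →
    ∀ (L : List ℕ), L.Nodup → L.toFinset = S.erase pp → ∃ l,
    (∀ R, Tv (GK j) (Hc j c) R → ∀ h : GQ → Qb,
      (∀ g ∈ R, Zp (P pp) (24 * h g + dpl φ (hs (φ pp) z) L g)) → ¬ Vn (P pp) R e h (l + 1)) ∧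
    ∀ (A : Type) [CommRing A] (ρ : (ZMod pp)⟦X⟧ →+* A) J, Tq ρ J → B ≤ J → J ≤ pp * M →
    ∀ b : GQ → Matrix (Fin 2) (Fin 2) (ZMod pp), G3 (GK j) (S ∪ c.primeFactors) b → Fv (GK j) b →
    (∀ g ∈ GK j, (b g).det = oz pp g) →
    pp ^ (2 * l) ≤ Nat.card (Z0 (GK j) (S ∪ c.primeFactors) (r2 ρ (ch ρ e) b) (P pp)))

/-- the residual representation -/
def rb (e : Crv) (g : GQ) : Matrix (Fin 2) (Fin 2) (ZMod pp) := (e.r g).map PadicInt.toZMod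

/-- a rational point of order `p` on the curve or on the dual side -/
def Eis (e : Crv) : Prop := Fv ⊤ (rb e)

/-- the model ring -/
abbrev rq (J : ℕ) : (ZMod pp)⟦X⟧ →+* P014Y.F.Rb J := Ideal.Quotient.mk _

/-- facts on the frame -/
def FAC : Prop := ∀ (e : Crv) (b : Fld e), Kd b.j ∧
  (∀ p ∈ e.S.toFinset, p.Prime ∧ ∀ Q, Ov p Q → dec Q ≤ GK b.j) ∧
  (∃ U Gq, Nq b.j e.S.toFinset U Gq ∧ ∀ m, ∃ m', ∀ q : ℕ, q.Prime → q ∉ e.S →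
    (∀ g, IsFrob q g → Gq m g) → ¬ (pp : ℤ) ^ m' ∣ ((q : ℤ) + 1) ^ 2 - e.a q ^ 2) ∧
  (∀ c : ℕ, G3 (GK b.j) (e.S.toFinset ∪ c.primeFactors) (rb e)) ∧ (∀ g, (rb e g).det = oz pp g) ∧
  (∀ q Q, Ov q Q → q ≠ 2 → dec Q ≤ GK b.j → ¬ q ∣ b.δ' ∧ Typ b.K q (q - 1)) ∧
  (Eis e → ∀ l : ℕ, l.Prime → l ∉ e.S → ¬ l ∣ e.N ∧ (pp : ℤ) ∣ e.a l - (1 + l)) ∧
  ∀ J, Tq (rq J) J ∧ ∀ (c n : ℕ) (x : GQ → ZMod n),
    Nonempty (b.Z0 J c (fun g => (x g).val) ≃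
      Z0 (GK b.j) (e.S.toFinset ∪ c.primeFactors) (r2 (rq J) (ch (rq J) x) (rb e)) (e.P pp))

/-- **the anchor for a rational point of order `p`** -/
def REDP : Prop := pp ≠ 3 → ∀ e : Crv, Eis e → ∃ T, ∀ b : Fld e, T ≤ b.δ' → b.Anc

end Vale.Agent.P014Z.Rp
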