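import Vale.Agent.P014Z.Rp.St0
import Vale.Agent.P014Y.Ol
import Vale.Agent.P004R.Abs

/-!
# P014Z, block Rp: the row `ABS`
-/

set_option autoImplicit false
set_option linter.all false

noncomputable section

namespace Vale.Agent.P014Z.Rp

open Subgroup P014U

variable [Pp]

namespace Ab

variable {X I : Type} [CommGroup X] [CommGroup I] (d : X →* I)

theorem cnt (S : Subgroup I) (h2 : ∀ a : I, a ^ pp = 1 → a = 1) (h0 : d.range.index ≠ 0) :
    (cb X).relIndex ((S ⊔ cb I).comap d) =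
      (cb d.ker).index * (cb I).relIndex (S ⊔ cb I) * (d.range ⊔ (S ⊔ cb I)).index := by
  have k0 : cb X ≤ (cb I).comap d := by
    rintro _ ⟨x, rfl⟩
    exact ⟨d x, (map_pow d x pp).symm⟩
  have k1 : d.ker ≤ (cb I).comap d := fun x hx => by
    rw [mem_comap, MonoidHom.mem_ker.1 hx]; exact one_mem _
  have inj : Function.Injective (powMonoidHom pp : I →* I) :=
    (injective_iff_map_eq_one _).2 h2
  have b1 : (cb X).relIndex d.ker = (cb d.ker).index := by
    rw [relIndex]
    congr 1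
    ext x
    rw [mem_subgroupOf]
    constructor
    · rintro ⟨y, hy⟩
      have hy' : y ^ pp = x := hy
      exact ⟨⟨y, h2 _ (by rw [← map_pow, hy']; exact x.2)⟩, Subtype.ext hy'⟩
    · rintro ⟨y, rfl⟩
      exact ⟨y, rfl⟩
  have b2 : d.range.relIndex (d.range.comap (powMonoidHom pp : I →* I)) =
      (d.range ⊔ cb I).index := by
    have c1 : d.range ≤ d.range.comap (powMonoidHom pp : I →* I) := fun x hx => pow_mem hx pp
    have c2 := relIndex_mul_index c1
    have c3 := relIndex_mul_index (le_sup_left : d.range ≤ d.range ⊔ cb I)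
    rw [relIndex_sup_left, ← index_comap] at c3
    have c4 : (d.range.comap (powMonoidHom pp : I →* I)).index ≠ 0 := fun k => h0 (by
      rw [← c2, k, mul_zero])
    exact mul_right_cancel₀ c4 (by rw [c2, mul_comm, c3])
  have b3 : (cb X ⊔ d.ker).relIndex ((cb I).comap d) = (d.range ⊔ cb I).index := by
    rw [← comap_map_eq, relIndex_comap, map_comap_eq, ← b2, ← relIndex_map_map_of_injective d.range _ inj,
      map_comap_eq, inf_comm]
    congr 1
    ext a
    constructor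
    · rintro ⟨_, ⟨x, rfl⟩, rfl⟩
      exact ⟨d x, ⟨x, rfl⟩, (map_pow d x pp).symm⟩
    · rintro ⟨_, ⟨x, rfl⟩, rfl⟩
      exact ⟨_, ⟨x, rfl⟩, map_pow d x pp⟩
  have b4 : (cb I).relIndex (S ⊔ cb I) = ((cb I).comap d).relIndex ((S ⊔ cb I).comap d) *
      (d.range ⊔ cb I).relIndex (d.range ⊔ (S ⊔ cb I)) := by
    rw [relIndex_comap, map_comap_eq, ← relIndex_sup_left (d.range ⊓ (S ⊔ cb I)) (cb I),
      ← sup_inf_assoc_of_le _ (le_sup_right : cb I ≤ S ⊔ cb I),
      ← relIndex_mul_relIndex (cb I) ((cb I ⊔ d.range) ⊓ (S ⊔ cb I)) (S ⊔ cb I)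
        (le_inf le_sup_left le_sup_right) inf_le_right, inf_relIndex_right]
    congr 1
    rw [← relIndex_sup_left (S ⊔ cb I) (cb I ⊔ d.range), sup_comm (cb I) d.range, sup_assoc,
      sup_eq_right.2 (le_sup_right : cb I ≤ S ⊔ cb I)]
  have b5 := relIndex_mul_index (sup_le_sup_left (le_sup_right : cb I ≤ S ⊔ cb I) d.range)
  rw [← relIndex_mul_relIndex _ ((cb I).comap d) _ k0 (comap_mono le_sup_right),
    ← relIndex_mul_relIndex _ (cb X ⊔ d.ker) _ le_sup_left (sup_le k0 k1), relIndex_sup_left, b1,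
    b3, b4, ← b5]
  ring

end Ab

open Ab P004R.Ab

theorem abs : ABS := by
  intro X I G _ _ _ _ d ρ sX sI sG X' C I' S G' m e1 e2 s1 s2 n1 n2 l1 l2 l3 l4 h2 h0 x y t hx hy x0
    y0 t0 hg z hz
  set V := (S ⊔ cb I).comap d with hV
  have c1 := cnt d S h2 h0
  rw [hx, hy, ← hV] at c1
  have a0 : (d.range ⊔ (S ⊔ cb I)).index ≠ 0 := fun k => h0 (Nat.eq_zero_of_zero_dvd
    (k ▸ index_dvd_of_le le_sup_left))
  have c2 : z * ((cb G).comap ρ).relIndex V = (cb X).relIndex V := by
    rw [← hz, ← inf_relIndex_left V ((cb G).comap ρ)]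
    refine relIndex_mul_relIndex _ _ _ (le_inf ?_ ?_) inf_le_left <;> rintro _ ⟨a, rfl⟩
    · exact mem_sup_right ⟨d a, (map_pow d a pp).symm⟩
    · exact ⟨ρ a, (map_pow ρ a pp).symm⟩
  have c3 : ((cb G).comap ρ).relIndex V * (cb G ⊔ V.map ρ).index = (cb G).index := by
    rw [relIndex_comap, ← relIndex_sup_left, relIndex_mul_index le_sup_left]
  have z0 : z ≠ 0 := fun k => mul_ne_zero (mul_ne_zero x0 y0) a0 (by rw [← c1, ← c2, k, zero_mul])
  refine ⟨z0, fun hlt => ?_⟩
  have c4 := idx2 d ρ (S ⊔ cb I) (cb G)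
  rw [← hV] at c4
  have c5 : ((d.prod ρ).range ⊔ (S ⊔ cb I).prod (cb G)).index * t ≤ z := by
    refine Nat.le_of_mul_le_mul_right (c := x * y) ?_ (by positivity)
    calc _ = z * (cb G).index * t := by
          rw [c4, ← c3, ← mul_assoc z, c2, c1]; ring
      _ ≤ _ := by rw [mul_assoc, mul_comm _ t]; exact Nat.mul_le_mul_left _ hg
  set N := (d.prod ρ).range ⊔ I'.prod G' with hN
  have N0 : N.index ≠ 0 := by
    rw [hN, idx2]
    exact mul_ne_zero (fun k => h0 (Nat.eq_zero_of_zero_dvd (k ▸ index_dvd_of_le le_sup_left)))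
      index_ne_zero_of_finite
  have : Finite ((I × G) ⧸ N) := Nat.finite_of_card_ne_zero N0
  have st : N ≤ N.comap (sI.prodMap sG) := by
    refine sup_le ?_ ?_
    · rintro _ ⟨a, rfl⟩
      exact mem_sup_left ⟨sX a, Prod.ext (e1 a) (e2 a)⟩
    · exact fun a ha => mem_sup_right ⟨s1 _ ha.1, s2 _ ha.2⟩
  have c6 : (cb ((I × G) ⧸ N)).index * t ≤ z := by
    refine le_trans (Nat.mul_le_mul_right _ (Nat.le_of_dvd (Nat.pos_of_ne_zero ?_) ?_)) c5
    · rw [c4]
      exact mul_ne_zero a0 index_ne_zero_of_finite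
    · rw [← index_comap_of_surjective _ (QuotientGroup.mk'_surjective N)]
      refine index_dvd_of_le (sup_le (fun a ha => ?_) fun a ha => ?_)
      · rw [mem_comap, QuotientGroup.mk'_apply, (QuotientGroup.eq_one_iff a).2 (mem_sup_left ha)]
        exact one_mem _
      · obtain ⟨u, hu, _, ⟨w, rfl⟩, k⟩ := mem_sup.1 ha.1
        obtain ⟨g, hg'⟩ := ha.2
        have : a = (u, 1) * (w, g) ^ pp := Prod.ext k.symm (by simpa using hg'.symm)
        rw [mem_comap, this, map_mul, map_pow, QuotientGroup.mk'_apply,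
          (QuotientGroup.eq_one_iff (u, (1 : G))).2
            (mem_sup_right (mem_prod.2 ⟨l4 hu, one_mem _⟩)), one_mul]
        exact ⟨_, rfl⟩
  obtain ⟨b, o, ho, k1, k2⟩ := P014Y.Ol.olem' pp_prime (QuotientGroup.map N N (sI.prodMap sG) st) m (fun q => by
    obtain ⟨a, rfl⟩ := QuotientGroup.mk_surjective q
    have : ∀ i, (QuotientGroup.map N N (sI.prodMap sG) st)^[i] (a : (I × G) ⧸ N) =
        ((sI^[i] a.1, sG^[i] a.2) : I × G) := fun i => by
      induction i with
      | zero => rfl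
      | succ i ih => simp only [Function.iterate_succ_apply', ih]; rfl
    simp only [this]
    rw [← QuotientGroup.mk_prod, QuotientGroup.eq_one_iff]
    exact mem_sup_right ⟨by rw [Prod.fst_prod]; exact n1 _, by rw [Prod.snd_prod]; exact n2 _⟩)
    (((Nat.le_mul_of_pos_right _ (Nat.pos_of_ne_zero t0)).trans c6).trans_lt
      (hlt.trans_le (Nat.pow_le_pow_right pp_pos (Nat.le_mul_of_pos_left _ (Nat.sub_pos_of_lt
        pp_prime.one_lt)))))
  refine ⟨b, o, k1 ▸ c6, ho, ?_⟩
  rw [← k2]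
  exact dvd1 d ρ X' C I' G' l1 l2 l3

end Vale.Agent.P014Z.Rp
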