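import Vale.Agent.P014Z.Rp.St
import Vale.Agent.P014Y.Rd.Gen

/-!
# P014Z, a rational point of order `p`: finitely many Kummer classes control the relations
-/

set_option autoImplicit false
set_option linter.all false

open NumberField Module

noncomputable section

namespace Vale.Agent.P014Z.Rp

open Vale.Agent.P022 (Qb GQ GK below)
open P022.H20 hiding Qb
open P004K P014U
open Vale.Agent.P027M.S (Inert)
open Vale.Agent.P022D.W (dec)
open Vale.Agent.P022E.GW (Ov Fb)

variable [Pp]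

open P014Y.Rd.Ge in
theorem gen : GEN := by
  classical
  intro K _ _ j kd γ _ B P bs
  have p0 := fun b hb => P014Y.Rd.Bx.ne j (bs.ov b hb).1
  let F : (B → ℕ) → Ideal (𝓞 K) := fun μ => ∏ b : B, below j (P b) ^ μ b
  have F0 : ∀ μ, F μ ≠ ⊥ := fun μ => Finset.prod_ne_zero_iff.2 fun b _ => pow_ne_zero _ (p0 b b.2)
  have Fa : ∀ μ ν, F (μ + ν) = F μ * F ν := fun μ ν => by
    simp only [F, Pi.add_apply, pow_add, Finset.prod_mul_distrib]
  let M : AddSubmonoid (B → ℕ) :=
    { carrier := {μ | P014Y.Rd.Bx.cl (F μ) = 1}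
      zero_mem' := (P014Y.Rd.Bx.cl_one (F0 0)).2 ⟨1, by simp [F]⟩
      add_mem' := fun {a b} h k => by
        change _ = _ at h k ⊢
        rw [Fa, P014Y.Rd.Bx.cl_mul (F0 _) (F0 _), h, k, one_mul] }
  obtain ⟨G, hG⟩ : M.FG := AddSubmonoid.fg_of_subtractive fun x h y k => by
    change _ = _ at h k ⊢
    rwa [Fa, P014Y.Rd.Bx.cl_mul (F0 _) (F0 _), h, one_mul] at k
  choose! β hβ using fun μ (h : μ ∈ M) => (P014Y.Rd.Bx.cl_one (F0 μ)).1 h
  have gm : ∀ μ ∈ G, μ ∈ M := fun μ h => hG ▸ AddSubmonoid.subset_closure h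
  have b0 : ∀ {μ} {a : 𝓞 K}, F μ = Ideal.span {a} → j a ≠ 0 := fun {μ a} e z => F0 μ (by
    rw [e, Ideal.span_singleton_eq_bot]; exact_mod_cast (map_eq_zero j).1 z)
  choose s hs using cj kd.iq.two j γ
  let A : Finset K := insert (-1) (G.image (fun μ => (β μ : K)) ∪ G.image fun μ => s (β μ))
  have o : Cz (insert 1 (j '' A)) 1 := .of (Set.mem_insert _ _) one_ne_zero
  have ng : Cz (insert 1 (j '' A)) (-1) := .of (Or.inr ⟨-1, by simp [A], by simp⟩) (by simp)
  have key : ∀ μ (a : 𝓞 K), F μ = Ideal.span {a} →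
      Cz (insert 1 (j '' A)) (j a) ∧ Cz (insert 1 (j '' A)) (γ (j a)) := by
    have : ∀ μ ∈ M, ∃ a : 𝓞 K, F μ = Ideal.span {a} ∧
        Cz (insert 1 (j '' A)) (j a) ∧ Cz (insert 1 (j '' A)) (γ (j a)) := by
      intro μ h
      rw [← hG] at h
      induction h using AddSubmonoid.closure_induction with
      | mem μ h =>
        have z := b0 (hβ μ (gm μ h))
        refine ⟨β μ, hβ μ (gm μ h), .of (Or.inr ⟨β μ, ?_, rfl⟩) z,
          .of (Or.inr ⟨s (β μ), ?_, hs _⟩) (by simpa using z)⟩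
        · exact Finset.mem_insert_of_mem (Finset.mem_union_left _ (Finset.mem_image_of_mem _ h))
        · exact Finset.mem_insert_of_mem (Finset.mem_union_right _
            (Finset.mem_image_of_mem (fun μ => s (β μ)) h))
      | zero => exact ⟨1, by simp [F], by simpa using o, by simpa using o⟩
      | add x y _ _ a b =>
        obtain ⟨a, e, a1, a2⟩ := a
        obtain ⟨b, f, b1, b2⟩ := b
        exact ⟨a * b, by rw [Fa, e, f, Ideal.span_singleton_mul_span_singleton],
          by simpa using a1.mul b1 o, by simpa using a2.mul b2 o⟩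
    intro μ a e
    obtain ⟨a', e', c1, c2⟩ := this μ ((P014Y.Rd.Bx.cl_one (F0 μ)).2 ⟨a, e⟩)
    obtain ⟨u, rfl⟩ := Ideal.span_singleton_eq_span_singleton.1 (e'.symm.trans e)
    rcases kd.upm u with rfl | rfl
    · simpa using ⟨c1, c2⟩
    · simpa using And.intro (c1.mul ng o) (c2.mul ng o)
  have fe : ∀ μ : ℕ → ℕ, F (fun b => μ b) = ∏ b ∈ B, below j (P b) ^ μ b := fun μ =>
    Finset.prod_coe_sort B fun b => below j (P b) ^ μ b
  have out : ∀ μ ∈ G, ∀ l Q, Ov l Q → l ∉ B → RingOfIntegers.mapRingHom j (β μ) ∉ Q := by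
    intro μ h l Q ov lb m
    have pr := below_prime j ov.2.1
    have le := (Ideal.span_singleton_le_iff_mem _).2 (mem_below.2 m)
    rw [← hβ μ (gm μ h)] at le
    obtain ⟨b, -, le⟩ := pr.prod_le.1 le
    have k := Ideal.IsPrime.le_of_pow_le le (l_mem_below j (bs.ov b b.2).1.2.2)
    exact lb (two ov (bs.ov b b.2).1.1 (by simpa using mem_below.1 k) ▸ b.2)
  refine ⟨A, ?_, fun n l Q ov lb g hg i y hy => ?_, fun N ζ g _ h _ y p f r μ a e z hz => ?_,
    fun N ζ μ a e z _ => by simp, fun a I y g hg a0 e hy f => ?_⟩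
  · simp only [A, Finset.mem_insert, Finset.mem_union, Finset.mem_image, not_or, not_exists,
      not_and]
    refine ⟨by simp, fun μ h z => b0 (hβ μ (gm μ h)) (by rw [z, map_zero]), fun μ h z => ?_⟩
    have := hs (β μ)
    rw [z, map_zero, eq_comm, map_eq_zero] at this
    exact b0 (hβ μ (gm μ h)) this
  · have n3 : ((pp ^ n : ℕ) : 𝓞 Qb) ∉ Q := fun m => lb (two ov pp_prime
      (ov.2.1.mem_of_pow_mem n (by simpa using m)) ▸ bs.thr)
    have u : ∀ a : 𝓞 Qb, IsUnit a → a ∉ Q := fun a h m =>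
      ov.2.1.ne_top (Ideal.eq_top_of_isUnit_mem _ m h)
    rcases hy with e | ⟨a, ha, e⟩
    · exact unr ov.2.1 n3 (u 1 isUnit_one) i (by simp) (by simpa using e)
    · simp only [A, Finset.coe_insert, Finset.coe_union, Finset.coe_image, Set.mem_insert_iff,
        Set.mem_union, Set.mem_image, Finset.mem_coe] at ha
      rcases ha with rfl | ⟨μ, h, rfl⟩ | ⟨μ, h, rfl⟩
      · exact unr ov.2.1 n3 (u (-1) isUnit_one.neg) i (by simp) (by simpa using e.symm)
      · exact unr ov.2.1 n3 (out μ h l Q ov lb) i (hg _) e.symm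
      · refine unr ov.2.1 n3 (a := γ • RingOfIntegers.mapRingHom j (β μ))
          (out μ h l (cP γ Q) ⟨ov.1, cP_prime γ ov.2.1, l_mem_cP γ ov.2.2⟩ lb) i ?_
          (e.symm.trans (hs _))
        change g (γ (j _)) = γ (j _)
        rw [← hs, hg]
  · obtain ⟨c1, c2⟩ := key _ a ((fe μ).trans e)
    rw [AlgEquiv.mul_apply, (c1.div c2 o).2 N h p f z hz]
    exact r μ a e z hz
  · have i0 : I ≠ ⊥ := by
      rintro rfl
      exact a0 (by simpa [pp_ne] using e)
    obtain ⟨μ, b, k⟩ := bs.gen I i0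
    have k3 := congrArg (· ^ pp) k
    simp only [mul_pow, ← e, Ideal.span_singleton_pow] at k3
    obtain ⟨u, hu⟩ := Ideal.span_singleton_le_span_singleton.1 (k3.ge.trans Ideal.mul_le_left)
    rw [hu, ← Ideal.span_singleton_mul_span_singleton, ← Finset.prod_pow] at k3
    have k4 := mul_left_cancel₀ (Ideal.span_singleton_eq_bot.not.2 a0) k3
    simp only [← pow_mul] at k4
    have c := (key _ u ((fe fun b => μ b * pp).trans k4)).1
    have ja : j a ≠ 0 := by simpa using a0
    have y0 : y ≠ 0 := fun z => ja (by rw [← hy, z, zero_pow pp_ne])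
    have hu' : j b ^ pp = j a * j u := by
      rw [← map_pow, ← map_mul]; exact congrArg (fun t : 𝓞 K => j t) hu
    have jb : j b ≠ 0 := fun z => mul_ne_zero ja c.1 (by rw [← hu', z, zero_pow pp_ne])
    have := c.2 pp g pp_pos f (j b / y) (by
      rw [div_pow, hy, hu', mul_div_cancel_left₀ _ ja])
    rw [map_div₀, hg, div_eq_div_iff ((map_ne_zero g).2 y0) y0] at this
    exact (mul_left_cancel₀ jb this).symm

end Vale.Agent.P014Z.Rp
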