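import Vale.Agent.P004R.St
import Vale.Agent.P014U.Mu.Eis0
import Vale.Agent.P004R.Fld
import Vale.Agent.P004F.Pt.Kd
import Vale.Agent.P022K.GW.Pl
import Vale.Agent.P022K.G2.Kum

/-!
# P014Z: lemmas for the killing of the small Selmer group
-/

set_option autoImplicit false
set_option linter.all false

open NumberField Module IsDedekindDomain
open scoped Pointwise

noncomputable section

namespace Vale.Agent.P014Z.Rp

open Vale.Agent.P022 Vale.Agent.P022.H916 P004K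
open P004R.Xt (iz smul_coe ex_int unit_one not_dvd fx_one norm_below nm_eq)
open P004R.Fd (dec_smul ov_smul fb_smul)
open Vale.Agent.P027M.S (Inert)
open Vale.Agent.P022D.W (dec)
open Vale.Agent.P022E.GW (Ov Fb)
open Vale.Agent.P022K.G2 (oz zt)
open P004S (inert_dec)
open Vale.Agent.P014U

namespace Kk

variable [Pp] {K : Type} [Field K] [NumberField K] {j : K →+* Qb} {c l : ℕ} {x : GQ → ZMod pp}
  {P : Ideal (𝓞 Qb)} {g t γ φ : GQ} {a : 𝓞 K} {y : Qb}

theorem xpow (h : ∀ g ∈ GK j, ∀ h ∈ GK j, x (g * h) = x g + x h) (m : g ∈ GK j) (i : ℕ) :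
    x (g ^ i) = i * x g := by
  induction i with
  | zero => simpa using h 1 (one_mem _) 1 (one_mem _)
  | succ i ih => rw [pow_succ, h _ (pow_mem m i) _ m, ih, Nat.cast_succ, add_mul, one_mul]

theorem cj (r : RC1) (iq : Iq K) (c0 : 0 < c) (h : ∀ g ∈ GK j, ∀ h ∈ GK j, x (g * h) = x g + x h)
    (k : ∀ g ∈ Hc j c, x g = 0) (m : g ∉ GK j) (m' : t ∈ GK j) :
    g * t * g⁻¹ ∈ GK j ∧ x (g * t * g⁻¹) = -x t := by
  have a := (r K j iq c c0).2.2.2.2.1 g m t m'
  have b : g * t * g⁻¹ ∈ GK j := by simpa using (GK j).mul_mem a.1 (inv_mem m')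
  have d := k _ a
  rw [h _ b _ m'] at d
  exact ⟨b, eq_neg_of_add_eq_zero_left d⟩

theorem p0 : pp ≠ 0 := pp_prime.ne_zero

theorem tw (h : (t⁻¹ * g * t) y = y) : g (t y) = t y := by
  rw [← AlgEquiv.mul_apply, show g * t = t * (t⁻¹ * g * t) by group, AlgEquiv.mul_apply, h]

/-- inertia fixes the roots of units -/
theorem core (o : Ov l P) (hN : ¬ l ∣ pp) (hg : Inert P g) {z : 𝓞 Qb} (hz : z ∉ P)
    (h : g ((z : Qb) ^ pp) = z ^ pp) : g z = z := by
  have y0 : (z : Qb) ≠ 0 := fun k => hz (by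
    rw [show z = 0 from RingOfIntegers.ext k]; exact P.zero_mem)
  have e1 : (g z / z) ^ pp = 1 := by rw [div_pow, ← map_pow, h, div_self (pow_ne_zero _ y0)]
  obtain ⟨η, hη, e0⟩ := ex_int p0 (w := 1) e1
  have e2 : g • z = η * z := RingOfIntegers.ext (by
    rw [smul_coe, RingOfIntegers.coe_eq_algebraMap (η * z), map_mul]
    exact (div_mul_cancel₀ _ y0).symm.trans (congrArg (· * (z : Qb)) hη.symm))
  have e3 := hg z
  rw [e2, ← sub_one_mul] at e3
  have e4 := unit_one o hN e0 ((o.2.1.mem_or_mem e3).resolve_right hz)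
  rw [← smul_coe, e2, e4, one_mul]

theorem loc {R : Type} [CommRing R] [IsDedekindDomain R] {p I J : Ideal R} (pr : p.IsPrime) {a : R}
    (a0 : a ≠ 0) (e : Ideal.span {a} = I ^ pp * J) (n : ¬ J ≤ p) :
    ∃ β d u : R, β ≠ 0 ∧ d ≠ 0 ∧ u ∉ p ∧ β ^ pp * u = a * d ^ pp := by
  have I0 : I ≠ 0 := fun z => a0 (by
    rwa [z, zero_pow p0, zero_mul, Ideal.zero_eq_bot, Ideal.span_singleton_eq_bot] at e)
  obtain ⟨β, b1, b2⟩ : ∃ β ∈ I, β ∉ I * p := by
    by_contra! z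
    exact pr.ne_top (mul_left_cancel₀ I0
      ((le_antisymm Ideal.mul_le_left z).trans (Ideal.mul_top I).symm))
  obtain ⟨C, hC⟩ := Ideal.dvd_iff_le.2 ((Ideal.span_singleton_le_iff_mem _).2 b1)
  obtain ⟨d, d1, d2⟩ : ∃ d ∈ C, d ∉ p := by
    by_contra! z
    have b := Ideal.mem_span_singleton_self β
    rw [hC] at b
    exact b2 (Ideal.mul_mono_right z b)
  obtain ⟨w, w1, w2⟩ := SetLike.not_le_iff_exists.1 n
  have k : Ideal.span {a} * C ^ pp = Ideal.span {β ^ pp} * J := by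
    rw [← Ideal.span_singleton_pow, hC, e]; ring
  have k1 := Ideal.mul_mem_mul (Ideal.mem_span_singleton_self a) (Ideal.pow_mem_pow d1 pp)
  have k2 := Ideal.mul_mem_mul (Ideal.mem_span_singleton_self (β ^ pp)) w1
  rw [k] at k1
  rw [← k] at k2
  obtain ⟨u, -, hu⟩ := Ideal.mem_span_singleton_mul.1 k1
  obtain ⟨v, -, hv⟩ := Ideal.mem_span_singleton_mul.1 k2
  refine ⟨β, d, u, fun z => b2 (z ▸ zero_mem _), fun z => d2 (z ▸ zero_mem _), fun z => ?_, hu⟩
  have e1 : d ^ pp * w = v * u := mul_left_cancel₀ a0 (by linear_combination -w * hu - u * hv)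
  have b := Ideal.mul_mem_left _ v z
  rw [← e1] at b
  exact (pr.mem_or_mem b).elim (fun b => d2 (pr.mem_of_pow_mem _ b)) w2

/-- unramified Kummer extensions -/
theorem unr (o : Ov l P) (hN : ¬ l ∣ pp) (hg : Inert P g) (m : g ∈ GK j) {I J : Ideal (𝓞 K)}
    (a0 : a ≠ 0) (e : Ideal.span {a} = I ^ pp * J) (n : ¬ J ≤ below j P) (h : y ^ pp = j a) :
    g y = y := by
  obtain ⟨β, d, u, β0, d0, u0, hu⟩ := loc (P004R.Gl.below_pr j o.2.1) a0 e n
  have ne : ∀ {b : 𝓞 K}, b ≠ 0 → j b ≠ 0 := fun b => by simpa using b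
  have e0 : j β ^ pp * j u = j a * j d ^ pp := by simpa using congrArg (fun z : 𝓞 K => j z) hu
  have e1 : (y * j d / j β) ^ pp = (iz j u : Qb) := by
    rw [div_pow, mul_pow, h, div_eq_iff (pow_ne_zero _ (ne β0)), ← e0, mul_comm]
    rfl
  obtain ⟨z, hz, e2⟩ := ex_int p0 e1
  have z0 : z ∉ P := fun k => by
    have b := P.pow_mem_of_mem k pp pp_prime.pos
    rw [e2] at b
    exact u0 b
  have := core o hN hg z0 (by rw [hz, e1]; exact m u)
  rw [hz, map_div₀, map_mul, m β, m d, div_left_inj' (ne β0)] at this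
  exact mul_right_cancel₀ (ne d0) this

theorem dec_mu (o : Ov l P) (f : Fb l P φ) (h : l % pp = 1) (m : g ∈ dec P) : oz pp g = 1 := by
  have e := (P022K.G2.zt_prim pp).pow_eq_one
  refine P022K.G2.mem_Gz.1 (P004S.lt.dec_le o f P022K.G2.Gz_open
    (P022K.G2.mem_Gz'.2 (fx_one o f h _ e)) (fun i hi => P022K.G2.mem_Gz'.2 ?_) m)
  obtain ⟨z, hz, e0⟩ := ex_int p0 (w := 1) e
  rw [← hz]
  exact core o (not_dvd o h) hi (fun k => o.2.1.ne_top ((Ideal.eq_top_iff_one _).2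
    (e0 ▸ P.pow_mem_of_mem k pp pp_prime.pos))) (by rw [hz, e, map_one])

/-- the prime ramifies in the cyclotomic field -/
theorem mup (o : Ov pp P) (h : y ^ pp = 1) (f : ∀ g ∈ dec P, g y = y) : y = 1 := by
  obtain ⟨τ, i, n⟩ := P014U.Mu.Ei.ram_p o
  obtain ⟨b, rfl⟩ := P022K.G2.pw_ex h
  have e := f τ (inert_dec i)
  rw [P022K.G2.oz_pw] at e
  rw [(mul_eq_zero.1 (show (oz pp τ - 1) * b = 0 by
    linear_combination P022K.G2.pw_inj e)).resolve_left (sub_ne_zero.2 n), ZMod.val_zero, pow_zero]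

section

variable {ι : Type} [Fintype ι]

theorem fac (f : ι → Ideal (𝓞 K)) (J : Ideal (𝓞 K)) (h0 : J ≠ 0)
    (h : ∀ p, Prime p → p ∣ J → ∃ i, p = f i) : ∃ m : ι → ℕ, J = ∏ i, f i ^ m i := by
  classical
  induction J using UniqueFactorizationMonoid.induction_on_prime with
  | h₁ => exact absurd rfl h0
  | h₂ x u =>
    refine ⟨0, ?_⟩
    simp only [Pi.zero_apply, pow_zero, Finset.prod_const_one]
    exact (Ideal.isUnit_iff.1 u).trans Ideal.one_eq_top.symm
  | h₃ a p a0 hp ih =>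
    obtain ⟨m, rfl⟩ := ih a0 fun q hq d => h q hq (d.mul_left _)
    obtain ⟨i, rfl⟩ := h p hp (dvd_mul_right _ _)
    refine ⟨Pi.single i 1 + m, ?_⟩
    simp only [Pi.add_apply, pow_add, Finset.prod_mul_distrib, Pi.single_apply, pow_ite, pow_one,
      pow_zero, Finset.prod_ite_eq', Finset.mem_univ, if_true]

theorem red {M : Type} [CommMonoid M] (A : ι → M) {m : ι → ℕ} {o : ι} (h : ∀ i ≠ o, pp ∣ m i) :
    ∃ B, ∏ i, A i ^ m i = B ^ pp * A o ^ m o := by
  classical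
  refine ⟨∏ i ∈ Finset.univ.erase o, A i ^ (m i / pp), ?_⟩
  rw [← Finset.prod_erase_mul _ _ (Finset.mem_univ o), ← Finset.prod_pow]
  refine congrArg (· * _) (Finset.prod_congr rfl fun i hi => ?_)
  rw [← pow_mul, Nat.div_mul_cancel (h i (Finset.ne_of_mem_erase hi))]

theorem val {q : ι → ℕ} (k : ι → ℕ) (hq : ∀ i, (q i).Prime) {N : ℕ} (N0 : N ≠ 0) (l : ℕ) :
    (N ^ pp * ∏ i, q i ^ k i).factorization l =
      pp * N.factorization l + ∑ i, if q i = l then k i else 0 := by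
  have n : ∀ i ∈ Finset.univ, q i ^ k i ≠ 0 := fun i _ => pow_ne_zero _ (hq i).ne_zero
  rw [Nat.factorization_mul (pow_ne_zero _ N0) (Finset.prod_ne_zero_iff.2 n),
    Nat.factorization_pow, Nat.factorization_prod n]
  simp [Finsupp.finset_sum_apply, (hq _).factorization, Finsupp.single_apply]

end

theorem both {m m' : ℕ} {u : ZMod pp} (u0 : u ≠ 0) (h : ((m : ZMod pp) - m') * u = 0)
    (d : pp ∣ m + m') : pp ∣ m ∧ pp ∣ m' := by
  have e := sub_eq_zero.1 ((mul_eq_zero.1 h).resolve_right u0)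
  have b := (ZMod.natCast_eq_zero_iff _ _).2 d
  rw [Nat.cast_add, e, ← two_mul, mul_eq_zero, or_iff_right two_ne] at b
  exact ⟨(ZMod.natCast_eq_zero_iff _ _).1 (e.trans b), (ZMod.natCast_eq_zero_iff _ _).1 b⟩

end Kk

end Vale.Agent.P014Z.Rp
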