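import Vale.Agent.P014Z.Rp.St2
import Vale.Agent.P014Z.Ml.Mul
import Vale.Agent.P014Y.Mu.Lv0

/-!
# P014Z, a rational point of order `p`: the row `MUL`
-/

set_option autoImplicit false
set_option linter.all false

open Matrix

namespace Vale.Agent.P014Z.Rp

open Vale.Agent.P022 P014U
open Vale.Agent.P022K.G2 (oz)

variable [Pp]

theorem tri {Γ : Subgroup GQ} {b : GQ → Matrix (Fin 2) (Fin 2) (ZMod pp)} (f : Fv Γ b)
    (dt : ∀ g ∈ Γ, (b g).det = oz pp g) :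
    Ml.Tri Γ b (oz pp) (fun _ => 1) ∨ Ml.Tri Γ b (fun _ => 1) (oz pp) := by
  obtain ⟨v, v0, fv⟩ := f
  obtain ⟨C, C', hC, k0, k1⟩ := P014Y.Rd.Ml.nf (b := fun g : Γ => b g) v0
    (fv.imp (fun h g => h g g.2) fun h g => h g g.2)
  have cd (g : Γ) : (C' * b g * C) 0 0 * (C' * b g * C) 1 1 = oz pp g := by
    have : (C' * b g * C).det = oz pp g := by
      rw [det_mul, det_mul, mul_right_comm, ← det_mul, mul_eq_one_comm.1 hC, det_one, one_mul,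
        dt g g.2]
    rwa [det_fin_two, k0 g, zero_mul, sub_zero] at this
  exact k1.imp (fun k => ⟨C, C', hC, fun g m => ⟨k0 ⟨g, m⟩, by
    rw [← cd ⟨g, m⟩, k ⟨g, m⟩, mul_one], k ⟨g, m⟩⟩⟩) fun k => ⟨C, C', hC, fun g m =>
      ⟨k0 ⟨g, m⟩, k ⟨g, m⟩, by rw [← cd ⟨g, m⟩, k ⟨g, m⟩, one_mul]⟩⟩

/-- **row MUL** -/
theorem mul : MUL := by
  intro R _ ρ J t J0 Γ T χ b P hχ hb f dt oP dP ⟨l, hl, l1, Q, oQ, dQ, rt⟩
  obtain ⟨lp, -, om⟩ := P014Y.Mu.Lv.dec_gz oQ l1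
  have e : Ml.tw ρ (fun _ => 1) χ = χ := funext fun g => by simp [Ml.tw]
  have r : Rt ρ (tw ρ χ) Q := fun g m => by simpa [Ml.tw, om g m] using rt g m
  rcases tri f dt with s | s
  · have := Ml.mul R ρ J t J0 Γ T χ b _ _ P (.of hχ.1 hχ.2) (.of hb.1 hb.2) s oP dP
      (.inr ⟨l, hl, lp, Q, oQ, dQ, r, e.symm ▸ rt⟩)
    rwa [e, mul_comm (Nat.card (Zr Γ T (tw ρ χ) P))] at this
  · have := Ml.mul R ρ J t J0 Γ T χ b _ _ P (.of hχ.1 hχ.2) (.of hb.1 hb.2) s oP dP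
      (.inr ⟨l, hl, lp, Q, oQ, dQ, e.symm ▸ rt, r⟩)
    rwa [e] at this

end Vale.Agent.P014Z.Rp
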