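import Vale.Agent.P004R.St0
import Vale.Agent.P014U.Base

/-!
# P014Z, a rational point of order `p`: ideal theoretic rows
-/

set_option autoImplicit false
set_option linter.all false

open UpperHalfPlane NumberField Filter Topology Module
open scoped Real

noncomputable section

namespace Vale.Agent.P014Z.Rp

open P027H P027M.M P004K P014U
open NumberField.Units (regulator torsion)

export Vale.Agent.P004R (DL Ze Gl KLF ua CU up Ip Gp)
export Vale.Agent.P014U.Pp (pp)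

variable [Pp]

/-! ### abelian groups -/

/-- the `p`-th powers -/
abbrev cb (A : Type) [CommGroup A] : Subgroup A := (powMonoidHom pp : A →* A).range

/-- the relative ray class group, abstract form, with a gain `a` -/
def ABS : Prop := ∀ (X I G : Type) [CommGroup X] [CommGroup I] [CommGroup G] [Finite G]
  (d : X →* I) (ρ : X →* G) (sX : X →* X) (sI : I →* I) (sG : G →* G) (X' C : Subgroup X)
  (I' S : Subgroup I) (G' : Subgroup G) (m : ℕ), (∀ x, d (sX x) = sI (d x)) →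
  (∀ x, ρ (sX x) = sG (ρ x)) → (∀ a ∈ I', sI a ∈ I') → (∀ g ∈ G', sG g ∈ G') →
  (∀ a, ∏ i ∈ Finset.range pp, sI^[i * pp ^ m] a ∈ I') →
  (∀ g, ∏ i ∈ Finset.range pp, sG^[i * pp ^ m] g ∈ G') → X'.map d ≤ I' → X'.map ρ ≤ G' →
  C ≤ d.ker → S ≤ I' → (∀ a : I, a ^ pp = 1 → a = 1) → d.range.index ≠ 0 →
  ∀ x y a : ℕ, (cb d.ker).index = x → (cb I).relIndex (S ⊔ cb I) = y → x ≠ 0 → y ≠ 0 → a ≠ 0 →
  a * (cb G).index ≤ x * y →
  ∀ z : ℕ, (cb X).relIndex ((S ⊔ cb I).comap d ⊓ (cb G).comap ρ) = z → z ≠ 0 ∧ (z < pp ^ pp ^ m →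
    ∃ b o : ℕ, pp ^ b * a ≤ z ∧ ¬ pp ∣ o ∧ (G' ⊔ C.map ρ).index * d.range.index ∣
      pp ^ b * o * (((X' ⊓ d.ker) ⊔ C).relIndex d.ker * (X'.map d).relIndex I'))

/-! ### a cyclic pair of number fields -/

/-- the faithful characters -/
def Fa (M : ℕ) : Finset ℕ := (Finset.range (pp * M)).filter fun k => ¬ pp ∣ k

section pair

variable (F : Type) {H : Type} [Field F] [NumberField F] [Field H] [NumberField H] [Algebra F H]
  (σ : H ≃ₐ[ℚ] H) (M : ℕ)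

/-- `σ` has order `p M`, `F` is the fixed field of `σ ^ M`, the fixed field of `σ` is imaginary
quadratic -/
structure Cp : Prop where
  pow : ∃ m, M = pp ^ (m + 1)
  ord : σ ^ (pp * M) = 1
  fix : ∀ x, (σ ^ M) x = x ↔ x ∈ Set.range (algebraMap F H)
  deg : finrank ℚ H = 2 * (pp * M)
  deg' : finrank ℚ F = 2 * M
  cx : IsTotallyComplex F
  inf : ∀ w w' : InfinitePlace H, ∃ i : ℕ, ∀ x, w' x = w ((σ ^ i) x)
  tor : ∀ u ∈ torsion H, u = 1 ∨ u = -1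

/-- the character sums of the logarithms -/
def Lg (w : InfinitePlace H) (u : H) (k : ℕ) : ℂ :=
  ∑ i ∈ Finset.range (pp * M), ze (pp * M) (k * i) * (2 * Real.log (w ((σ ^ i) u)) : ℝ)

variable {F}

/-- the places: `v` (strict) and `v'`, `w i`, `w' i` (relaxed) -/
structure Pd {ι : Type} (p : ι → ℕ) (v v' : Ideal (𝓞 F)) (w w' : ι → Ideal (𝓞 F)) : Prop where
  cp : Cp F σ M
  thr : Ip σ M pp v v'
  oth : ∀ i, p i ≠ pp ∧ Ip σ M (p i) (w i) (w' i)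
  inj : Function.Injective p

variable (H) in
/-- the relaxed places -/
def md {ι : Type} [Fintype ι] (v' : Ideal (𝓞 F)) (w w' : ι → Ideal (𝓞 F)) : Ideal (𝓞 H) :=
  up H v' * ∏ i, (up H (w i) * up H (w' i))

/-- `u ^ o = 1 + p x` modulo `v ^ 2` and `(σ - 1) ^ r x` comes from `F` modulo `v` -/
def Dp (v : Ideal (𝓞 F)) (u : (𝓞 H)ˣ) (r : ℕ) : Prop := ∃ (o : ℕ) (x : 𝓞 H) (y : 𝓞 F), ¬ pp ∣ o ∧
  (u : 𝓞 H) ^ o - 1 - pp * x ∈ up H v ^ 2 ∧
  (fun z : 𝓞 H => σ • z - z)^[r] x - algebraMap (𝓞 F) (𝓞 H) y ∈ up H v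

/-- `x` is the `p`-th power of a unit modulo `𝔪`, its valuations outside `J` are multiples of `p` -/
def Ad (𝔪 J : Ideal (𝓞 H)) (x : 𝓞 H) : Prop :=
  (∃ y : 𝓞 H, Ideal.span {y} ⊔ 𝔪 = ⊤ ∧ x - y ^ pp ∈ 𝔪) ∧
    ∃ (A B : Ideal (𝓞 H)) (n : ℕ), Ideal.span {x} = A ^ pp * B ∧ B ∣ J ^ n

end pair

/-- the index of the group of units -/
def REG : Prop := ∀ (F H : Type) [Field F] [NumberField F] [Field H] [NumberField H] [Algebra F H]
  (σ : H ≃ₐ[ℚ] H) (M : ℕ), Cp F σ M → ∀ (w : InfinitePlace H) (u : (𝓞 H)ˣ),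
  pp * (CU F σ u).index * regulator H = regulator F * ‖∏ k ∈ Fa M, Lg σ M w (u : 𝓞 H) k‖

/-- the local indices at `v` -/
def LOC : Prop := ∀ (F H : Type) [Field F] [NumberField F] [Field H] [NumberField H] [Algebra F H]
  (σ : H ≃ₐ[ℚ] H) (M : ℕ) (v v' : Ideal (𝓞 F)), Cp F σ M → Ip σ M pp v v' →
  (cb (𝓞 H ⧸ up H v ^ 2)ˣ).index ≤ pp ^ (pp * M) ∧
  ∀ (u : (𝓞 H)ˣ) (r : ℕ), Dp σ v u r → pp ^ ((pp - 1) * M) ∣ pp ^ r *
    (Gp F (up H v ^ 2) ⊔ (CU F σ u).map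
      (Units.map (Ideal.Quotient.mk (up H v ^ 2) : 𝓞 H →* 𝓞 H ⧸ up H v ^ 2))).index

/-- **the lower bound for the Selmer group**: strict at `v`, relaxed at `v'`, `w i`, `w' i` -/
def BT : Prop := ∀ (F H : Type) [Field F] [NumberField F] [Field H] [NumberField H] [Algebra F H]
  (σ : H ≃ₐ[ℚ] H) (M : ℕ) (ι : Type) [Fintype ι] (p : ι → ℕ) (v v' : Ideal (𝓞 F))
  (w w' : ι → Ideal (𝓞 F)), Pd σ M p v v' w w' → ∀ (u : (𝓞 H)ˣ) (r : ℕ), Dp σ v u r →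
  (CU F σ u).index ≠ 0 → ∀ (Z : Type) [Finite Z] (κ : 𝓞 H → Z),
  (∀ a b, Ad (up H v ^ 2) (md H v' w w') a → Ad (up H v ^ 2) (md H v' w w') b → κ a = κ b →
    ∃ y : H, (a : H) = y ^ pp * b) →
  Nat.card Z < pp ^ M → ∃ b : ℕ, pp ^ (b + 2 * Fintype.card ι) ≤ Nat.card Z ∧
    (pp - 1) * M + padicValNat pp (classNumber H) ≤
      b + r + padicValNat pp ((CU F σ u).index * classNumber F)

/-- from ideals to abelian groups -/
def INS : Prop := ABS → LOC → BT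

/-- a bordered linear system: the diagonal is chosen -/
def LIN : Prop := ∀ (d : ℕ) (D : Fin (d + 1) → Fin (d + 1) → ZMod pp), ∃ δ : Fin (d + 1) → ZMod pp,
  ∀ (u w s : ZMod pp) (m : Fin (d + 1) → ZMod pp) (m' : ZMod pp), u ≠ 0 → w ≠ 0 →
  (∀ i, ∑ i', (if i' = i then δ i else D i i') * m i' + (if i = 0 then u * m' else 0) = 0) →
  w * m 0 + s * m' = 0 → m = 0 ∧ m' = 0

/-- `Δ(τ) / Δ(p τ)` -/
def Dq (τ : ℍ) : ℂ := DL (lat τ) / DL (lat (ofComplex (pp * τ)))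

end Vale.Agent.P014Z.Rp
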