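import Vale.Agent.P014Z.Rp.St
import Vale.Agent.P014Z.Ml.Wd
import Vale.Agent.P004R.St2
import Vale.Agent.P004R.Qf0

/-!
# P014Z, a rational point of order `p`: from the index formula to the two sides of the anchor
-/

set_option autoImplicit false
set_option linter.all false

open UpperHalfPlane NumberField CongruenceSubgroup Matrix
open scoped Pointwise PowerSeries

noncomputable section

namespace Vale.Agent.P014Z.Rp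

open Vale.Agent.P022 P027H P027M.M P004K P014U Vale.Agent.P022.H218.L3 Vale.Agent.P022.H236.L3
open Vale.Agent.P027M.S (Inert)
open Vale.Agent.P022D.W (dec)
open Vale.Agent.P022.H443 (inP)
open Vale.Agent.P022E.GW (Ov Fb)
open Vale.Agent.P022K.G2 (Tv ka oz)
open P004Z.EF (Val)
open P004F.Qx (Zq Cq dp Ch IM)

export Vale.Agent.P004R (Vn Z0 r1)
export Vale.Agent.P014Z.Ml (Tq tt ch r2 Zr Rt)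

variable [Pp]

/-! ### words -/

/-- `(s ^ p / φ s - 1) / p` at the conjugates -/
def hs (φ : GQ) (s : 𝓞 Qb) (g : GQ) : Qb := (g (s : Qb) ^ pp / (g * φ) (s : Qb) - 1) / pp

/-- depletion modulo `p`: `(1 - V) (1 - l⁻¹ V)` -/
def dpl (φ : ℕ → GQ) (h : GQ → Qb) : List ℕ → GQ → Qb
  | [] => h
  | l :: L => fun g => dpl φ h L g - (1 + l ^ (pp - 2)) * dpl φ h L (g * φ l) +
    l ^ (pp - 2) * dpl φ h L (g * φ l ^ 2)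

/-- the cost of the depletion -/
def cs (L : List ℕ) : ℕ := L.length + (L.filter fun p => p % pp = 1).length

section words

variable {R : Type} [CommRing R] (ρ : (ZMod pp)⟦X⟧ →+* R)

/-- the twist by the cyclotomic character -/
abbrev tw (χ : GQ → R) : GQ → R := Ml.tw ρ (oz pp) χ

/-- unramified outside `T`, which contains two and `p` -/
structure G3 {n : Type} [Fintype n] [DecidableEq n] (Γ : Subgroup GQ) (T : Finset ℕ)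
    (a : GQ → Matrix n n R) : Prop extends P004F.Pr.Gd Γ T a where
  thr : pp ∈ T

/-- the cocycles which are coboundaries at the tame places above `T` -/
def Y0 (Γ : Subgroup GQ) (T : Finset ℕ) (χ : GQ → R) (P : Ideal (𝓞 Qb)) : Set (Zr Γ T χ P) :=
  {z | ∀ l ∈ T, l ≠ pp → ∀ Q, Ov l Q → ∃ m : R, ∀ g ∈ dec Q, z.1.1 g 0 = (χ g - 1) * m}

/-- `T ^ i` kills the cocycles -/
def Ki (Γ : Subgroup GQ) (T : Finset ℕ) (χ : GQ → R) (P : Ideal (𝓞 Qb)) (i : ℕ) : Prop :=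
  ∀ z : Zr Γ T χ P, ∀ g, tt ρ ^ i * z.1.1 g 0 = 0

/-- totally ramified, or inert -/
def Lt (χ : GQ → R) (l : ℕ) (Q : Ideal (𝓞 Qb)) : Prop :=
  (Rt ρ χ Q ∧ ∃ t, Inert Q t ∧ χ t - 1 ∣ tt ρ) ∨
    ((∀ t, Inert Q t → χ t = 1) ∧ ∀ φ, Fb l Q φ → χ φ - 1 ∣ tt ρ ∧ χ φ - l ∣ tt ρ)

end words

/-- a fixed vector or a fixed linear form -/
def Fv (Γ : Subgroup GQ) (b : GQ → Matrix (Fin 2) (Fin 2) (ZMod pp)) : Prop :=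
  ∃ v : Fin 2 → ZMod pp, v ≠ 0 ∧ ((∀ g ∈ Γ, b g *ᵥ v = v) ∨ ∀ g ∈ Γ, v ᵥ* b g = v)

/-! ### the analytic side -/

open Classical in
/-- **the depth of the elliptic unit** -/
def DPT : Prop := ∀ (K : Type) [Field K] [NumberField K] (j : K →+* Qb) (c M : ℕ)
  (e : GQ → ZMod (pp * M)), Ly j c M e → ∀ (F H : Type) [Field F] [NumberField F] [Field H]
  [NumberField H] [Algebra F H] (jH : H →+* Qb) (φ : GQ) (σ : H ≃ₐ[ℚ] H), Fl j M e F jH φ σ →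
  Cp F σ M → ∀ P, Ov pp P → Fb pp P φ → ∀ v', Ip σ M pp (below (jH.comp (algebraMap F H)) P) v' →
  up H (below (jH.comp (algebraMap F H)) P) = below jH P → ∀ s, Us j c P φ s →
  (∀ g ∈ GK j, P004K.Ip P (hs φ s g)) → ∀ R, Tv (GK j) (Hc j c) R → ∃ u : (𝓞 H)ˣ,
    jH (u : 𝓞 H) * ∏ g ∈ R with e g = 0, g (s : Qb) = φ (∏ g ∈ R with e g = 0, g (s : Qb)) ∧
    ∀ l, l + 1 ≤ (pp - 1) * M → Vn P R e (hs φ s) l →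
      Dp σ (below (jH.comp (algebraMap F H)) P) u ((pp - 1) * M - l - 1)

/-- the expansion of `(D(τ) ^ p / D(p τ) - 1) / p` modulo `p` -/
def TAU : Prop := ∃ (W : ℍ → ℂ) (hW : W ∈ Hol) (Z : PowerSeries ℤ),
  (∀ τ, W τ = (Dq τ ^ pp / Dq (ofComplex (pp * τ)) - 1) / pp) ∧ inc W hW ∈ MF (Gamma0 (pp ^ 2)) ∧
  ExM 1 (ls 0 (toCi Z)) (inc W hW) ∧ ∀ n, ((PowerSeries.coeff n Z : ℤ) : ZMod pp) =
    if pp ∣ n then 0 else -24 * ∑ d ∈ n.divisors, (d : ZMod pp)⁻¹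

/-- **the depleted form is a sum of values of `hs` modulo `p`** -/
def QF : Prop := ∀ (N : ℕ) (a : ℕ → ℤ) (S : List ℕ), 0 < N → S.Nodup → (∀ p ∈ S, p.Prime) → pp ∈ S →
  (∀ n : ℕ, n.Coprime S.prod → (pp : ℤ) ∣ a n - ArithmeticFunction.sigma 1 n) →
  ∀ u ∈ MF (Gamma0 (N * S.prod ^ 2)), ∀ s, ExM 1 s u → Zq pp s → Cq pp (dp S.prod a) s →
  ∀ P : ℕ → Ideal (𝓞 Qb), (∀ p ∈ S, (P p).IsPrime ∧ (p : 𝓞 Qb) ∈ P p) →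
  ∃ T : ℕ, ∀ δ, T ≤ δ → Squarefree δ →
  ∀ (K : Type) [Field K] [NumberField K] (j : K →+* Qb), Iq K → ∀ θ : 𝓞 K,
  θ ^ 2 = -(δ : 𝓞 K) → ∀ I I' Q φ, Ch j N I I' S P Q φ →
  ∀ c : ℕ, 0 < c → c.Coprime (N * S.prod) → ∀ z, Us j c (P pp) (φ pp) z → ∀ g ∈ GK j,
    P004K.Ip (P pp) (hs (φ pp) z g) ∧ ∀ σ τ τ', Ex σ g →
    Hp (JJ j) (N * S.prod ^ 2) (IM j I S P) c τ → Cj0 σ (N * S.prod ^ 2) τ τ' →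
    ∀ y : Qb, Val τ' u (io y) → Zp (P pp) (24 * y + dpl φ (hs (φ pp) z) (S.erase pp) g)

/-- the cost of the depletion -/
def SHF : Prop := ∀ (Γ U : Subgroup GQ) (R : Finset GQ) (m : ℕ) (e : GQ → ZMod (pp * pp ^ m))
  (P : Ideal (𝓞 Qb)) (h : GQ → Qb) (φ : ℕ → GQ) (L : List ℕ) (l : ℕ), Tv Γ U R → U ≤ Γ →
  (∀ g ∈ Γ, ∀ g' ∈ Γ, g * g' * g⁻¹ * g'⁻¹ ∈ U) → (∀ g ∈ Γ, ∀ g' ∈ Γ, e (g * g') = e g + e g') →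
  (∀ g ∈ U, e g = 0) → Ov pp P → (∀ g ∈ Γ, P004K.Ip P (h g) ∧ ∀ u ∈ U, h (g * u) = h g) →
  (∀ p ∈ L, ¬ pp ∣ p ∧ φ p ∈ Γ ∧ IsUnit (e (φ p))) → l + cs L ≤ pp * pp ^ m →
  Vn P R e (dpl φ h L) (l + cs L) → Vn P R e h l

/-! ### the algebraic side -/

/-- the two characters and their local types -/
def GDR : Prop := ∀ (K : Type) [Field K] [NumberField K] (j : K →+* Qb) (c M : ℕ)
  (e : GQ → ZMod (pp * M)) (S : Finset ℕ), Lv j c M e S →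
  ∀ (R : Type) [CommRing R] (ρ : (ZMod pp)⟦X⟧ →+* R) J, Tq ρ J → J ≤ pp * M →
  G3 (GK j) (S ∪ c.primeFactors) (r1 (ch ρ e)) ∧
  G3 (GK j) (S ∪ c.primeFactors) (r1 (tw ρ (ch ρ e))) ∧
  (∀ l ∈ S ∪ c.primeFactors, ∀ Q, Ov l Q → dec Q ≤ GK j ∧ Rt ρ (ch ρ e) Q ∧
    (l % pp = 1 → Rt ρ (tw ρ (ch ρ e)) Q) ∧
    (l ≠ pp → Lt ρ (ch ρ e) l Q ∧ Lt ρ (tw ρ (ch ρ e)) l Q)) ∧
  (∀ γ ∉ GK j, ∀ g ∈ GK j, ch ρ e g * tw ρ (ch ρ e) (γ * g * γ⁻¹) = ρ (PowerSeries.C (oz pp g)) ∧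
    tw ρ (ch ρ e) g * ch ρ e (γ * g * γ⁻¹) = ρ (PowerSeries.C (oz pp g))) ∧
  ∃ W : Subgroup GQ, IsOpen (W : Set GQ) ∧ W.Normal ∧ W ≤ GK j ∧
    (∀ w ∈ W, ch ρ e w = 1 ∧ tw ρ (ch ρ e) w = 1 ∧ oz pp w = 1) ∧
    ∀ P, Ov pp P → ∀ g ∈ GK j, ∃ d ∈ dec P, g * d⁻¹ ∈ W

/-- **Kummer theory and the lemma of Shapiro** -/
def SHP : Prop := ∀ (K : Type) [Field K] [NumberField K] (j : K →+* Qb) (c M : ℕ)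
  (e : GQ → ZMod (pp * M)), Ly j c M e → ∀ (F H : Type) [Field F] [NumberField F] [Field H]
  [NumberField H] [Algebra F H] (jH : H →+* Qb) (φ : GQ) (σ : H ≃ₐ[ℚ] H), Fl j M e F jH φ σ →
  Cp F σ M → ∀ P, Ov pp P → Fb pp P φ → dec P ≤ GK j → ∀ v v' : Ideal (𝓞 F), Ip σ M pp v v' →
  up H v = below jH P → ∀ T : Finset ℕ, pp ∈ T → (∀ q : ℕ, q.Prime → q ∣ c → q ∈ T) →
  ∀ A : Ideal (𝓞 H), (∀ Q : Ideal (𝓞 H), Q.IsPrime → A ≤ Q → ∃ l ∈ T, l.Prime ∧ (l : 𝓞 H) ∈ Q) →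
  ∀ (R : Type) [CommRing R] (ρ : (ZMod pp)⟦X⟧ →+* R), Tq ρ (pp * M) →
  ∃ κ : 𝓞 H → Zr (GK j) T (tw ρ (ch ρ e)) P, ∀ a b, Ad (up H v ^ 2) A a → Ad (up H v ^ 2) A b →
    κ a = κ b → ∃ y : H, (a : H) = y ^ pp * b

/-- Kummer theory over the quadratic field -/
def KUK : Prop := ∀ (K : Type) [Field K] [NumberField K] (j : K →+* Qb) (z : GQ → ZMod pp),
  (∀ g ∈ GK j, ∀ h ∈ GK j, z (g * h) = z g + oz pp g * z h) →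
  (∃ W : Subgroup GQ, IsOpen (W : Set GQ) ∧ ∀ w ∈ GK j, w ∈ W → z w = 0) →
  ∃ (a : 𝓞 K) (y : Qb), a ≠ 0 ∧ y ^ pp = j a ∧ ∀ g ∈ GK j, g y = P022K.G2.zt pp ^ (z g).val * y

/-- the valuations of a class which lifts -/
def VAL : Prop := ∀ (K : Type) [Field K] [NumberField K] (j : K →+* Qb), Iq K →
  ∀ (c : ℕ) (a : 𝓞 K) (y : Qb) (x z z' : GQ → ZMod pp), 0 < c → a ≠ 0 → y ^ pp = j a →
  (∀ g ∈ GK j, g y = P022K.G2.zt pp ^ (z g).val * y) → (∀ g ∈ GK j, ∀ h ∈ GK j, x (g * h) = x g + x h) →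
  (∀ g ∈ GK j, ∀ h ∈ GK j, z' (g * h) = z' g + oz pp g * z' h + x g * oz pp g * z h) →
  (∃ W : Subgroup GQ, IsOpen (W : Set GQ) ∧ ∀ w ∈ GK j, w ∈ W → x w = 0 ∧ z' w = 0) →
  (∀ l Q, Ov l Q → ¬ l ∣ c → (l ≠ pp ∧ ∀ g ∈ GK j, Inert Q g → z g = 0) ∨
    (dec Q ≤ GK j ∧ (∀ g, Inert Q g → x g = 0) ∧ ∃ φ, Fb l Q φ ∧ x φ ≠ 0)) →
  ∃ (I J : Ideal (𝓞 K)) (n : ℕ), Ideal.span {a} = I ^ pp * J ∧ J ∣ Ideal.span {(c : 𝓞 K)} ^ n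

/-- **no free part** -/
def MU : Prop := ∀ (K : Type) [Field K] [NumberField K] (j : K →+* Qb) (c M : ℕ)
  (e : GQ → ZMod (pp * M)) (S : Finset ℕ), Lv j c M e S → ∀ P, Ov pp P → Sl j c (eb e) P →
  ∀ (R : Type) [CommRing R] (ρ : (ZMod pp)⟦X⟧ →+* R) J, Tq ρ J → J ≤ pp * M →
  Ki ρ (GK j) (S ∪ c.primeFactors) (tw ρ (ch ρ e)) P 1

/-- bounded exponent gives bounded order -/
def LEX : Prop := ∀ (Γ : Subgroup GQ) (S : Finset ℕ) (α : GQ → ZMod pp), G3 Γ S (r1 α) → ∀ k : ℕ,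
  ∃ C : ℕ, ∀ (T : Finset ℕ) (R : Type) [CommRing R] (ρ : (ZMod pp)⟦X⟧ →+* R) (J : ℕ) (χ : GQ → R) P,
  T.card ≤ k → Tq ρ J → G3 Γ (S ∪ T) (r1 χ) → (∀ g ∈ Γ, tt ρ ∣ χ g - ρ (PowerSeries.C (α g))) →
  Finite (Zr Γ (S ∪ T) χ P) ∧
  (∀ i, Ki ρ Γ (S ∪ T) χ P i → Nat.card (Zr Γ (S ∪ T) χ P) ≤ pp ^ (C * i)) ∧
  (∀ i, Nat.card (Y0 Γ (S ∪ T) χ P) ≤ pp ^ i → ∀ z ∈ Y0 Γ (S ∪ T) χ P, ∀ g,
    tt ρ ^ i * z.1.1 g 0 = 0) ∧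
  (Ki ρ Γ (S ∪ T) χ P 1 → ∀ (R' : Type) [CommRing R'] (ρ' : (ZMod pp)⟦X⟧ →+* R') (J' : ℕ)
    (χ' : GQ → R'), Tq ρ' J' → 0 < J' → G3 Γ (S ∪ T) (r1 χ') →
    (∀ g ∈ Γ, tt ρ' ∣ χ' g - ρ' (PowerSeries.C (α g))) →
    Nat.card (Zr Γ (S ∪ T) χ P) ≤ Nat.card (Zr Γ (S ∪ T) χ' P))

/-- **the local indices** -/
def LOI : Prop := ∀ (R : Type) [CommRing R] (ρ : (ZMod pp)⟦X⟧ →+* R) (J : ℕ), Tq ρ J →
  ∀ (Γ : Subgroup GQ) (T : Finset ℕ) (χ : GQ → R) P, G3 Γ T (r1 χ) →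
  (∀ l ∈ T, l ≠ pp → ∀ Q, Ov l Q → dec Q ≤ Γ ∧ Lt ρ χ l Q) →
  (∀ z : Zr Γ T χ P, tt ρ ^ 2 • z ∈ Y0 Γ T χ P) ∧
  (2 ≤ J → Ki ρ Γ T χ P 1 → Finite (Zr Γ T χ P) →
    Nat.card (Zr Γ T χ P) ≤ pp ^ (2 * (T.erase pp).card) * Nat.card (Y0 Γ T χ P))

/-- **the count**: the local relations are divisible by `T` at `U` and vanish at `L` -/
def DU1 : Prop := ∀ (R : Type) [CommRing R] (ρ : (ZMod pp)⟦X⟧ →+* R) (J : ℕ), Tq ρ J → 0 < J →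
  ∀ (Γ : Subgroup GQ) (T U L : Finset ℕ) (χ : GQ → R) P, G3 Γ T (r1 χ) → Ov pp P → dec P ≤ Γ →
  Disjoint U L → (∀ l ∈ U ∪ L, l ∈ T ∧ l % pp = 1 ∧ ∀ Q, Ov l Q → dec Q ≤ Γ ∧ Rt ρ χ Q) →
  (∀ l ∈ L, ∀ Q, Ov l Q → ∀ g ∈ dec Q, χ g = 1) →
  (∃ l ∈ T, l ≠ pp ∧ l ∉ U ∪ L ∧ ∃ Q, Ov l Q ∧ dec Q ≤ Γ ∧ Rt ρ χ Q) →
  pp ^ (2 * U.card) * Nat.card R ^ (2 * L.card) ≤ Nat.card (Zr Γ T χ P)

/-- orthogonal subgroups -/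
def ORT : Prop := ∀ (R : Type) [CommRing R] (ρ : (ZMod pp)⟦X⟧ →+* R) (J : ℕ), Tq ρ J →
  ∀ (ι : Type) [Fintype ι] (w : ι → ℕ) (A B : AddSubgroup (ι → R)), (∀ i, ¬ pp ∣ w i) →
  (∀ x ∈ A, ∀ y ∈ B, ∑ i, w i • (x i * y i) = 0) →
  Finite R ∧ Nat.card A * Nat.card B ≤ Nat.card R ^ Fintype.card ι

/-- **duality** -/
def DU : Prop := ∀ (R : Type) [CommRing R] (ρ : (ZMod pp)⟦X⟧ →+* R) (J : ℕ), Tq ρ J → 0 < J →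
  ∀ (Γ W : Subgroup GQ) (T U : Finset ℕ) (χ χ' : GQ → R) P, ∀ γ ∉ Γ, G3 Γ T (r1 χ) →
  G3 Γ T (r1 χ') → Ov pp P → (∀ l ∈ T, ∀ Q, Ov l Q → dec Q ≤ Γ) →
  (∀ g ∈ Γ, χ g * χ' (γ * g * γ⁻¹) = ρ (PowerSeries.C (oz pp g))) →
  IsOpen (W : Set GQ) → W.Normal → W ≤ Γ → (∀ w ∈ W, χ w = 1 ∧ χ' w = 1 ∧ oz pp w = 1) →
  (∀ g ∈ Γ, ∃ d ∈ dec P, g * d⁻¹ ∈ W) →
  (∀ l ∈ U, l ∈ T ∧ l % pp = 1 ∧ ∀ Q, Ov l Q → Rt ρ χ Q) →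
  (∃ l ∈ T, l ≠ pp ∧ l ∉ U ∧ ∃ Q, Ov l Q ∧ Rt ρ χ Q) →
  Finite (Zr Γ T χ' P) → (∀ L : Finset ℕ, (∀ l ∈ L, l.Prime) → Finite (Zr Γ (T ∪ L) χ P)) →
  pp ^ (2 * U.card) * Nat.card (Y0 Γ T χ' P) ≤ Nat.card (Zr Γ T χ P)

/-- **the group of an extension is the product of the rank one groups** -/
def MUL : Prop := ∀ (R : Type) [CommRing R] (ρ : (ZMod pp)⟦X⟧ →+* R) (J : ℕ), Tq ρ J → 0 < J →
  ∀ (Γ : Subgroup GQ) (T : Finset ℕ) (χ : GQ → R) (b : GQ → Matrix (Fin 2) (Fin 2) (ZMod pp)) P,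
  G3 Γ T (r1 χ) → G3 Γ T b → Fv Γ b → (∀ g ∈ Γ, (b g).det = oz pp g) → Ov pp P → dec P ≤ Γ →
  (∃ l ∈ T, l % pp = 1 ∧ ∃ Q, Ov l Q ∧ dec Q ≤ Γ ∧ Rt ρ χ Q) → Finite (Z0 Γ T (r2 ρ χ b) P) ∧
    Nat.card (Z0 Γ T (r2 ρ χ b) P) ≤ Nat.card (Zr Γ T χ P) * Nat.card (Zr Γ T (tw ρ χ) P) ∧
    ∀ l, 2 * l ≤ J → Nat.card (Zr Γ T χ P) * Nat.card (Zr Γ T (tw ρ χ) P) ≤ pp ^ l →
      Nat.card (Zr Γ T χ P) * Nat.card (Zr Γ T (tw ρ χ) P) ≤ Nat.card (Z0 Γ T (r2 ρ χ b) P)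

/-- Eisenstein congruences for all coefficients -/
def CSG : Prop := ∀ N G a (S : List ℕ), P004N.RN N G a →
  (∀ l : ℕ, l.Prime → l ∉ S → ¬ l ∣ N ∧ (pp : ℤ) ∣ a l - (1 + l)) → (∀ p ∈ S, p.Prime) →
  ∀ n : ℕ, n.Coprime S.prod → (pp : ℤ) ∣ a n - ArithmeticFunction.sigma 1 n

end Vale.Agent.P014Z.Rp
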