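import Vale.Agent.P014Z.Rp.St

/-!
# P014Z, a rational point of order `p`: the two steps of the tower
-/

set_option autoImplicit false
set_option linter.all false

open NumberField
open scoped Pointwise

noncomputable section

namespace Vale.Agent.P014Z.Rp

open Vale.Agent.P022 (Qb GQ GK below IsFrob)
open P004K P014U
open Vale.Agent.P027M.S (Inert)
open Vale.Agent.P022D.W (dec)
open Vale.Agent.P022E.GW (Ov Fb)

variable [Pp]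

section

variable {K : Type} [Field K] [NumberField K] (j : K →+* Qb)

/-- the output of the row `GEN` -/
structure Ga (γ : GQ) (B : Finset ℕ) (P : ℕ → Ideal (𝓞 Qb)) (A : Finset K) : Prop where
  ne : 0 ∉ A
  unr : ∀ n l Q, Ov l Q → l ∉ B → ∀ g ∈ GK j, Inert Q g → Fx (insert 1 (j '' A)) (pp ^ n) g
  stb : ∀ (N : ℕ) (ζ : Qb), ∀ g ∈ GK j, ∀ h ∈ GK j, ∀ y : ℕ → ZMod N, 0 < N →
    Fx (insert 1 (j '' A)) N h → Rl j γ B P ζ g y → Rl j γ B P ζ (g * h) y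
  one : ∀ (N : ℕ) (ζ : Qb), Rl j γ B P ζ 1 (0 : ℕ → ZMod N)
  cub : ∀ (a : 𝓞 K) (I : Ideal (𝓞 K)) (y : Qb), ∀ g ∈ GK j, a ≠ 0 → Ideal.span {a} = I ^ pp →
    y ^ pp = j a → Fx (insert 1 (j '' A)) pp g → g y = y

/-- primes with a character which is totally ramified at them and takes the value one on `B` -/
structure P0 (B : Finset ℕ) (P : ℕ → Ideal (𝓞 Qb)) (G : GQ → Prop) {N : ℕ} {ι : Type} [Fintype ι]
    (q : ι → ℕ) (Q : ι → Ideal (𝓞 Qb)) (φ : ι → GQ) (e : GQ → ZMod N) : Prop where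
  inj : Function.Injective q
  pl : ∀ i, Ov (q i) (Q i) ∧ Fb (q i) (Q i) (φ i) ∧ q i ∉ B ∧ Fx {1} N (φ i) ∧ G (φ i) ∧
    ∀ Q', Ov (q i) Q' → dec Q' ≤ GK j ∧ ∃ t, Inert Q' t ∧ e t = 1
  add : ∀ g ∈ GK j, ∀ h ∈ GK j, e (g * h) = e g + e h
  ker : ∀ g ∈ Hc j (∏ i, q i), e g = 0
  val : ∀ b ∈ B, ∀ ψ, Fb b (P b) ψ → e ψ = 1

/-- the first primes -/
structure P1 (B : Finset ℕ) (P : ℕ → Ideal (𝓞 Qb)) (G : GQ → Prop) {N d : ℕ}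
    (q : Fin (d + 1) → ℕ) (Q : Fin (d + 1) → Ideal (𝓞 Qb)) (φ : Fin (d + 1) → GQ)
    (e : GQ → ZMod N) : Prop extends P0 j B P G q Q φ e where
  x9 : ∀ i, ∃ z, Xc j (pp ^ 2) z ∧ z (φ i) ≠ 0 ∧ ∀ i' ≠ i, z (φ i') = 0
  det : ∀ (a : 𝓞 K) (y : Qb), Yz j a → y ^ pp = j a → (∀ i, φ i y = y) → ∃ t : K, (a : K) = t ^ pp

end

/-- **the first step** -/
def TW1 : Prop := ∀ (K : Type) [Field K] [NumberField K] (j : K →+* Qb), Kd j → ∀ γ ∉ GK j,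
  ∀ B P A, Bs j B P → Ga j γ B P A → ∀ (S : Finset ℕ) U Gq, Nq j S U Gq →
  ∃ d m : ℕ, ∀ n, ∃ (q : Fin (d + 1) → ℕ) (Q : Fin (d + 1) → Ideal (𝓞 Qb)) (φ : Fin (d + 1) → GQ)
    (e : GQ → ZMod (pp * pp ^ (n + 1))), P1 j B P (Gq m) q Q φ e

/-- **the last prime** -/
def TW2 : Prop := ∀ (K : Type) [Field K] [NumberField K] (j : K →+* Qb), Kd j → ∀ γ ∉ GK j,
  ∀ B P A, Bs j B P → Ga j γ B P A → ∀ (S : Finset ℕ) U Gq, S ⊆ B → Nq j S U Gq →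
  ∃ m' : ℕ, ∀ (G : GQ → Prop) (n d : ℕ) (q : Fin (d + 1) → ℕ) (Q : Fin (d + 1) → Ideal (𝓞 Qb))
    (φ : Fin (d + 1) → GQ) (e : GQ → ZMod (pp * pp ^ (n + 1))), P1 j B P G q Q φ e →
  ∃ (q' : Option (Fin (d + 1)) → ℕ) (Q' : Option (Fin (d + 1)) → Ideal (𝓞 Qb))
    (φ' : Option (Fin (d + 1)) → GQ) (e' : GQ → ZMod (pp * pp ^ (n + 1))),
    P0 j B P (fun g => G g ∨ Gq m' g) q' Q' φ' e' ∧ Kl j q' Q' φ' none (eb e') (eb e)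

end Vale.Agent.P014Z.Rp
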